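import Vale.Agent.P354XT.Defs

/-!
The statements at one frequency, the Parseval property of the ring of fields, and the estimate
of top order.
-/

open scoped ContDiff InnerProductSpace
open Set
open Complex (I)

namespace Vale.Agent.P354XT

open Vale.Agent.P354BF

section curves
variable {S : Type} [NormedAddCommGroup S] [InnerProductSpace ℂ S]

/-- The operator on curves at the frequency (om, m). -/
noncomputable def Op.cv (M a om m : ℝ) : Op → (ℝ → S) → ℝ → S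
  | .one, v => v
  | .T e, v => fun r => (-(I * om)) • e.cv M a om m v r
  | .R e, v => deriv (e.cv M a om m v)
  | .F e, v => fun r => (I * m) • e.cv M a om m v r
  | .mul c e, v => fun r => (c (M, a, r) : ℂ) • e.cv M a om m v r
  | .add e e', v => fun r => e.cv M a om m v r + e'.cv M a om m v r

/-- The first order term of the commutator of P with a function of the time. -/
noncomputable def Nc (G : Ang S) (f : ℝ → ℝ) (M a om m : ℝ) (v : ℝ → S) (r : ℝ) : S :=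
  (2 : ℂ) • (((r ^ 2 + a ^ 2 - De M a r * f r : ℝ) : ℂ) • deriv v r +
    (I * f r * Kf a om m r + I * a * m) • v r -
    (I * om * a ^ 2) • (v r - G.w 2 (G.w 2 (v r))))

/-- 1 + om^2 + m^2. -/
def lam (om m : ℝ) : ℝ := 1 + om ^ 2 + m ^ 2

/-- First derivatives. -/
noncomputable def d1 (G : Ang S) (om m : ℝ) (v : ℝ → S) (r : ℝ) : ℝ :=
  ‖deriv v r‖ ^ 2 + lam om m * ‖v r‖ ^ 2 + ∑ i, ‖G.L i (v r)‖ ^ 2

/-- The derivatives of order n ≥ 3 with at most three radial or angular letters. -/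
noncomputable def Wn (G : Ang S) (om m : ℝ) (n : ℕ) (v : ℝ → S) (r : ℝ) : ℝ :=
  ∑ j ∈ Finset.range 4, lam om m ^ (n - j) * ‖iteratedDeriv j v r‖ ^ 2 +
    ∑ j ∈ Finset.range 3, lam om m ^ (n - 1 - j) * ∑ i, ‖G.L i (iteratedDeriv j v r)‖ ^ 2 +
    ∑ j ∈ Finset.range 2, lam om m ^ (n - 2 - j) * ‖G.cas (iteratedDeriv j v r)‖ ^ 2

/-- The flux which enters at the radius R1. -/
noncomputable def gc (G : Ang S) (σ : Bool) (n : ℕ) (M a γ R1 om m : ℝ) (v : ℝ → S) (r : ℝ) : ℝ :=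
  cond σ (R1 ^ (γ - 3) * Wn G om m n (deriv v) r + R1 ^ (γ - 7) * Wn G om m (n + 1) v r)
    (R1 ^ (-3 : ℝ) * (lam om m ^ (n - 2) * ‖Op.l3.cv M a om m v r‖ ^ 2))

end curves

/-- A term of the multiplier: weight, operator on the source, operator on the field. -/
structure Tm where
  w : ℝ × ℝ × ℝ → ℝ
  al : Op
  be : Op

/-- Orders and support. -/
structure Tm.Ok (τ : Tm) (n : ℕ) (x y : ℝ) : Prop where
  sw : ContDiff ℝ ∞ τ.w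
  out : ∀ M a r, r ∉ Icc x y → τ.w (M, a, r) = 0
  sa : τ.al.Sm
  sb : τ.be.Sm
  oa : τ.al.ord ≤ n
  ob : τ.be.ord ≤ n + 1

/-- The pairing of H with the multiplier applied to v. -/
noncomputable def pair {S : Type} [NormedAddCommGroup S] [InnerProductSpace ℂ S] (l : List Tm)
    (M a om m x y : ℝ) (H v : ℝ → S) : ℝ :=
  (l.map fun τ => ∫ r in x..y,
    τ.w (M, a, r) * (⟪τ.al.cv M a om m H r, τ.be.cv M a om m v r⟫_ℂ).re).sum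

/-- The bulk estimate and the energy estimate at one real frequency. -/
def MODE (σ : Bool) : Prop :=
  ∀ M0 a0 rm : ℝ, a0 ≠ 0 → |a0| < M0 → ∀ f, Slope M0 a0 rm f → ∀ γ : ℝ, 0 < γ → γ ≤ 1 →
    ∃ (n : ℕ) (rb q1 q2 q3 q4 Rs : ℝ), 4 ≤ n ∧ rm ≤ rb ∧ rb < rp M0 a0 ∧ rp M0 a0 < q1 ∧
      q1 < q2 ∧ q2 ≤ q3 ∧ q3 < q4 ∧ q4 < Rs ∧
    ∀ r0 r1 R0 : ℝ, rb ≤ r0 → r0 < rp M0 a0 → rp M0 a0 < r1 → r1 < q1 → Rs ≤ R0 →
    ∀ eH : ℝ, 0 < eH → ∃ C0 : ℝ, ∀ R1 : ℝ, 4 * R0 ≤ R1 →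
    ∃ (l : List Tm) (C1 dl : ℝ), 0 < dl ∧ (∀ τ ∈ l, τ.Ok n r0 (2 * R1)) ∧
    ∀ M a : ℝ, |M - M0| < dl → |a - a0| < dl →
    ∀ (S : Type) [NormedAddCommGroup S] [InnerProductSpace ℂ S] (G : Ang S), G.Is → G.s = sp σ →
    ∀ (om m : ℝ) (v : ℝ → S), G.Md m v →
      ((∫ r in r1..q2, lam om m ^ n * d1 G om m v r) +
        (∫ r in q3..(3 * R0), lam om m ^ n * d1 G om m v r) +
        (∫ r in r1..(3 * R0), lam om m ^ (n - 1) * d1 G om m v r) ≤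
        -pair l M a om m r0 (2 * R1) (G.P G.s G.s M a om m v) v +
        C0 * (∫ r in R1..(2 * R1), gc G σ n M a γ R1 om m v r) +
        eH * (∫ r in r0..r1, Wn G om m (n + 1) v r) +
        C1 * ((∫ r in r0..q1, Wn G om m n v r) + (∫ r in q4..(2 * R1), Wn G om m n v r) +
          ∫ r in r0..(2 * R1),
            (Wn G om m (n - 1) v r + Wn G om m (n - 1) (G.P G.s G.s M a om m v) r))) ∧
      (∫ r in r1..(3 * R0), lam om m ^ n * d1 G om m v r) ≤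
        -pair l M a om m r0 (2 * R1) (Nc G (fun r => f (M, a, r)) M a om m v) v +
        C1 * ∫ r in r0..(2 * R1),
          (Wn G om m n v r + Wn G om m (n - 1) (G.P G.s G.s M a om m v) r)

variable {A : Type} [CommRing A] [Algebra ℂ A]

/-- Sections which vanish outside of the times [ta, tb]. -/
def Fld.Cl (Φ : Fld A) (ta tb : ℝ) (F : A) : Prop :=
  F ∈ Φ.Sp ∧ ∀ x, (Φ.pr x).1 ∉ Icc ta tb → Φ.B.ev x F = 0

/-- The Fourier coefficients on the box [ta, tb] × [ra, rb]. -/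
structure Fld.Hat (Φ : Fld A) {S : Type} [NormedAddCommGroup S] [InnerProductSpace ℂ S]
    (G : Ang S) (ta tb ra rb : ℝ) {ι : Type} (om m : ι → ℝ) (κ : ℝ) (hat : ι → A → ℝ → S) :
    Prop where
  pos : 0 < κ
  md : ∀ i F, Φ.Cl ta tb F → G.Md (m i) (hat i F)
  add : ∀ i F F', Φ.Cl ta tb F → Φ.Cl ta tb F' → ∀ r ∈ Ioo ra rb,
    hat i (F + F') r = hat i F r + hat i F' r
  smul : ∀ i (z : ℂ) F, Φ.Cl ta tb F → ∀ r ∈ Ioo ra rb,
    hat i (algebraMap ℂ A z * F) r = z • hat i F r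
  rad : ∀ i c F, ContDiff ℝ ∞ c → Φ.Cl ta tb F → ∀ r ∈ Ioo ra rb,
    hat i (Φ.rad c * F) r = (c r : ℂ) • hat i F r
  T : ∀ i F, Φ.Cl ta tb F → ∀ r ∈ Ioo ra rb, hat i (Φ.T F) r = (-(I * om i)) • hat i F r
  R : ∀ i F, Φ.Cl ta tb F → ∀ r ∈ Ioo ra rb, hat i (Φ.R F) r = deriv (hat i F) r
  F : ∀ i F, Φ.Cl ta tb F → ∀ r ∈ Ioo ra rb, hat i (Φ.L 2 F) r = (I * m i) • hat i F r
  w : ∀ i F, Φ.Cl ta tb F → ∀ r ∈ Ioo ra rb, hat i (Φ.w 2 * F) r = G.w 2 (hat i F r)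
  cas : ∀ i F, Φ.Cl ta tb F → ∀ r ∈ Ioo ra rb,
    hat i (∑ j, Φ.L j (Φ.L j F)) r = -G.cas (hat i F r)
  par : ∀ c x y F F', ContDiff ℝ ∞ c → ra < x → x ≤ y → y < rb → (∀ r, r ∉ Icc x y → c r = 0) →
    Φ.Cl ta tb F → Φ.Cl ta tb F' →
    HasSum (fun i => ∫ r in x..y, c r * (⟪hat i F r, hat i F' r⟫_ℂ).re)
      (κ * Φ.B.bil (Φ.rad c) F F')

/-- The Parseval property. -/
def Fld.Par (Φ : Fld A) : Prop :=
  ∃ (S : Type) (_ : NormedAddCommGroup S) (_ : InnerProductSpace ℂ S) (G : Ang S),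
    G.Is ∧ G.s = Φ.s ∧ ∀ ta tb ra rb : ℝ, Icc ta tb ×ˢ Icc ra rb ⊆ Φ.Om →
      ∃ (ι : Type) (om m : ι → ℝ) (κ : ℝ) (hat : ι → A → ℝ → S), Φ.Hat G ta tb ra rb om m κ hat

/-- The estimate of top order. -/
def TOP (σ : Bool) : Prop :=
  ∀ M0 a0 rm : ℝ, a0 ≠ 0 → |a0| < M0 → ∀ f, Slope M0 a0 rm f → ∀ γ : ℝ, 0 < γ → γ ≤ 1 →
    ∃ (n : ℕ) (rI p1 p2 p3 p4 Rs : ℝ), 4 ≤ n ∧ rm < rI ∧ rI < rp M0 a0 ∧ rp M0 a0 < p1 ∧
      p1 < p2 ∧ p2 < p3 ∧ p3 < p4 ∧ 2 * p4 < Rs ∧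
    ∀ (k : ℕ) (Cf R0 : ℝ), Rs ≤ R0 → ∃ C0 : ℝ, ∀ R1 : ℝ, 4 * R0 ≤ R1 → ∀ ε : ℝ, 0 < ε →
    ∃ C1 dl eps : ℝ, 0 < dl ∧ 0 < eps ∧ ∀ M a : ℝ, |M - M0| < dl → |a - a0| < dl →
      ∀ (A : Type) [CommRing A] [Algebra ℂ A] (Φ : Fld A) (D : Dat A), Φ.Is → Φ.Par →
      Φ.s = sp σ → (Φ.f = fun r => f (M, a, r)) → Fam Φ D M a n k Cf rm rI R0 R1 eps →
      ∀ κ ≤ D.K,
        D.En Φ (n + k) R0 κ + ∑ j ∈ Finset.range (κ + 1), D.bk Φ (n + k) p1 p2 p3 p4 R0 j ≤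
          C0 * ∑ j ∈ Finset.range (κ + 1), D.Gd Φ σ n k M a γ R1 j +
          ε * (∑ j ∈ Finset.Icc (κ - 3) κ, D.Ef Φ (n + k) R1 j +
            ∑ j ∈ Finset.range (κ + 1), D.Bf Φ (n + k) R0 R1 j) +
          C1 * D.rest Φ (n + k) R1 κ

end Vale.Agent.P354XT
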