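import Vale.Agent.P354XT.Defs

/-!
Calculus of cut off functions, words, functions of r and of t, and densities.
-/

open scoped ContDiff
open Set

namespace Vale.Agent.P354XT

open Vale.Agent.P354XG (Der D_mul D_add D_sub D_neg D_alg)
open Vale.Agent.P354XI
open Vale.Agent.P354XI.Ibp

theorem up_sm (a b : ℝ) : ContDiff ℝ ∞ (up a b) :=
  Real.smoothTransition.contDiff.comp ((contDiff_id.sub contDiff_const).div_const _)
theorem dn_sm (a b : ℝ) : ContDiff ℝ ∞ (dn a b) := contDiff_const.sub (up_sm a b)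
theorem up_nonneg (a b x : ℝ) : 0 ≤ up a b x := Real.smoothTransition.nonneg _
theorem up_le (a b x : ℝ) : up a b x ≤ 1 := Real.smoothTransition.le_one _
theorem dn_nonneg (a b x : ℝ) : 0 ≤ dn a b x := sub_nonneg.2 (up_le a b x)
theorem dn_le (a b x : ℝ) : dn a b x ≤ 1 := sub_le_self _ (up_nonneg a b x)
theorem up_zero {a b x : ℝ} (h : a < b) (hx : x ≤ a) : up a b x = 0 :=
  Real.smoothTransition.zero_of_nonpos (div_nonpos_of_nonpos_of_nonneg (by linarith) (by linarith))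
theorem up_one {a b x : ℝ} (h : a < b) (hx : b ≤ x) : up a b x = 1 :=
  Real.smoothTransition.one_of_one_le ((one_le_div (by linarith)).2 (by linarith))
theorem dn_one {a b x : ℝ} (h : a < b) (hx : x ≤ a) : dn a b x = 1 := by
  rw [dn, up_zero h hx, sub_zero]
theorem dn_zero {a b x : ℝ} (h : a < b) (hx : b ≤ x) : dn a b x = 0 := by
  rw [dn, up_one h hx, sub_self]

theorem bp_sm : ContDiff ℝ ∞ bp := Real.smoothTransition.contDiff.sub
  (Real.smoothTransition.contDiff.comp (contDiff_id.sub contDiff_const))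
theorem bp_nonneg (x : ℝ) : 0 ≤ bp x :=
  sub_nonneg.2 (Real.smoothTransition.monotone (by linarith))
theorem bp_le (x : ℝ) : bp x ≤ 1 := by
  linarith [Real.smoothTransition.le_one x, Real.smoothTransition.nonneg (x - 1),
    show bp x = _ - _ from rfl]
theorem bp_out {x : ℝ} (h : x ∉ Icc (0 : ℝ) 2) : bp x = 0 := by
  rcases not_and_or.1 h with h | h
  · rw [bp, Real.smoothTransition.zero_of_nonpos (by linarith),
      Real.smoothTransition.zero_of_nonpos (by linarith), sub_zero]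
  · rw [bp, Real.smoothTransition.one_of_one_le (by linarith),
      Real.smoothTransition.one_of_one_le (by linarith), sub_self]
theorem bp_sum (p q : ℕ) (h : p ≤ q) (x : ℝ) : ∑ j ∈ Finset.Ico p q, bp (x - j) =
    Real.smoothTransition (x - p) - Real.smoothTransition (x - q) := by
  induction q, h using Nat.le_induction with
  | base => simp
  | succ q h ih =>
    rw [Finset.sum_Ico_succ_top h, ih, bp, show x - q - 1 = x - (q + 1 : ℕ) by push_cast; ring]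
    ring
theorem bp_one {p q : ℕ} (h : p ≤ q) {x : ℝ} (h1 : p + 1 ≤ x) (h2 : x ≤ q) :
    ∑ j ∈ Finset.Ico p q, bp (x - j) = 1 := by
  rw [bp_sum p q h, Real.smoothTransition.one_of_one_le (by linarith),
    Real.smoothTransition.zero_of_nonpos (by linarith), sub_zero]

theorem mem_words {m : ℕ} {J : List (Fin 5)} : J ∈ words m ↔ J.length ≤ m := by
  induction m generalizing J with
  | zero => simp [words]
  | succ m ih => cases J <;> simp [words, ih]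

theorem mem_yw {m : ℕ} {W : List (Fin 5)} : W ∈ yw m ↔ W.length = m ∧ IsY W := by
  classical
  rw [yw, Finset.mem_filter, mem_words]
  exact ⟨fun h => h.2, fun h => ⟨h.1.le, h⟩⟩

theorem words_mono {m m' : ℕ} (h : m ≤ m') : words m ⊆ words m' := fun _ hJ =>
  mem_words.2 ((mem_words.1 hJ).trans h)

theorem IsY.append {W W' : List (Fin 5)} (h : IsY W) (h' : IsY W') : IsY (W ++ W') :=
  fun x hx => (List.mem_append.1 hx).elim (h x) (h' x)
theorem IsY.left {W W' : List (Fin 5)} (h : IsY (W ++ W')) : IsY W :=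
  fun x hx => h x (List.mem_append_left _ hx)
theorem IsY.right {W W' : List (Fin 5)} (h : IsY (W ++ W')) : IsY W' :=
  fun x hx => h x (List.mem_append_right _ hx)
theorem IsY.tail {a : Fin 5} {W : List (Fin 5)} (h : IsY (a :: W)) : IsY W :=
  fun x hx => h x (List.mem_cons_of_mem _ hx)

theorem sum5 {M : Type} [AddCommMonoid M] (g : Fin 5 → M) :
    ∑ a, g a = g 0 + g 1 + g 2 + g 3 + g 4 := by simp [Fin.sum_univ_succ, add_assoc]

theorem fin5 {p : Fin 5 → Prop} (h0 : p 0) (h1 : p 1) (h2 : p 2) (h3 : p 3) (h4 : p 4) (a : Fin 5) :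
    p a := by fin_cases a <;> assumption

variable {A : Type} [CommRing A] [Algebra ℂ A]

namespace Fld
variable {Φ : Fld A}

theorem X0 : Φ.X 0 = Φ.T := rfl
theorem X1 : Φ.X 1 = Φ.R := rfl
theorem X2 : Φ.X 2 = Φ.L 0 := rfl
theorem X3 : Φ.X 3 = Φ.L 1 := rfl
theorem X4 : Φ.X 4 = Φ.L 2 := rfl
theorem XL (i : Fin 3) : Φ.L i = Φ.X (i.addNat 2) := by fin_cases i <;> rfl

theorem wd_nil (u : A) : Φ.wd [] u = u := rfl
theorem wd_cons (a : Fin 5) (J : List (Fin 5)) (u : A) : Φ.wd (a :: J) u = Φ.X a (Φ.wd J u) := rfl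
theorem wd_append (J J' : List (Fin 5)) (u : A) : Φ.wd (J ++ J') u = Φ.wd J (Φ.wd J' u) := by
  induction J with
  | nil => rfl
  | cons a J ih => rw [List.cons_append, wd_cons, ih, wd_cons]
theorem wd_add (J : List (Fin 5)) (u v : A) : Φ.wd J (u + v) = Φ.wd J u + Φ.wd J v := by
  induction J with
  | nil => rfl
  | cons a J ih => rw [wd_cons, ih, D_add, wd_cons, wd_cons]
theorem wd_zero (J : List (Fin 5)) : Φ.wd J 0 = 0 := by
  induction J with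
  | nil => rfl
  | cons a J ih => rw [wd_cons, ih, map_zero]
theorem wd_neg (J : List (Fin 5)) (u : A) : Φ.wd J (-u) = -Φ.wd J u := by
  induction J with
  | nil => rfl
  | cons a J ih => rw [wd_cons, ih, D_neg, wd_cons]
theorem wd_sub (J : List (Fin 5)) (u v : A) : Φ.wd J (u - v) = Φ.wd J u - Φ.wd J v := by
  rw [sub_eq_add_neg, wd_add, wd_neg, sub_eq_add_neg]
theorem wd_sum {ι : Type} (J : List (Fin 5)) (s : Finset ι) (u : ι → A) :
    Φ.wd J (∑ i ∈ s, u i) = ∑ i ∈ s, Φ.wd J (u i) := by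
  induction J with
  | nil => rfl
  | cons a J ih => simp only [wd_cons, ih, map_sum]
theorem wd_alg (J : List (Fin 5)) (z : ℂ) (u : A) :
    Φ.wd J (algebraMap ℂ A z * u) = algebraMap ℂ A z * Φ.wd J u := by
  induction J with
  | nil => rfl
  | cons a J ih => rw [wd_cons, ih, D_mul, D_alg, mul_zero, add_zero, wd_cons]

theorem fd_snd {c : ℝ → ℝ} (hc : ContDiff ℝ ∞ c) (p v : ℝ × ℝ) :
    fderiv ℝ (fun p : ℝ × ℝ => c p.2) p v = deriv c p.2 * v.2 := by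
  have e : HasFDerivAt (fun p : ℝ × ℝ => c p.2) _ p :=
    (hc.differentiable (by simp) p.2).hasDerivAt.comp_hasFDerivAt p
      (hasFDerivAt_snd (𝕜 := ℝ))
  rw [e.fderiv]
  simp
theorem fd_fst {c : ℝ → ℝ} (hc : ContDiff ℝ ∞ c) (p v : ℝ × ℝ) :
    fderiv ℝ (fun p : ℝ × ℝ => c p.1) p v = deriv c p.1 * v.1 := by
  have e : HasFDerivAt (fun p : ℝ × ℝ => c p.1) _ p :=
    (hc.differentiable (by simp) p.1).hasDerivAt.comp_hasFDerivAt p
      (hasFDerivAt_fst (𝕜 := ℝ))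
  rw [e.fderiv]
  simp
theorem sm_der {c : ℝ → ℝ} (hc : ContDiff ℝ ∞ c) : ContDiff ℝ ∞ (deriv c) :=
  (contDiff_infty_iff_deriv.1 hc).2

namespace Is
variable (h : Φ.Is) {c d : ℝ → ℝ}
include h

theorem skT : Φ.B.Skew Φ.T := h.sk 0
theorem skR : Φ.B.Skew Φ.R := h.sk 1
theorem skL (i : Fin 3) : Φ.B.Skew (Φ.L i) := by rw [XL]; exact h.sk _

theorem zero_fn : Φ.fn (fun _ => 0) = 0 := by rw [h.cst, rl_zero]
theorem ev_rad (hc : ContDiff ℝ ∞ c) (x : Φ.B.Pt) : Φ.B.ev x (Φ.rad c) = c (Φ.pr x).2 :=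
  h.ev _ (hc.comp contDiff_snd) x
theorem ev_tm (hc : ContDiff ℝ ∞ c) (x : Φ.B.Pt) : Φ.B.ev x (Φ.tm c) = c (Φ.pr x).1 :=
  h.ev _ (hc.comp contDiff_fst) x
theorem val_rad (hc : ContDiff ℝ ∞ c) (x : Φ.B.Pt) : Φ.B.val x (Φ.rad c) = c (Φ.pr x).2 := by
  rw [val, h.ev_rad hc, Complex.ofReal_re]
theorem val_tm (hc : ContDiff ℝ ∞ c) (x : Φ.B.Pt) : Φ.B.val x (Φ.tm c) = c (Φ.pr x).1 := by
  rw [val, h.ev_tm hc, Complex.ofReal_re]
theorem md_rad (hc : ContDiff ℝ ∞ c) (x : Φ.B.Pt) : Φ.B.md x (Φ.rad c) = |c (Φ.pr x).2| := by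
  rw [md, h.ev_rad hc, Complex.norm_real, Real.norm_eq_abs]
theorem md_tm (hc : ContDiff ℝ ∞ c) (x : Φ.B.Pt) : Φ.B.md x (Φ.tm c) = |c (Φ.pr x).1| := by
  rw [md, h.ev_tm hc, Complex.norm_real, Real.norm_eq_abs]
theorem re_rad (hc : ContDiff ℝ ∞ c) : Φ.B.Re (Φ.rad c) := h.re _ (hc.comp contDiff_snd)
theorem re_tm (hc : ContDiff ℝ ∞ c) : Φ.B.Re (Φ.tm c) := h.re _ (hc.comp contDiff_fst)
theorem rad_mul (hc : ContDiff ℝ ∞ c) (hd : ContDiff ℝ ∞ d) :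
    Φ.rad (fun r => c r * d r) = Φ.rad c * Φ.rad d :=
  h.mul _ _ (hc.comp contDiff_snd) (hd.comp contDiff_snd)
theorem rad_add (hc : ContDiff ℝ ∞ c) (hd : ContDiff ℝ ∞ d) :
    Φ.rad (fun r => c r + d r) = Φ.rad c + Φ.rad d :=
  h.add _ _ (hc.comp contDiff_snd) (hd.comp contDiff_snd)
theorem rad_cst (t : ℝ) : Φ.rad (fun _ => t) = rl A t := h.cst t
theorem tm_mul (hc : ContDiff ℝ ∞ c) (hd : ContDiff ℝ ∞ d) :
    Φ.tm (fun r => c r * d r) = Φ.tm c * Φ.tm d :=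
  h.mul _ _ (hc.comp contDiff_fst) (hd.comp contDiff_fst)
theorem tm_add (hc : ContDiff ℝ ∞ c) (hd : ContDiff ℝ ∞ d) :
    Φ.tm (fun r => c r + d r) = Φ.tm c + Φ.tm d :=
  h.add _ _ (hc.comp contDiff_fst) (hd.comp contDiff_fst)
theorem tm_cst (t : ℝ) : Φ.tm (fun _ => t) = rl A t := h.cst t
theorem T_rad (hc : ContDiff ℝ ∞ c) : Φ.T (Φ.rad c) = 0 := by
  rw [rad, h.Tf (fun p => c p.2) (hc.comp contDiff_snd), ← h.zero_fn]
  simp only [fd_snd hc, mul_zero]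
theorem R_rad (hc : ContDiff ℝ ∞ c) : Φ.R (Φ.rad c) = Φ.rad (deriv c) := by
  rw [rad, h.Rf (fun p => c p.2) (hc.comp contDiff_snd), rad]
  simp only [fd_snd hc, mul_one]
theorem L_rad (hc : ContDiff ℝ ∞ c) (i : Fin 3) : Φ.L i (Φ.rad c) = 0 :=
  h.Lf _ (hc.comp contDiff_snd) i
theorem T_tm (hc : ContDiff ℝ ∞ c) : Φ.T (Φ.tm c) = Φ.tm (deriv c) := by
  rw [tm, h.Tf (fun p => c p.1) (hc.comp contDiff_fst), tm]
  simp only [fd_fst hc, mul_one]
theorem R_tm (hc : ContDiff ℝ ∞ c) : Φ.R (Φ.tm c) = -(Φ.rad Φ.f * Φ.tm (deriv c)) := by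
  have e := h.mul _ _ (h.sf.neg.comp contDiff_snd) ((sm_der hc).comp (contDiff_fst (F := ℝ)))
  have e2 := h.rad_mul (contDiff_const (c := -1)) h.sf
  rw [h.rad_cst, rl_neg, rl_one] at e2
  simp only [neg_mul, one_mul] at e2
  rw [tm, h.Rf (fun p => c p.1) (hc.comp contDiff_fst), ← neg_mul, ← e2]
  refine Eq.trans ?_ e
  simp only [fd_fst hc, Function.comp, mul_comm]
theorem L_tm (hc : ContDiff ℝ ∞ c) (i : Fin 3) : Φ.L i (Φ.tm c) = 0 :=
  h.Lf _ (hc.comp contDiff_fst) i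
theorem T_r : Φ.T Φ.r = 0 := h.T_rad contDiff_id
theorem R_r : Φ.R Φ.r = 1 := by
  rw [r, h.R_rad contDiff_id, deriv_id', h.rad_cst, rl_one]
theorem L_r (i : Fin 3) : Φ.L i Φ.r = 0 := h.L_rad contDiff_id i
theorem re_r : Φ.B.Re Φ.r := h.re_rad contDiff_id
theorem val_r (x : Φ.B.Pt) : Φ.B.val x Φ.r = (Φ.pr x).2 := h.val_rad contDiff_id x

/-- Weights with support in a box. -/
theorem memK {e : ℝ → ℝ} (he : ContDiff ℝ ∞ e) (hc : ContDiff ℝ ∞ c) {ta tb ra rb : ℝ}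
    (hb : Icc ta tb ×ˢ Icc ra rb ⊆ Φ.Om) (e0 : ∀ t, t ∉ Icc ta tb → e t = 0)
    (c0 : ∀ r, r ∉ Icc ra rb → c r = 0) : Φ.tm e * Φ.rad c ∈ Φ.B.K :=
  h.cs _ (isCompact_Icc.prod isCompact_Icc) hb _ fun x hx => by
    rw [map_mul, h.ev_tm he, h.ev_rad hc]
    rcases not_and_or.1 hx with k | k
    · rw [e0 _ k]; simp
    · rw [c0 _ k]; simp

theorem val_w {e : ℝ → ℝ} (he : ContDiff ℝ ∞ e) (hc : ContDiff ℝ ∞ c) (x : Φ.B.Pt) (F : A) :
    Φ.B.val x (Φ.tm e * Φ.rad c * F) = e (Φ.pr x).1 * c (Φ.pr x).2 * Φ.B.val x F := by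
  rw [mul_assoc, h.B.val_mul (h.re_tm he), h.B.val_mul (h.re_rad hc), h.val_tm he, h.val_rad hc,
    mul_assoc]

theorem wd_re (J : List (Fin 5)) {u : A} (hu : Φ.B.Re u) : Φ.B.Re (Φ.wd J u) := by
  induction J with
  | nil => exact hu
  | cons a J ih => exact (h.sk a).isRe ih

theorem wd_sp (J : List (Fin 5)) {u : A} (hu : u ∈ Φ.Sp) : Φ.wd J u ∈ Φ.Sp := by
  induction J with
  | nil => exact hu
  | cons a J ih => exact h.spX a _ ih

theorem val_sq (x : Φ.B.Pt) (u : A) : Φ.B.val x (Φ.sq u) = Φ.B.md x u ^ 2 := by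
  rw [sq, h.B.val_ip, ip_self]
theorem re_sq (u : A) : Φ.B.Re (Φ.sq u) := by rw [Re, sq, map_mul, h.B.cc, mul_comm]
theorem val_lv (x : Φ.B.Pt) (m : ℕ) (f : List (Fin 5) → A) :
    Φ.B.val x (Φ.lv m f) = ∑ J ∈ words m, Φ.B.md x (f J) ^ 2 := by
  simp only [lv, val_sum, h.val_sq]
theorem re_lv (m : ℕ) (f : List (Fin 5) → A) : Φ.B.Re (Φ.lv m f) :=
  Re.sum _ fun _ _ => h.re_sq _
theorem lv_nonneg (x : Φ.B.Pt) (m : ℕ) (f : List (Fin 5) → A) : 0 ≤ Φ.B.val x (Φ.lv m f) := by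
  rw [h.val_lv]; positivity
theorem le_lv (x : Φ.B.Pt) {m : ℕ} (f : List (Fin 5) → A) {J : List (Fin 5)} (hJ : J.length ≤ m) :
    Φ.B.md x (f J) ^ 2 ≤ Φ.B.val x (Φ.lv m f) := by
  rw [h.val_lv]
  exact Finset.single_le_sum (f := fun J => Φ.B.md x (f J) ^ 2) (fun _ _ => sq_nonneg _)
    (mem_words.2 hJ)
theorem lv_mono (x : Φ.B.Pt) {m m' : ℕ} (hm : m ≤ m') (f : List (Fin 5) → A) :
    Φ.B.val x (Φ.lv m f) ≤ Φ.B.val x (Φ.lv m' f) := by
  rw [h.val_lv, h.val_lv]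
  exact Finset.sum_le_sum_of_subset_of_nonneg (words_mono hm) fun _ _ _ => sq_nonneg _

/-- The commutator of two letters is zero or a letter up to the sign. -/
theorem comm (a b : Fin 5) : ∃ (z : ℝ) (c : Fin 5), |z| ≤ 1 ∧
    ∀ u, Φ.X a (Φ.X b u) - Φ.X b (Φ.X a u) = rl A z * Φ.X c u := by
  have z : ∀ {a b : Fin 5}, (∀ u, Φ.X a (Φ.X b u) = Φ.X b (Φ.X a u)) → ∃ (z : ℝ) (c : Fin 5),
      |z| ≤ 1 ∧ ∀ u, Φ.X a (Φ.X b u) - Φ.X b (Φ.X a u) = rl A z * Φ.X c u :=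
    fun e => ⟨0, 0, by simp, fun u => by rw [e, rl_zero, sub_self, zero_mul]⟩
  have n : ∀ {a b c : Fin 5}, (∀ u, Φ.X a (Φ.X b u) - Φ.X b (Φ.X a u) = -Φ.X c u) →
      (∃ (z : ℝ) (c : Fin 5), |z| ≤ 1 ∧
        ∀ u, Φ.X a (Φ.X b u) - Φ.X b (Φ.X a u) = rl A z * Φ.X c u) ∧ ∃ (z : ℝ) (c : Fin 5),
        |z| ≤ 1 ∧ ∀ u, Φ.X b (Φ.X a u) - Φ.X a (Φ.X b u) = rl A z * Φ.X c u :=
    fun {a b c} e => ⟨⟨-1, c, by simp, fun u => by rw [e, rl_neg, rl_one, neg_one_mul]⟩,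
      ⟨1, c, by simp, fun u => by rw [rl_one, one_mul]; linear_combination -e u⟩⟩
  have n0 := n (a := 2) (b := 3) (c := 4) (h.LL 0)
  have n1 := n (a := 3) (b := 4) (c := 2) (h.LL 1)
  have n2 := n (a := 4) (b := 2) (c := 3) (h.LL 2)
  revert a b
  exact fin5
    (fin5 (z fun _ => rfl) (z h.TR) (z (h.TL 0)) (z (h.TL 1)) (z (h.TL 2)))
    (fin5 (z fun u => (h.TR u).symm) (z fun _ => rfl) (z (h.RL 0)) (z (h.RL 1)) (z (h.RL 2)))
    (fin5 (z fun u => (h.TL 0 u).symm) (z fun u => (h.RL 0 u).symm) (z fun _ => rfl) n0.1 n2.2)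
    (fin5 (z fun u => (h.TL 1 u).symm) (z fun u => (h.RL 1 u).symm) n0.2 (z fun _ => rfl) n1.1)
    (fin5 (z fun u => (h.TL 2 u).symm) (z fun u => (h.RL 2 u).symm) n2.1 n1.2 (z fun _ => rfl))

theorem swap (p q : List (Fin 5)) (a b : Fin 5) : ∃ (z : ℝ) (c : Fin 5), |z| ≤ 1 ∧ ∀ u,
    Φ.wd (p ++ a :: b :: q) u - Φ.wd (p ++ b :: a :: q) u = rl A z * Φ.wd (p ++ c :: q) u := by
  obtain ⟨z, c, hz, e⟩ := h.comm a b
  refine ⟨z, c, hz, fun u => ?_⟩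
  rw [wd_append, wd_append, wd_append, ← wd_sub, wd_cons, wd_cons, wd_cons, wd_cons, e, rl, wd_alg,
    wd_cons]

end Is
end Fld

end Vale.Agent.P354XT
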