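import Vale.Agent.P354XI.Tool
import Vale.Agent.P354BF.Defs

/-!
The estimate of top order near the black hole: the ring of fields, the operators, the family of
jets and the slab norms. T is the derivative along the time t, R the ingoing radial derivative
with R t = - f (r), L i the rotations, L 2 the axial field.
-/

open scoped ContDiff
open Set
open Complex (I)

namespace Vale.Agent.P354XT

open Vale.Agent.P354XG (Der)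
open Vale.Agent.P354XI
open Vale.Agent.P354XI.Ibp (rl)
open Vale.Agent.P354BF (De rp)

/-- Cut off functions: up is 0 below a and 1 above b, dn = 1 - up, and the translates of bp
(support [0, 2]) are a partition of unity. -/
noncomputable def up (a b x : ℝ) : ℝ := Real.smoothTransition ((x - a) / (b - a))
noncomputable def dn (a b x : ℝ) : ℝ := 1 - up a b x
noncomputable def bp (x : ℝ) : ℝ := Real.smoothTransition x - Real.smoothTransition (x - 1)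

/-- The spin. -/
def sp (σ : Bool) : ℝ := cond σ 2 (-2)

/-- The words of length at most m. -/
def words : ℕ → Finset (List (Fin 5))
  | 0 => {[]}
  | m + 1 => insert [] (Finset.univ.biUnion fun a : Fin 5 => (words m).image (a :: ·))

/-- Words in T and the axial field. -/
def IsY (W : List (Fin 5)) : Prop := ∀ x ∈ W, x = 0 ∨ x = 4

open Classical in
/-- The words in T and the axial field of length m. -/
noncomputable def yw (m : ℕ) : Finset (List (Fin 5)) :=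
  (words m).filter fun W => W.length = m ∧ IsY W

/-- The ring of fields; pr x = (t, r), fn φ = φ (t, r), Sp = the sections of spin s. -/
structure Fld (A : Type) [CommRing A] [Algebra ℂ A] where
  B : Ibp A
  T : Der A
  R : Der A
  L : Fin 3 → Der A
  w : Fin 3 → A
  pr : B.Pt → ℝ × ℝ
  Om : Set (ℝ × ℝ)
  fn : (ℝ × ℝ → ℝ) → A
  Sp : Submodule ℂ A
  s : ℝ
  f : ℝ → ℝ

variable {A : Type} [CommRing A] [Algebra ℂ A]

namespace Fld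

/-- The five letters. -/
def X (Φ : Fld A) : Fin 5 → Der A := ![Φ.T, Φ.R, Φ.L 0, Φ.L 1, Φ.L 2]

/-- The axioms. -/
structure Is (Φ : Fld A) : Prop where
  B : Φ.B.Is
  sk : ∀ a, Φ.B.Skew (Φ.X a)
  sf : ContDiff ℝ ∞ Φ.f
  TR : ∀ u, Φ.T (Φ.R u) = Φ.R (Φ.T u)
  TL : ∀ i u, Φ.T (Φ.L i u) = Φ.L i (Φ.T u)
  RL : ∀ i u, Φ.R (Φ.L i u) = Φ.L i (Φ.R u)
  LL : ∀ i u, Φ.L i (Φ.L (i + 1) u) - Φ.L (i + 1) (Φ.L i u) = -Φ.L (i + 2) u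
  wre : ∀ i, Φ.B.Re (Φ.w i)
  Tw : ∀ i, Φ.T (Φ.w i) = 0
  Rw : ∀ i, Φ.R (Φ.w i) = 0
  Lw0 : ∀ i, Φ.L i (Φ.w i) = 0
  Lw1 : ∀ i, Φ.L i (Φ.w (i + 1)) = -Φ.w (i + 2)
  Lw2 : ∀ i, Φ.L i (Φ.w (i + 2)) = Φ.w (i + 1)
  one : ∑ i, Φ.w i * Φ.w i = 1
  spX : ∀ a, ∀ u ∈ Φ.Sp, Φ.X a u ∈ Φ.Sp
  spw : ∀ i, ∀ u ∈ Φ.Sp, Φ.w i * u ∈ Φ.Sp
  spf : ∀ φ, ContDiff ℝ ∞ φ → ∀ u ∈ Φ.Sp, Φ.fn φ * u ∈ Φ.Sp
  spin : ∀ u ∈ Φ.Sp, ∑ i, Φ.w i * Φ.L i u = algebraMap ℂ A (-(I * Φ.s)) * u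
  ev : ∀ φ, ContDiff ℝ ∞ φ → ∀ x, Φ.B.ev x (Φ.fn φ) = φ (Φ.pr x)
  re : ∀ φ, ContDiff ℝ ∞ φ → Φ.B.Re (Φ.fn φ)
  add : ∀ φ ψ, ContDiff ℝ ∞ φ → ContDiff ℝ ∞ ψ → Φ.fn (fun p => φ p + ψ p) = Φ.fn φ + Φ.fn ψ
  mul : ∀ φ ψ, ContDiff ℝ ∞ φ → ContDiff ℝ ∞ ψ → Φ.fn (fun p => φ p * ψ p) = Φ.fn φ * Φ.fn ψ
  cst : ∀ c : ℝ, Φ.fn (fun _ => c) = rl A c
  Tf : ∀ φ, ContDiff ℝ ∞ φ → Φ.T (Φ.fn φ) = Φ.fn fun p => fderiv ℝ φ p (1, 0)
  Rf : ∀ φ, ContDiff ℝ ∞ φ → Φ.R (Φ.fn φ) = Φ.fn fun p => fderiv ℝ φ p (-Φ.f p.2, 1)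
  Lf : ∀ φ, ContDiff ℝ ∞ φ → ∀ i, Φ.L i (Φ.fn φ) = 0
  cs : ∀ C, IsCompact C → C ⊆ Φ.Om → ∀ F, (∀ x, Φ.pr x ∉ C → Φ.B.ev x F = 0) → F ∈ Φ.B.K
  loc : ∀ U, IsOpen U → ∀ a F, (∀ x, Φ.pr x ∈ U → Φ.B.ev x F = 0) →
    ∀ x, Φ.pr x ∈ U → Φ.B.ev x (Φ.X a F) = 0

variable (Φ : Fld A)

/-- Functions of r and of t. -/
def rad (c : ℝ → ℝ) : A := Φ.fn fun p => c p.2
def tm (e : ℝ → ℝ) : A := Φ.fn fun p => e p.1
def r : A := Φ.rad id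

/-- Words; the head acts last. -/
def wd : List (Fin 5) → A → A
  | [], u => u
  | a :: J, u => Φ.X a (wd J u)

/-- Densities: the square, the level m of a family, the jets of order m of a field. -/
def sq (u : A) : A := u * Φ.B.c u
def lv (m : ℕ) (f : List (Fin 5) → A) : A := ∑ J ∈ words m, Φ.sq (f J)
def jq (m : ℕ) (u : A) : A := Φ.lv m fun J => Φ.wd J u

/-- Delta, and the field (r^2 + a^2) T + a L 2. -/
def De (M a : ℝ) : A := Φ.r * Φ.r - rl A (2 * M) * Φ.r + rl A (a ^ 2)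
def Kh (a : ℝ) (u : A) : A := (Φ.r * Φ.r + rl A (a ^ 2)) * Φ.T u + rl A a * Φ.L 2 u

/-- The operator P s k of P354BF in physical space. -/
noncomputable def P (s k M a : ℝ) (u : A) : A :=
  Φ.De M a * Φ.R (Φ.R u) + rl A (1 - s) * (2 * Φ.r - rl A (2 * M)) * Φ.R u +
    2 * Φ.Kh a (Φ.R u) + rl A (2 * (1 - 2 * s)) * Φ.r * Φ.T u + rl A (s ^ 2 - s) * u +
    ∑ i, Φ.L i (Φ.L i u) + rl A (a ^ 2) * (1 - Φ.w 2 * Φ.w 2) * Φ.T (Φ.T u) +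
    rl A (2 * a) * Φ.T (Φ.L 2 u) - algebraMap ℂ A (2 * k * a * I) * Φ.w 2 * Φ.T u

/-- The perturbation of second order. -/
def Q (del : Fin 5 → Fin 5 → A) (u : A) : A := ∑ a, ∑ b, del a b * Φ.X a (Φ.X b u)

end Fld

/-- Operators in T, R and the axial field with real coefficients c (M, a, r). -/
inductive Op : Type
  | one : Op
  | T : Op → Op
  | R : Op → Op
  | F : Op → Op
  | mul : (ℝ × ℝ × ℝ → ℝ) → Op → Op
  | add : Op → Op → Op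

namespace Op

def ord : Op → ℕ
  | one => 0
  | T e => e.ord + 1
  | R e => e.ord + 1
  | F e => e.ord + 1
  | mul _ e => e.ord
  | add e e' => max e.ord e'.ord

def Sm : Op → Prop
  | one => True
  | T e => e.Sm
  | R e => e.Sm
  | F e => e.Sm
  | mul c e => ContDiff ℝ ∞ c ∧ e.Sm
  | add e e' => e.Sm ∧ e'.Sm

/-- The operator in physical space. -/
def ph (Φ : Fld A) (M a : ℝ) : Op → A → A
  | one, u => u
  | T e, u => Φ.T (e.ph Φ M a u)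
  | R e, u => Φ.R (e.ph Φ M a u)
  | F e, u => Φ.L 2 (e.ph Φ M a u)
  | mul c e, u => Φ.rad (fun r => c (M, a, r)) * e.ph Φ M a u
  | add e e', u => e.ph Φ M a u + e'.ph Φ M a u

/-- (Delta R + 2 Kh + c Delta') e. -/
noncomputable def lh (c : ℝ) (e : Op) : Op :=
  add (add (mul (fun p => De p.1 p.2.1 p.2.2) (R e)) (mul (fun p => c * (2 * p.2.2 - 2 * p.1)) e))
    (add (mul (fun p => 2 * (p.2.2 ^ 2 + p.2.1 ^ 2)) (T e)) (mul (fun p => 2 * p.2.1) (F e)))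

/-- The outgoing derivative of the last member of the chain of spin -2. -/
noncomputable def l3 : Op := lh 0 (lh 1 (lh 2 one))

end Op

open Classical in
/-- The density of the flux which enters at the radius R1. -/
noncomputable def Fld.gd (Φ : Fld A) (σ : Bool) (n : ℕ) (M a γ R1 : ℝ) (u : A) : A :=
  cond σ (rl A (R1 ^ (γ - 3)) * Φ.jq n (Φ.R u) + rl A (R1 ^ (γ - 7)) * Φ.jq (n + 1) u)
    (rl A (R1 ^ (-3 : ℝ)) *
      ∑ W ∈ (words (n - 2)).filter IsY, Φ.sq (Φ.wd W (Op.l3.ph Φ M a u)))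

/-- The slope f (M, a, r) of spacelike slices. -/
structure Slope (M0 a0 rm : ℝ) (f : ℝ × ℝ × ℝ → ℝ) : Prop where
  sm : ContDiff ℝ ∞ f
  lo : M0 < rm
  hi : rm < rp M0 a0
  adm : ∀ r, rm ≤ r → 0 < f (M0, a0, r) ∧
    a0 ^ 2 < f (M0, a0, r) * (2 * (r ^ 2 + a0 ^ 2) - De M0 a0 r * f (M0, a0, r))
  far : ∃ R, ∀ r, R ≤ r → 3 / 2 ≤ f (M0, a0, r)

/-- The family of jets, the density of the errors, the perturbation and its size on the slabs,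
the slabs [t1 + j, t1 + j + 2], j ≤ K, and the inner cut off. -/
structure Dat (A : Type) where
  f : List (Fin 5) → A
  rho : A
  del : Fin 5 → Fin 5 → A
  h : ℕ → ℝ
  t1 : ℝ
  K : ℕ
  r00 : ℝ
  ch : ℝ → ℝ

/-- The hypotheses on the family; the top level is n + k + 1. -/
structure Fam (Φ : Fld A) (D : Dat A) (M a : ℝ) (n k : ℕ) (Cf rm rI R0 R1 eps : ℝ) : Prop where
  K2 : 2 ≤ D.K
  box : Icc D.t1 (D.t1 + D.K + 2) ×ˢ Icc D.r00 (4 * R1) ⊆ Φ.Om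
  chs : ContDiff ℝ ∞ D.ch
  chm : Monotone D.ch
  ch0 : ∀ r, r ≤ D.r00 → D.ch r = 0
  ch1 : ∀ r, rI ≤ r → D.ch r = 1
  rm : rm ≤ D.r00
  sp : ∀ J, D.f J ∈ Φ.Sp
  rre : Φ.B.Re D.rho
  rpos : ∀ x, 0 ≤ Φ.B.val x D.rho
  dre : ∀ b c, Φ.B.Re (D.del b c)
  hpos : ∀ j, 0 < D.h j ∧ D.h j ≤ eps
  del : ∀ j ≤ D.K, ∀ x, Φ.pr x ∈ Icc (D.t1 + j) (D.t1 + j + 2) ×ˢ Icc D.r00 (4 * R1) →
    ∀ b c, ∀ J ∈ words n, Φ.B.md x (Φ.wd J (D.del b c)) ≤ D.h j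
  hon : ∀ x, Φ.pr x ∈ Icc D.t1 (D.t1 + D.K + 2) ×ˢ Icc D.r00 (4 * R1) →
    ∀ J J' : List (Fin 5), J.length ≤ n + 1 → J.length + J'.length ≤ n + k + 1 →
      Φ.B.md x (Φ.wd J (D.f J') - D.f (J ++ J')) ^ 2 ≤ Φ.B.val x D.rho
  eqY : ∀ x, Φ.pr x ∈ Icc D.t1 (D.t1 + D.K + 2) ×ˢ Icc D.r00 (4 * R1) →
    ∀ W ∈ yw k, ∀ J ∈ words n,
      Φ.B.md x (Φ.wd J (Φ.P Φ.s Φ.s M a (D.f W) + Φ.Q D.del (D.f W))) ^ 2 ≤ Φ.B.val x D.rho
  swap : ∀ x, Φ.pr x ∈ Icc D.t1 (D.t1 + D.K + 2) ×ˢ Icc D.r00 (3 * R0) →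
    ∀ (p q : List (Fin 5)) b c, p.length + q.length + 1 ≤ n + k →
      Φ.B.md x (D.f (p ++ b :: c :: q) - D.f (p ++ c :: b :: q)) ^ 2 ≤
        Cf * Φ.B.val x (Φ.lv (p.length + q.length + 1) D.f) + Φ.B.val x D.rho
  eqA : ∀ x, Φ.pr x ∈ Icc D.t1 (D.t1 + D.K + 2) ×ˢ Icc D.r00 (3 * R0) →
    ∀ J ∈ words (n + k), Φ.B.md x (Φ.P Φ.s Φ.s M a (D.f J) + Φ.Q D.del (D.f J)) ^ 2 ≤
      Cf * Φ.B.val x (Φ.lv (J.length + 1) D.f) + Φ.B.val x D.rho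
  eqR : ∀ x, Φ.pr x ∈ Icc D.t1 (D.t1 + D.K + 2) ×ˢ Icc D.r00 (3 * R0) →
    ∀ (j : ℕ) (W : List (Fin 5)), IsY W → j + W.length ≤ n + k →
      Φ.B.md x (Φ.P (Φ.s - j) Φ.s M a (D.f (List.replicate j 1 ++ W)) +
        Φ.Q D.del (D.f (List.replicate j 1 ++ W))) ^ 2 ≤
      Cf * Φ.B.val x (Φ.lv (j + W.length) D.f) + Φ.B.val x D.rho

namespace Dat
variable (Φ : Fld A) (D : Dat A)

/-- The integral of F over the slab j with the radial weight c. -/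
noncomputable def sl (j : ℕ) (c : ℝ → ℝ) (F : A) : ℝ :=
  Φ.B.J (Φ.tm (fun t => bp (t - D.t1 - j)) * Φ.rad c * F)

/-- The radial weights: near, and up to 3 R1. -/
noncomputable def wn (R0 r : ℝ) : ℝ := D.ch r * dn (2 * R0) (2 * R0 + 1) r
noncomputable def wf (R1 r : ℝ) : ℝ := D.ch r * dn (3 * R1) (4 * R1) r

/-- The energy near, the bulk (top level off (p1, p4), degenerate on [p2, p3]), the energy up to
3 R1, the far bulk, the term of lower order, the errors, the flux at R1; m + 1 is the top level. -/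
noncomputable def En (m : ℕ) (R0 : ℝ) (j : ℕ) : ℝ := D.sl Φ j (D.wn R0) (Φ.lv (m + 1) D.f)
noncomputable def bk (m : ℕ) (p1 p2 p3 p4 R0 : ℝ) (j : ℕ) : ℝ :=
  D.sl Φ j (fun r => D.wn R0 r * (dn p1 p2 r + up p3 p4 r)) (Φ.lv (m + 1) D.f) +
    D.sl Φ j (D.wn R0) (Φ.lv m D.f)
noncomputable def Ef (m : ℕ) (R1 : ℝ) (j : ℕ) : ℝ := D.sl Φ j (D.wf R1) (Φ.lv (m + 1) D.f)
noncomputable def Bf (m : ℕ) (R0 R1 : ℝ) (j : ℕ) : ℝ :=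
  D.sl Φ j (fun r => up (R0 / 2) R0 r * dn (3 * R1) (4 * R1) r) (Φ.lv (m + 1) D.f)
noncomputable def lo (m : ℕ) (R1 : ℝ) (j : ℕ) : ℝ := D.sl Φ j (D.wf R1) (Φ.lv (m - 1) D.f)
noncomputable def er (R1 : ℝ) (j : ℕ) : ℝ := D.sl Φ j (D.wf R1) D.rho
noncomputable def Gd (σ : Bool) (n k : ℕ) (M a γ R1 : ℝ) (j : ℕ) : ℝ := ∑ W ∈ yw k,
  D.sl Φ j (fun r => up (R1 / 2) R1 r * dn (2 * R1) (3 * R1) r) (Φ.gd σ n M a γ R1 (D.f W))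

/-- The terms with a large constant: data, lower order, errors, perturbation. -/
noncomputable def rest (m : ℕ) (R1 : ℝ) (κ : ℕ) : ℝ :=
  ∑ j ∈ Finset.range 3, D.Ef Φ m R1 j + ∑ j ∈ Finset.range (κ + 1),
    (D.lo Φ m R1 j + D.er Φ R1 j / D.h j + D.h j * D.Ef Φ m R1 j)

/-- The words in T and the axial field of length m with one more derivative. -/
noncomputable def yq (m : ℕ) (e c : ℝ → ℝ) : ℝ :=
  ∑ W ∈ yw m, Φ.B.J (Φ.tm e * Φ.rad c * Φ.jq 1 (D.f W))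

end Dat

/-- Weights with support in [x, y] which are at least 1 on U. -/
structure Wg (c : ℝ → ℝ) (x y : ℝ) (U : Set ℝ) : Prop where
  sm : ContDiff ℝ ∞ c
  pos : ∀ r, 0 ≤ c r
  out : ∀ r, r ∉ Icc x y → c r = 0
  ge : ∀ r ∈ U, 1 ≤ c r

/-- Red shift, elliptic estimates and the estimate in unit time: all jets from the words in T
and the axial field. -/
def PHYS (σ : Bool) : Prop :=
  ∀ M0 a0 rm : ℝ, |a0| < M0 → ∀ f, Slope M0 a0 rm f → ∃ Rs : ℝ, ∀ (n k : ℕ) (Cf : ℝ), 3 ≤ n →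
    ∃ rb : ℝ, rp M0 a0 < rb ∧
    ∀ r2 rI p1 p2 p3 p4 d R0 : ℝ, rp M0 a0 < r2 → r2 ≤ rb → rI < rp M0 a0 →
      r2 < p1 → p1 < p2 → p2 ≤ p3 → p3 < p4 → p4 ≤ R0 → Rs ≤ R0 → 0 < d →
    ∃ C dl eps : ℝ, 0 < dl ∧ 0 < eps ∧ ∀ M a R1 : ℝ, |M - M0| < dl → |a - a0| < dl → R0 ≤ R1 →
      ∀ (A : Type) [CommRing A] [Algebra ℂ A] (Φ : Fld A) (D : Dat A), Φ.Is → Φ.s = sp σ →
      (Φ.f = fun r => f (M, a, r)) → Fam Φ D M a n k Cf rm rI R0 R1 eps →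
      ∀ κ : ℕ, 3 ≤ κ → κ ≤ D.K → ∀ eB eE c1 c2 : ℝ → ℝ,
        Wg eB D.t1 (D.t1 + κ) (Icc (D.t1 + 2) (D.t1 + κ - 1 / 4)) →
        Wg eE D.t1 (D.t1 + κ) (Icc (D.t1 + κ - 3 / 4) (D.t1 + κ - 1 / 4)) →
        Wg c1 (rp M0 a0) (3 * R0) (Icc r2 (5 * R0 / 2)) →
        Wg c2 (rp M0 a0) (3 * R0) (Icc r2 (p2 + d) ∪ Icc (p3 - d) (5 * R0 / 2)) →
        D.En Φ (n + k) R0 κ + ∑ j ∈ Finset.range (κ + 1), D.bk Φ (n + k) p1 p2 p3 p4 R0 j ≤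
          C * (D.yq Φ (n + k) eB c2 + D.yq Φ (n + k - 1) eB c1 + D.yq Φ (n + k) eE c1 +
            D.rest Φ (n + k) R1 κ)

end Vale.Agent.P354XT
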