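import Vale.Agent.P354XT.Mode

/-!
The estimate of top order in which the flux at the radius R1 contains only the word T^k.
-/

open Set

namespace Vale.Agent.P354XT

open Vale.Agent.P354BF (rp)

variable {A : Type} [CommRing A] [Algebra ℂ A]

/-- The flux at R1 of the word T^k. -/
noncomputable def Dat.GdT (Φ : Fld A) (D : Dat A) (σ : Bool) (n k : ℕ) (M a γ R1 : ℝ) (j : ℕ) : ℝ :=
  D.sl Φ j (fun r => up (R1 / 2) R1 r * dn (2 * R1) (3 * R1) r)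
    (Φ.gd σ n M a γ R1 (D.f (List.replicate k 0)))

/-- The estimate of top order. -/
def TOPT (σ : Bool) : Prop :=
  ∀ M0 a0 rm : ℝ, a0 ≠ 0 → |a0| < M0 → ∀ f, Slope M0 a0 rm f → ∀ γ : ℝ, 0 < γ → γ ≤ 1 →
    ∃ (n : ℕ) (rI p1 p2 p3 p4 Rs : ℝ), 4 ≤ n ∧ rm < rI ∧ rI < rp M0 a0 ∧ rp M0 a0 < p1 ∧
      p1 < p2 ∧ p2 < p3 ∧ p3 < p4 ∧ 2 * p4 < Rs ∧
    ∀ (k : ℕ) (Cf R0 : ℝ), Rs ≤ R0 → ∃ C0 : ℝ, ∀ R1 : ℝ, 20 * R0 ≤ R1 → ∀ ε : ℝ, 0 < ε →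
    ∃ C1 dl eps : ℝ, 0 < dl ∧ 0 < eps ∧ ∀ M a : ℝ, |M - M0| < dl → |a - a0| < dl →
      ∀ (A : Type) [CommRing A] [Algebra ℂ A] (Φ : Fld A) (D : Dat A), Φ.Is → Φ.Par →
      Φ.s = sp σ → (Φ.f = fun r => f (M, a, r)) → Fam Φ D M a n k Cf rm rI (5 * R0) R1 eps →
      ∀ κ ≤ D.K,
        D.En Φ (n + k) R0 κ + ∑ j ∈ Finset.range (κ + 1), D.bk Φ (n + k) p1 p2 p3 p4 R0 j ≤
          C0 * ∑ j ∈ Finset.range (κ + 1), D.GdT Φ σ n k M a γ R1 j +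
          ε * (∑ j ∈ Finset.Icc (κ - 3) κ, D.Ef Φ (n + k) R1 j +
            ∑ j ∈ Finset.range (κ + 1), D.Bf Φ (n + k) R0 R1 j) +
          C1 * D.rest Φ (n + k) R1 κ

end Vale.Agent.P354XT
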