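import Vale.Agent.P354XT.Nrm

/-!
The estimate for one field follows from the estimates at one frequency.
-/

open scoped ContDiff
open Set

namespace Vale.Agent.P354XT

open Vale.Agent.P354XI
open Vale.Agent.P354XI.Ibp
open Vale.Agent.P354BF (rp)

variable {Z : Fx}

/-- The left side. -/
noncomputable def Cx.lhs (X : Cx Z) (V V' : List (Fin 5)) : ℝ :=
  X.Φ.B.J (X.Φ.tm (fun t => X.et t ^ 2) * X.Φ.rad X.c2 * X.Φ.jq 1 (X.Φ.wd V X.u)) +
    X.Φ.B.J (X.Φ.tm (fun t => X.et t ^ 2) * X.Φ.rad X.c3 * X.Φ.jq 1 (X.Φ.wd V X.u)) +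
    X.Φ.B.J (X.Φ.tm (fun t => X.et t ^ 2) * X.Φ.rad X.c1 * X.Φ.jq 1 (X.Φ.wd V' X.u)) +
    X.Φ.B.J (X.Φ.tm (fun t => X.th t ^ 2) * X.Φ.rad X.c1 * X.Φ.jq 1 (X.Φ.wd V X.u))

/-- The constant which does not depend on the radii. -/
def kc (n : ℕ) : ℝ := 4 * nw 1 * (31 * 3 ^ (n + 1))

theorem main {V V' : List (Fin 5)} (hV : IsY V) (lV : V.length ≤ Z.p.n) (hV' : IsY V')
    (lV' : V'.length ≤ Z.p.n - 1) : Oa fun X : Cx Z => X.lhs V V' -
      (kc Z.p.n * |Z.p.C0| * X.Φ.B.J X.H.G + kc Z.p.n * |Z.p.eH| * X.Φ.B.J X.H.H +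
        8 * nw 1 * (31 * 3 ^ Z.p.n) * |Z.p.C1| * X.Φ.B.J X.H.S) := by
  obtain ⟨n4, -, -, -, h1, h2, h3, h4, h5, h6, h7, h8, -⟩ := id Z.ok
  have y0 := Z.y0r
  have q1 := Z.hq1
  have q4 := Z.hq4
  have q := Z.hq
  have w1 : Wr (Cx.c1 (Z := Z)) := fun X => X.w1.mono (by linarith) (by linarith)
  have w2 : Wr (Cx.c2 (Z := Z)) := fun X => X.w2.mono (by linarith) (by linarith)
  have w3 : Wr (Cx.c3 (Z := Z)) := fun X => X.w3.mono (by linarith) (by linarith)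
  have bG := bmp_wl (a := 3 * Z.p.R1 / 4) (b := Z.p.R1) (c := 2 * Z.p.R1) (d := 9 * Z.p.R1 / 4)
    (by linarith) (by linarith)
  have bS := bmp_wl y0 q1
  have bT := bmp_wl (c := 2 * Z.p.R1) (d := 5 * Z.p.R1 / 2) q4 (by linarith)
  have bA := bmp_wl (c := 2 * Z.p.R1) (d := 5 * Z.p.R1 / 2) y0 (by linarith)
  have wG : Wr (Z := Z) fun _ => _ := fun _ => bG.mono (by linarith) (by linarith)
  have wS : Wr (Z := Z) fun _ => _ := fun _ => bS.mono le_rfl (by linarith)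
  have wT : Wr (Z := Z) fun _ => _ := fun _ => bT.mono (by linarith) le_rfl
  have wA : Wr (Z := Z) fun _ => _ := fun _ => bA
  have j := (cut_et (Z := Z)).jq (m := 1) (dop_wd V) (by omega)
  have lo := (((cq_lo cut_et j w2).add (cq_lo cut_et j w3)).add (cq_lo cut_et
    (cut_et.jq (m := 1) (dop_wd V') (by omega)) w1)).add
    (cq_lo cut_th (cut_th.jq (m := 1) (dop_wd V) (by omega)) w1)
  have le : ∀ (X : Cx Z) x m, X.et (X.Φ.pr x).1 ^ 2 * X.Φ.B.val x (X.Φ.jq m X.u) ≤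
      X.Φ.B.val x (X.Φ.jq m X.u) := fun X x m => mul_le_of_le_one_left X.is.jq_nonneg (X.et_le _)
  have uG := cq_up cut_et (cut_et.gd Z.p.σ) wG (fun X => X.ok.G.K) (fun X => X.ok.G.pos)
    fun X x t k => X.ok.G.ge x ⟨t, bG.mem k⟩
  have uH := cq_up cut_et (cut_et.jq (m := Z.p.n + 1) dop_id le_rfl) wS (fun X => X.ok.Hz.K)
    (fun X => X.ok.Hz.pos) fun X x t k => (le X x _).trans (X.ok.Hz.ge x ⟨t, bS.mem k⟩)
  have uS := cq_up cut_et (cut_et.jq (m := Z.p.n) dop_id (by omega)) wS (fun X => X.ok.S.K)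
    (fun X => X.ok.S.pos) fun X x t k => (le X x _).trans (X.ok.S.ge x ⟨t, .inl (bS.mem k)⟩)
  have uT := cq_up cut_et (cut_et.jq (m := Z.p.n) dop_id (by omega)) wT (fun X => X.ok.S.K)
    (fun X => X.ok.S.pos) fun X x t k => (le X x _).trans (X.ok.S.ge x ⟨t, .inr (bT.mem k)⟩)
  have jU := ob_jq (((cut_et.ob _).mul ob_um).le 1 zero_le_one fun _ _ p => p.s4) wA
  have jV := ob_jq (((ob_th _).mul ob_u0).le 2 zero_le_two fun _ _ p =>
    (mul_le_mul_of_nonneg_right p.i1r p.b0).trans p.s1) wA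
  have nw1 := nw_pos 1
  refine (lo.add ((((Oa.add pairs ((uG.cmul (t := 31 * 3 ^ (Z.p.n + 1)) (by positivity)).cmul
    (abs_nonneg Z.p.C0))).add ((uH.cmul (t := 31 * 3 ^ (Z.p.n + 1)) (by positivity)).cmul
    (abs_nonneg Z.p.eH))).add (((((uS.add uT).add jV).cmul (t := 31 * 3 ^ Z.p.n)
    (by positivity)).add (((jU.add (ob_jq cut_et.src wA)).add (ob_jq cut_th.src wA)).cmul
    (t := 31 * 3 ^ (Z.p.n - 1)) (by positivity))).cmul (abs_nonneg Z.p.C1))).cmul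
    (t := 2 * nw 1) (by positivity))).le fun X => ?_
  obtain ⟨S, _, _, G, hG, hs, H⟩ := X.par
  obtain ⟨ι, om, m, κ, hat, H⟩ := H _ _ _ _ X.cz.box
  have be := X.be S G hG (hs.trans X.hs)
  have l := X.lo
  have r := X.hi
  have k1 := X.w1.lo (ra := X.ra) (rc := X.rc) (by linarith) (by linarith) (by linarith)
  have kS := bmp_hi l y0 (by linarith) q1 (rc := X.rc) (by linarith)
  have kA := bmp_hi l y0 (c := 2 * Z.p.R1) (by linarith) (by linarith) r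
  have B := phB H X.is hG hs X.cz Z.ok be k1
    (X.w2.lo (by linarith) (by linarith) (by linarith))
    (X.w3.lo (by linarith) (by linarith) (by linarith))
    (bmp_hi (a := 3 * Z.p.R1 / 4) (d := 9 * Z.p.R1 / 4) (by linarith) (by linarith) (by linarith)
      (by linarith) (by linarith))
    ⟨kS.toCw, kS.pos, kS.xa, h1.le, by linarith, fun r k => kS.one r ⟨k.1, by linarith [k.2]⟩⟩ kS
    (bmp_hi (by linarith) q4 (by linarith) (by linarith) r) kA (cut_et.cl X)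
  have E := phE H X.is hG hs X.cz Z.ok be k1 kA (cut_th.cl X)
  have d := add_le_add (add_le_add (add_le_add
    (X.is.DP_ge (w2.wt X) hV lV (X.Φ.tm X.et * X.u)) (X.is.DP_ge (w3.wt X) hV lV (X.Φ.tm X.et * X.u)))
    (X.is.DP_ge (w1.wt X) hV' lV' (X.Φ.tm X.et * X.u)))
    (X.is.DP_ge (w1.wt X) hV lV (X.Φ.tm X.th * X.u))
  have g1 := mul_le_mul_of_nonneg_left (X.is.GP_le (wG.wt X) Z.p.σ (n := Z.p.n) (by omega) X.M X.a
    Z.p.γ (R1 := Z.p.R1) (by linarith) (X.Φ.tm X.et * X.u)) (abs_nonneg Z.p.C0)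
  have g2 := mul_le_mul_of_nonneg_left (X.is.WP_le (wS.wt X) (p := Z.p.n + 1) (by omega)
    (X.Φ.tm X.et * X.u)) (abs_nonneg Z.p.eH)
  have a := fun (p : ℕ) (hp : 3 ≤ p) U => X.is.WP_le (wA.wt X) hp U
  have g3 := mul_le_mul_of_nonneg_left (add_le_add (add_le_add (add_le_add
    (X.is.WP_le (wS.wt X) (p := Z.p.n) (by omega) (X.Φ.tm X.et * X.u))
    (X.is.WP_le (wT.wt X) (p := Z.p.n) (by omega) (X.Φ.tm X.et * X.u)))
    (a Z.p.n (by omega) (X.Φ.tm X.th * X.u))) (add_le_add (add_le_add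
    (a (Z.p.n - 1) (by omega) (X.Φ.tm X.et * X.u))
    (a (Z.p.n - 1) (by omega) (X.Φ.P X.Φ.s X.Φ.s X.M X.a (X.Φ.tm X.et * X.u))))
    (a (Z.p.n - 1) (by omega) (X.Φ.P X.Φ.s X.Φ.s X.M X.a (X.Φ.tm X.th * X.u)))))
    (abs_nonneg Z.p.C1)
  have f := mul_le_mul_of_nonneg_left (add_le_add (add_le_add (add_le_add (add_le_add B E) g1)
    (add_le_add g2 g3)) (neg_le_abs (X.Φ.PP (X.Φ.tm X.ze) Z.p.l X.M X.a
      (X.Φ.P X.Φ.s X.Φ.s X.M X.a (X.Φ.tm X.et * X.u)) (X.Φ.tm X.et * X.u) +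
    X.Φ.PP (X.Φ.tm X.ze) Z.p.l X.M X.a (X.Φ.Nn Z.p.f X.M X.a (X.Φ.tm X.th * X.u))
      (X.Φ.tm X.th * X.u)))) (zero_le_one.trans nw1)
  simp only [Cx.lhs, kc]
  linarith

theorem core {σ : Bool} (h : MODE σ) : CORE σ := by
  intro g θ c hr M0 a0 rm ha0 ha f hf γ g0 g1
  obtain ⟨n, rb, q1, q2, q3, q4, Rs, n4, b1, b2, b3, b4, b5, b6, b7, h⟩ := h M0 a0 rm ha0 ha f hf γ g0 g1
  refine ⟨n, rb, (q1 + q2) / 2, q2, q3, (q3 + q4) / 2, max Rs 2, n4, b1, b2, by linarith, by linarith,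
    b5, by linarith, lt_max_of_lt_left (by linarith), fun y0 r1 R0 c1 c2 c3 c4 c5 eH he => ?_⟩
  have kp : 0 < kc n := by have := nw_pos 1; rw [kc]; positivity
  have m1 := min_le_left r1 ((rp M0 a0 + q1) / 2)
  have m2 := min_le_right r1 ((rp M0 a0 + q1) / 2)
  have m3 : rp M0 a0 < min r1 ((rp M0 a0 + q1) / 2) := lt_min c3 (by linarith)
  have s1 := (le_max_left _ _).trans c5
  obtain ⟨C0, h⟩ := h ((y0 + rp M0 a0) / 2) _ R0 (by linarith) (by linarith) m3 (by linarith) s1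
    (eH / kc n) (div_pos he kp)
  refine ⟨kc n * |C0|, by positivity, fun R1 hR ε hε => ?_⟩
  obtain ⟨l, C1, dl, hd, hl, h⟩ := h R1 hR
  have M0p := (abs_nonneg _).trans_lt ha
  let Z : Fx := ⟨⟨σ, n, l, f, γ, (y0 + rp M0 a0) / 2, min r1 ((rp M0 a0 + q1) / 2), q1, q2, q3, q4, R0,
    R1, eH / kc n, C0, C1⟩, M0, a0, y0, (q1 + q2) / 2, (q3 + q4) / 2, g, θ, c,
    ⟨n4, hf.sm, hl, by simp only; linarith [hf.lo], by simp only; linarith, by simp only; linarith,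
      b4, b5, b6, by simp only; linarith, hR, (le_max_right _ _).trans c5, div_pos he kp⟩, hr,
    by simp only; linarith, by simp only; linarith, by simp only; linarith, by linarith⟩
  classical
  obtain ⟨C, p, k⟩ := Oa.unif ((words n).filter IsY ×ˢ (words (n - 1)).filter IsY) fun t j => by
    simp only [Finset.mem_product, Finset.mem_filter, mem_words] at j
    exact main (Z := Z) j.1.2 j.1.1 j.2.2 j.2.1
  have nw1 := nw_pos 1
  have e0 : 0 < ε / (C + 1) := by positivity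
  refine ⟨8 * nw 1 * (31 * 3 ^ n) * |C1| + C * (1 + (ε / (C + 1))⁻¹), min dl 1, by positivity,
    lt_min hd one_pos, fun M a hM hA A _ _ Φ is par hs hf' t1 s ra rc ts lo hi box u sp del dre H ok
      c1 c2 c3 w1 w2 w3 V V' hV lV hV' lV' => ?_⟩
  let X : Cx Z := ⟨A, Φ, M, a, t1, s, ra, rc, ε / (C + 1), u, del, H, c1, c2, c3, is,
    (hM.trans_le (min_le_right _ _)).le, (hA.trans_le (min_le_right _ _)).le, hs, hf', ts, lo, hi, box,
    e0, sp, dre, ok, w1.mono m1 le_rfl, w2.mono m1 le_rfl, w3, par, fun S _ _ G hG hs =>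
      h M a (hM.trans_le (min_le_left _ _)) (hA.trans_le (min_le_left _ _)) S G hG hs⟩
  have := k (V, V') (by simp [mem_words, hV, lV, hV', lV']) X
  change _ - (kc n * |C0| * Φ.B.J H.G + kc n * |eH / kc n| * Φ.B.J H.H +
    8 * nw 1 * (31 * 3 ^ n) * |C1| * Φ.B.J H.S) ≤ C * (Φ.B.J H.I + ε / (C + 1) * Φ.B.J H.F +
      (ε / (C + 1))⁻¹ * Φ.B.J H.O + Φ.B.J H.P + Φ.B.J H.L) at this
  rw [abs_of_pos (div_pos he kp), mul_div_cancel₀ _ kp.ne'] at this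
  have aS := X.J_nonneg ok.S.K ok.S.pos
  have aL := X.J_nonneg ok.L.K ok.L.pos
  have aI := X.J_nonneg ok.I.K ok.I.pos
  have aO := X.J_nonneg ok.O.K ok.O.pos
  have aF := X.J_nonneg ok.F.K ok.F.pos
  have aP := X.J_nonneg ok.PK ok.Ppos
  have u1 : C * (ε / (C + 1)) ≤ ε := by
    rw [← mul_div_assoc, div_le_iff₀ (by positivity)]; nlinarith
  have u2 := mul_nonneg (by positivity : 0 ≤ 8 * nw 1 * (31 * 3 ^ n) * |C1|)
    (add_nonneg (add_nonneg aL aI) (add_nonneg aO aP))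
  have u3 := mul_nonneg (by positivity : 0 ≤ C * (ε / (C + 1))⁻¹)
    (add_nonneg (add_nonneg aL aI) (add_nonneg aS aP))
  have u4 := mul_nonneg p (add_nonneg aS aO)
  have u5 := mul_le_mul_of_nonneg_right u1 aF
  change X.lhs V V' ≤ _
  change 0 ≤ _ * (Φ.B.J H.L + Φ.B.J H.I + (Φ.B.J H.O + Φ.B.J H.P)) at u2
  change 0 ≤ _ * (Φ.B.J H.L + Φ.B.J H.I + (Φ.B.J H.S + Φ.B.J H.P)) at u3
  change 0 ≤ _ * (Φ.B.J H.S + Φ.B.J H.O) at u4
  change _ * Φ.B.J H.F ≤ _ * Φ.B.J H.F at u5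
  linarith

end Vale.Agent.P354XT
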