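import Vale.Agent.P354XT.Jet
import Vale.Agent.P354XT.Mode

/-!
The operators P and N as operators with radial coefficients, the commutator of P with a function
of the time, the normal form of an operator, and pointwise bounds.
-/

open scoped ContDiff
open Set
open Complex (I)

namespace Vale.Agent.P354XT

open Vale.Agent.P354XG (Der D_mul D_add D_sub D_neg D_alg D_num D_one)
open Vale.Agent.P354XI
open Vale.Agent.P354XI.Ibp
open Vale.Agent.P354BF (De)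

variable {A : Type} [CommRing A] [Algebra ℂ A]

/-- The radial parts of P and N. -/
noncomputable def opP (s : ℝ) : Op :=
  .add (.add (.add (.mul (fun p => De p.1 p.2.1 p.2.2) (.R (.R .one)))
    (.mul (fun p => (1 - s) * (2 * p.2.2 - 2 * p.1)) (.R .one)))
    (.add (.mul (fun p => 2 * (p.2.2 ^ 2 + p.2.1 ^ 2)) (.T (.R .one)))
      (.mul (fun p => 2 * p.2.1) (.F (.R .one)))))
    (.add (.add (.mul (fun p => 2 * (1 - 2 * s) * p.2.2) (.T .one)) (.mul (fun _ => s ^ 2 - s) .one))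
      (.add (.mul (fun p => p.2.1 ^ 2) (.T (.T .one))) (.mul (fun p => 2 * p.2.1) (.T (.F .one)))))

noncomputable def opN (f : ℝ × ℝ × ℝ → ℝ) : Op :=
  .add (.mul (fun p => 2 * (p.2.2 ^ 2 + p.2.1 ^ 2) + -2 * De p.1 p.2.1 p.2.2 * f p) (.R .one))
    (.add (.mul (fun p => 2 * p.2.1 ^ 2 + -2 * (p.2.2 ^ 2 + p.2.1 ^ 2) * f p) (.T .one))
      (.mul (fun p => 2 * p.2.1 + -2 * p.2.1 * f p) (.F .one)))

theorem opP_sm (s : ℝ) : (opP s).Sm := by
  simp only [opP, Op.Sm, De, and_true]; refine ⟨⟨⟨?_, ?_⟩, ?_, ?_⟩, ⟨?_, ?_⟩, ?_, ?_⟩ <;> fun_prop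
theorem opN_sm {f : ℝ × ℝ × ℝ → ℝ} (hf : ContDiff ℝ ∞ f) : (opN f).Sm := by
  simp only [opN, Op.Sm, De, and_true]; refine ⟨?_, ?_, ?_⟩ <;> fun_prop
theorem lh_sm (c : ℝ) {e : Op} (h : e.Sm) : (Op.lh c e).Sm := by
  simp only [Op.lh, Op.Sm, De, h, and_true]; refine ⟨⟨?_, ?_⟩, ?_, ?_⟩ <;> fun_prop
theorem l3_sm : Op.l3.Sm := lh_sm _ (lh_sm _ (lh_sm _ trivial))
theorem opP_ord (s : ℝ) : (opP s).ord = 2 := rfl
theorem opN_ord (f : ℝ × ℝ × ℝ → ℝ) : (opN f).ord = 1 := rfl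
theorem l3_ord : Op.l3.ord = 3 := rfl

/-- The first order term of the commutator of P with a function of the time. -/
noncomputable def Fld.Nn (Φ : Fld A) (f : ℝ × ℝ × ℝ → ℝ) (M a : ℝ) (u : A) : A :=
  (opN f).ph Φ M a u - rl A (2 * a ^ 2) * (Φ.w 2 * (Φ.w 2 * Φ.T u))

namespace Fld.Is
variable {Φ : Fld A} (h : Φ.Is)
include h

theorem rad_q (α β γ : ℝ) {c : ℝ → ℝ} (e : ∀ r, c r = α * (r * r) + β * r + γ) :
    Φ.rad c = rl A α * (Φ.r * Φ.r) + rl A β * Φ.r + rl A γ := by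
  rw [funext e, h.rad_add (by fun_prop) (by fun_prop), h.rad_add (by fun_prop) (by fun_prop),
    h.rad_mul (by fun_prop) (by fun_prop), h.rad_mul (by fun_prop) (by fun_prop),
    h.rad_mul (by fun_prop) (by fun_prop), h.rad_cst, h.rad_cst, h.rad_cst]
  rfl

theorem rad_qf (α β γ α' β' γ' : ℝ) {c : ℝ → ℝ}
    (e : ∀ r, c r = (α * (r * r) + β * r + γ) + (α' * (r * r) + β' * r + γ') * Φ.f r) :
    Φ.rad c = (rl A α * (Φ.r * Φ.r) + rl A β * Φ.r + rl A γ) +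
      (rl A α' * (Φ.r * Φ.r) + rl A β' * Φ.r + rl A γ') * Φ.rad Φ.f := by
  have := h.sf
  rw [funext e, h.rad_add (by fun_prop) (by fun_prop), h.rad_mul (by fun_prop) h.sf,
    h.rad_q α β γ fun _ => rfl, h.rad_q α' β' γ' fun _ => rfl]

theorem P_eq (s k M a : ℝ) (u : A) : Φ.P s k M a u = (opP s).ph Φ M a u +
    ∑ i, Φ.L i (Φ.L i u) - rl A (a ^ 2) * (Φ.w 2 * (Φ.w 2 * Φ.T (Φ.T u))) -
    algebraMap ℂ A (2 * k * a * I) * (Φ.w 2 * Φ.T u) := by
  simp only [opP, Op.ph, h.rad_cst]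
  rw [h.rad_q 1 (-(2 * M)) (a ^ 2) (c := fun r => P354BF.De M a r)
      fun r => by rw [P354BF.De]; ring,
    h.rad_q 0 ((1 - s) * 2) (-((1 - s) * (2 * M))) (c := fun r => (1 - s) * (2 * r - 2 * M))
      fun r => by ring,
    h.rad_q 2 0 (2 * a ^ 2) (c := fun r => 2 * (r ^ 2 + a ^ 2)) fun r => by ring,
    h.rad_q 0 (2 * (1 - 2 * s)) 0 (c := fun r => 2 * (1 - 2 * s) * r) fun r => by ring]
  simp only [P, Kh, Fld.De, rl_mul, rl_neg, rl_one, rl_zero, rl_two]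
  ring

theorem N_eq {f : ℝ × ℝ × ℝ → ℝ} {M a : ℝ} (hf : Φ.f = fun r => f (M, a, r)) (u : A) :
    Φ.Nn f M a u = 2 * ((Φ.r * Φ.r + rl A (a ^ 2) - Φ.De M a * Φ.rad Φ.f) * Φ.R u -
      Φ.rad Φ.f * Φ.Kh a u + rl A (a ^ 2) * (1 - Φ.w 2 * Φ.w 2) * Φ.T u + rl A a * Φ.L 2 u) := by
  simp only [Nn, opN, Op.ph]
  rw [h.rad_qf 2 0 (2 * a ^ 2) (-2) (2 * (2 * M)) (-(2 * a ^ 2))
      (c := fun r => 2 * (r ^ 2 + a ^ 2) + -2 * P354BF.De M a r * f (M, a, r))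
      fun r => by rw [P354BF.De, hf]; ring,
    h.rad_qf 0 0 (2 * a ^ 2) (-2) 0 (-(2 * a ^ 2))
      (c := fun r => 2 * a ^ 2 + -2 * (r ^ 2 + a ^ 2) * f (M, a, r)) fun r => by rw [hf]; ring,
    h.rad_qf 0 0 (2 * a) 0 0 (-(2 * a)) (c := fun r => 2 * a + -2 * a * f (M, a, r))
      fun r => by rw [hf]; ring]
  simp only [Kh, Fld.De, rl_mul, rl_neg, rl_one, rl_zero, rl_two]
  ring

/-- The commutator of P with a function of the time. -/
theorem P_tm {f : ℝ × ℝ × ℝ → ℝ} {M a : ℝ} (hf : Φ.f = fun r => f (M, a, r)) (s k : ℝ)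
    {e : ℝ → ℝ} (he : ContDiff ℝ ∞ e) (u : A) :
    Φ.P s k M a (Φ.tm e * u) = Φ.tm e * Φ.P s k M a u + Φ.tm (deriv e) * Φ.Nn f M a u +
      (Φ.P s k M a (Φ.tm e) - rl A (s ^ 2 - s) * Φ.tm e) * u := by
  have t := h.T_tm he
  have r := h.R_tm he
  have l := h.L_tm he
  have l1 : ∀ i, Φ.L i (Φ.T (Φ.tm e)) = 0 := fun i => by rw [← h.TL, l, map_zero]
  have l2 : ∀ i, Φ.L i (Φ.R (Φ.tm e)) = 0 := fun i => by rw [← h.RL, l, map_zero]
  rw [h.N_eq hf]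
  simp only [P, Kh, D_mul, D_add, l, l1, l2, mul_zero, add_zero, map_zero, Finset.sum_const_zero,
    ← Finset.mul_sum]
  linear_combination (2 * Φ.De M a * Φ.R u + 2 * ((Φ.r * Φ.r + rl A (a ^ 2)) * Φ.T u +
    rl A a * Φ.L 2 u)) * r + (2 * (Φ.r * Φ.r + rl A (a ^ 2)) * Φ.R u +
    2 * rl A (a ^ 2) * (1 - Φ.w 2 * Φ.w 2) * Φ.T u + rl A (2 * a) * Φ.L 2 u) * t +
    Φ.tm (deriv e) * Φ.L 2 u * (rl_mul (A := A) 2 a) + Φ.tm (deriv e) * Φ.L 2 u * rl A a * rl_two (A := A)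

end Fld.Is

/-- The normal form. -/
noncomputable def Op.nf : Op → List ((ℝ × ℝ × ℝ → ℝ) × List (Fin 5))
  | .one => [(fun _ => 1, [])]
  | .T e => e.nf.map fun t => (t.1, 0 :: t.2)
  | .R e => (e.nf.map fun t => (t.1, 1 :: t.2)) ++ e.nf.map fun t => (d3 t.1, t.2)
  | .F e => e.nf.map fun t => (t.1, 4 :: t.2)
  | .mul c e => e.nf.map fun t => (fun p => c p * t.1 p, t.2)
  | .add e e' => e.nf ++ e'.nf

theorem Op.nf_ok : ∀ e : Op, e.Sm → ∀ t ∈ e.nf, ContDiff ℝ ∞ t.1 ∧ t.2.length ≤ e.ord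
  | .one, _ => by simp [nf, contDiff_const]
  | .T e, h => by
    simp only [nf, List.mem_map]; rintro _ ⟨t, k, rfl⟩
    exact ⟨(nf_ok e h t k).1, Nat.succ_le_succ (nf_ok e h t k).2⟩
  | .R e, h => by
    simp only [nf, List.mem_append, List.mem_map]; rintro _ (⟨t, k, rfl⟩ | ⟨t, k, rfl⟩)
    · exact ⟨(nf_ok e h t k).1, Nat.succ_le_succ (nf_ok e h t k).2⟩
    · exact ⟨d3_sm (nf_ok e h t k).1, Nat.le_succ_of_le (nf_ok e h t k).2⟩
  | .F e, h => by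
    simp only [nf, List.mem_map]; rintro _ ⟨t, k, rfl⟩
    exact ⟨(nf_ok e h t k).1, Nat.succ_le_succ (nf_ok e h t k).2⟩
  | .mul c e, h => by
    simp only [nf, List.mem_map]; rintro _ ⟨t, k, rfl⟩
    exact ⟨h.1.mul (nf_ok e h.2 t k).1, (nf_ok e h.2 t k).2⟩
  | .add e e', h => by
    simp only [nf, List.mem_append]; rintro t (k | k)
    · exact ⟨(nf_ok e h.1 t k).1, le_max_of_le_left (nf_ok e h.1 t k).2⟩
    · exact ⟨(nf_ok e' h.2 t k).1, le_max_of_le_right (nf_ok e' h.2 t k).2⟩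

theorem lsum_map {α : Type} (g : A →+ A) (l : List α) (F G : α → A) (e : ∀ t ∈ l, g (F t) = G t) :
    g (l.map F).sum = (l.map G).sum := by
  rw [map_list_sum, List.map_map]
  exact congrArg List.sum (List.map_congr_left e)

theorem Op.ph_nf {Φ : Fld A} (h : Φ.Is) (M a : ℝ) (u : A) : ∀ e : Op, e.Sm → e.ph Φ M a u =
    (e.nf.map fun t => Φ.rad (fun r => t.1 (M, a, r)) * Φ.wd t.2 u).sum
  | .one, _ => by simp [nf, ph, h.rad_cst, rl_one, Fld.wd_nil]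
  | .T e, k => by
    rw [ph, ph_nf h M a u e k, nf, List.map_map]
    exact lsum_map Φ.T.toLinearMap.toAddMonoidHom _ _ _ fun t ht => (D_mul _ _ _).trans (by
      rw [h.T_rad (sm3 (nf_ok e k t ht).1 M a), mul_zero, add_zero]; rfl)
  | .R e, k => by
    rw [ph, ph_nf h M a u e k, nf, List.map_append, List.sum_append, List.map_map, List.map_map,
      ← List.sum_map_add]
    exact lsum_map Φ.R.toLinearMap.toAddMonoidHom _ _ _ fun t ht => (D_mul _ _ _).trans (by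
      rw [h.R_rad (sm3 (nf_ok e k t ht).1 M a), d3_eq (nf_ok e k t ht).1, mul_comm (Φ.wd _ _)]; rfl)
  | .F e, k => by
    rw [ph, ph_nf h M a u e k, nf, List.map_map]
    exact lsum_map (Φ.L 2).toLinearMap.toAddMonoidHom _ _ _ fun t ht => (D_mul _ _ _).trans (by
      rw [h.L_rad (sm3 (nf_ok e k t ht).1 M a), mul_zero, add_zero]; rfl)
  | .mul c e, k => by
    rw [ph, ph_nf h M a u e k.2, nf, List.map_map, ← List.sum_map_mul_left]
    exact congrArg List.sum <| List.map_congr_left fun t ht => by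
      simp only [Function.comp]
      rw [h.rad_mul (sm3 k.1 M a) (sm3 (nf_ok e k.2 t ht).1 M a), mul_assoc]
  | .add e e', k => by
    rw [ph, ph_nf h M a u e k.1, ph_nf h M a u e' k.2, nf, List.map_append, List.sum_append]

theorem Op.ph_add (Φ : Fld A) (M a : ℝ) (u v : A) : ∀ e : Op,
    e.ph Φ M a (u + v) = e.ph Φ M a u + e.ph Φ M a v
  | .one => rfl
  | .T e => by rw [ph, ph_add Φ M a u v e, D_add]; rfl
  | .R e => by rw [ph, ph_add Φ M a u v e, D_add]; rfl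
  | .F e => by rw [ph, ph_add Φ M a u v e, D_add]; rfl
  | .mul c e => by rw [ph, ph_add Φ M a u v e, mul_add]; rfl
  | .add e e' => by rw [ph, ph_add Φ M a u v e, ph_add Φ M a u v e', ph, ph]; ring

/-- The points and parameters where the constants are uniform. -/
structure At (Φ : Fld A) (M0 a0 y z M a : ℝ) (x : Φ.B.Pt) : Prop where
  is : Φ.Is
  M : |M - M0| ≤ 1
  a : |a - a0| ≤ 1
  r : (Φ.pr x).2 ∈ Icc y z

theorem lsum_bd {Φ : Fld A} {x : Φ.B.Pt} {m : ℕ} {α : Type} (l : List α) (F : α → A) {c : ℝ}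
    (e : ∀ t ∈ l, Φ.Bd x m (F t) c) : Φ.Bd x m (l.map F).sum (l.length * c) := by
  induction l with
  | nil => simpa using Fld.Bd.zero le_rfl
  | cons t l ih =>
    rw [List.map_cons, List.sum_cons, List.length_cons, Nat.cast_succ, add_mul, one_mul, add_comm _ c]
    exact (e t List.mem_cons_self).add (ih fun t k => e t (List.mem_cons_of_mem _ k))

theorem coef_bd (M0 a0 y z : ℝ) (m : ℕ) {α : Type} (l : List α) (c : α → ℝ × ℝ × ℝ → ℝ)
    (hc : ∀ t ∈ l, ContDiff ℝ ∞ (c t)) : ∃ C, 1 ≤ C ∧ ∀ (A : Type) [CommRing A] [Algebra ℂ A]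
      (Φ : Fld A) M a x, At Φ M0 a0 y z M a x → ∀ t ∈ l, Φ.Bd x m (Φ.rad fun r => c t (M, a, r)) C := by
  induction l with
  | nil => exact ⟨1, le_rfl, fun _ _ _ _ _ _ _ _ _ k => nomatch k⟩
  | cons t l ih =>
    obtain ⟨C, h1, hC⟩ := rad_bd M0 a0 y z m _ (hc t List.mem_cons_self)
    obtain ⟨C', -, hC'⟩ := ih fun t k => hc t (List.mem_cons_of_mem _ k)
    refine ⟨max C C', le_max_of_le_left h1, fun A _ _ Φ M a x k t' ht => ?_⟩
    rcases List.mem_cons.1 ht with rfl | ht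
    · exact (hC A Φ k.is M a k.M k.a x k.r).le (le_max_left _ _)
    · exact (hC' A Φ M a x k t' ht).le (le_max_right _ _)

/-- Bounds for an operator and for its commutator with a function. -/
theorem Op.bd (M0 a0 y z : ℝ) (m N : ℕ) (e : Op) (he : e.Sm) : ∃ C, 1 ≤ C ∧
    ∀ (A : Type) [CommRing A] [Algebra ℂ A] (Φ : Fld A) M a x, At Φ M0 a0 y z M a x →
      ∀ u b, Φ.Bd x N u b → (m + e.ord ≤ N → Φ.Bd x m (e.ph Φ M a u) (C * b)) ∧
        (m + e.ord ≤ N + 1 → ∀ φ c, (∀ j, Φ.Bd x N (Φ.X j φ) c) →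
          Φ.Bd x m (e.ph Φ M a (φ * u) - φ * e.ph Φ M a u) (C * (c * b))) := by
  obtain ⟨C, h1, hC⟩ := coef_bd M0 a0 y z m e.nf Prod.fst fun t k => (e.nf_ok he t k).1
  have p : 0 ≤ (e.nf.length : ℝ) * (2 ^ m * C) := by positivity
  refine ⟨1 + e.nf.length * (2 ^ m * C) * (1 + e.ord * 2 ^ N), le_add_of_nonneg_right (by positivity),
    fun A _ _ Φ M a x k u b hu => ⟨fun o => ?_, fun o φ c hφ => ?_⟩⟩
  · rw [e.ph_nf k.is M a u he]
    refine (lsum_bd _ _ fun t ht => (hC A Φ M a x k t ht).mul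
      (hu.wd ((Nat.add_le_add_left (e.nf_ok he t ht).2 m).trans o))).le ?_
    have := mul_nonneg (mul_nonneg p (by positivity : (0 : ℝ) ≤ e.ord * 2 ^ N)) hu.nonneg
    nlinarith [hu.nonneg]
  · have q := mul_nonneg (hφ 0).nonneg hu.nonneg
    rw [e.ph_nf k.is M a u he, e.ph_nf k.is M a _ he, sub_eq_add_neg, ← neg_mul,
      ← List.sum_map_mul_left, ← List.sum_map_add]
    refine (lsum_bd (c := 2 ^ m * (C * (e.ord * (2 ^ N * (c * b))))) _ _ fun t ht => ?_).le ?_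
    · rw [show Φ.rad (fun r => t.1 (M, a, r)) * Φ.wd t.2 (φ * u) +
        -φ * (Φ.rad (fun r => t.1 (M, a, r)) * Φ.wd t.2 u) = Φ.rad (fun r => t.1 (M, a, r)) *
          (Φ.wd t.2 (φ * u) - φ * Φ.wd t.2 u) by ring]
      refine (hC A Φ M a x k t ht).mul ((Fld.Bd.cm hφ hu t.2 m
        ((Nat.add_le_add_left (e.nf_ok he t ht).2 m).trans o)).le ?_)
      exact mul_le_mul_of_nonneg_right (Nat.cast_le.2 (e.nf_ok he t ht).2) (by positivity)
    · nlinarith [mul_nonneg p q]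

end Vale.Agent.P354XT
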