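import Vale.Agent.P354XT.Jet
import Vale.Agent.P354XT.Top

/-!
The estimate for one field with a cut off in time: exact statement, and the ramp.
-/

open scoped ContDiff
open Set

namespace Vale.Agent.P354XT

open Vale.Agent.P354BF (rp)

/-- The final ramp g with g g' = - θ^2. -/
structure Ramp (g θ : ℝ → ℝ) (c : ℝ) : Prop where
  pos : 0 < c
  sg : ContDiff ℝ ∞ g
  st : ContDiff ℝ ∞ θ
  one : ∀ x, x ≤ -1 → g x = 1
  zero : ∀ x, 0 ≤ x → g x = 0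
  le : ∀ x, |g x| ≤ 1
  out : ∀ x, x ∉ Icc (-1 : ℝ) 0 → θ x = 0
  der : ∀ x, g x * deriv g x = -θ x ^ 2
  lg : ∀ x, x ≤ -1 / 4 → c ≤ g x ^ 2
  lt : ∀ x ∈ Icc (-3 / 4 : ℝ) (-1 / 4), c ≤ θ x ^ 2

/-- The cut off in time, with support in [t1 + 3/2, s]. -/
noncomputable def eta (g : ℝ → ℝ) (t1 s t : ℝ) : ℝ := up (3 / 2) 2 (t - t1) * g (t - s)

variable {A : Type} [CommRing A] [Algebra ℂ A]

/-- H is an integrable majorant of q on U. -/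
structure Mj (Φ : Fld A) (H : A) (U : Set (ℝ × ℝ)) (q : Φ.B.Pt → ℝ) : Prop where
  K : H ∈ Φ.B.K
  pos : ∀ x, 0 ≤ Φ.B.val x H
  ge : ∀ x, Φ.pr x ∈ U → q x ≤ Φ.B.val x H

/-- The majorants: flux, horizon, strips, lower order, initial slab, final slab (top level and
one level below), source and perturbation. -/
structure Hs (A : Type) where
  G : A
  H : A
  S : A
  L : A
  I : A
  F : A
  O : A
  P : A

/-- The hypotheses on the majorants. -/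
structure Hs.Ok (H : Hs A) (Φ : Fld A) (σ : Bool) (n : ℕ) (g : ℝ → ℝ)
    (M a γ y0 q1 q4 R1 t1 s : ℝ) (u : A) (del : Fin 5 → Fin 5 → A) : Prop where
  G : Mj Φ H.G (Icc (t1 + 3 / 2) s ×ˢ Icc (3 * R1 / 4) (9 * R1 / 4))
    fun x => eta g t1 s (Φ.pr x).1 ^ 2 * Φ.B.val x (Φ.gd σ n M a γ R1 u)
  Hz : Mj Φ H.H (Icc (t1 + 3 / 2) s ×ˢ Icc y0 q1) fun x => Φ.B.val x (Φ.jq (n + 1) u)
  S : Mj Φ H.S (Icc (t1 + 3 / 2) s ×ˢ (Icc y0 q1 ∪ Icc q4 (5 * R1 / 2)))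
    fun x => Φ.B.val x (Φ.jq n u)
  L : Mj Φ H.L (Icc (t1 + 3 / 2) s ×ˢ Icc y0 (5 * R1 / 2)) fun x => Φ.B.val x (Φ.jq (n - 1) u)
  I : Mj Φ H.I (Icc (t1 + 3 / 2) (t1 + 2) ×ˢ Icc y0 (5 * R1 / 2))
    fun x => Φ.B.val x (Φ.jq (n + 1) u)
  F : Mj Φ H.F (Icc (s - 1) s ×ˢ Icc y0 (5 * R1 / 2)) fun x => Φ.B.val x (Φ.jq (n + 1) u)
  O : Mj Φ H.O (Icc (s - 1) s ×ˢ Icc y0 (5 * R1 / 2)) fun x => Φ.B.val x (Φ.jq n u)
  PK : H.P ∈ Φ.B.K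
  Ppos : ∀ x, 0 ≤ Φ.B.val x H.P
  P : ∀ x, Φ.pr x ∈ Icc (t1 + 3 / 2) s ×ˢ Icc y0 (5 * R1 / 2) → ∃ h e : ℝ, h ≤ 1 ∧
    (∀ b c, Φ.Bd x n (del b c) h) ∧ Φ.Bd x n (Φ.P Φ.s Φ.s M a u + Φ.Q del u) e ∧
    h * Φ.nq x (n + 1) u ^ 2 + e * Φ.nq x (n + 1) u + e ^ 2 ≤ Φ.B.val x H.P

/-- Radial weights with values in [0, 1] and support in [x, y]. -/
structure Wl (c : ℝ → ℝ) (x y : ℝ) : Prop where
  sm : ContDiff ℝ ∞ c
  pos : ∀ r, 0 ≤ c r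
  one : ∀ r, c r ≤ 1
  out : ∀ r, r ∉ Icc x y → c r = 0

/-- The estimate for one field. -/
def CORE (σ : Bool) : Prop :=
  ∀ g θ c, Ramp g θ c →
  ∀ M0 a0 rm : ℝ, a0 ≠ 0 → |a0| < M0 → ∀ f, Slope M0 a0 rm f → ∀ γ : ℝ, 0 < γ → γ ≤ 1 →
    ∃ (n : ℕ) (rb q1 q2 q3 q4 Rs : ℝ), 4 ≤ n ∧ rm ≤ rb ∧ rb < rp M0 a0 ∧ rp M0 a0 < q1 ∧
      q1 < q2 ∧ q2 ≤ q3 ∧ q3 < q4 ∧ q4 < Rs ∧
    ∀ y0 r1 R0 : ℝ, rb ≤ y0 → y0 < rp M0 a0 → rp M0 a0 < r1 → r1 < q1 → Rs ≤ R0 →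
    ∀ eH : ℝ, 0 < eH → ∃ C0 : ℝ, 0 ≤ C0 ∧ ∀ R1 : ℝ, 4 * R0 ≤ R1 → ∀ ε : ℝ, 0 < ε →
    ∃ C1 dl : ℝ, 0 ≤ C1 ∧ 0 < dl ∧ ∀ M a : ℝ, |M - M0| < dl → |a - a0| < dl →
      ∀ (A : Type) [CommRing A] [Algebra ℂ A] (Φ : Fld A), Φ.Is → Φ.Par → Φ.s = sp σ →
      (Φ.f = fun r => f (M, a, r)) → ∀ t1 s ra rc : ℝ, t1 + 3 ≤ s → ra < y0 → 5 * R1 / 2 < rc →
      Icc (t1 + 1) (s + 1) ×ˢ Icc ra rc ⊆ Φ.Om → ∀ u ∈ Φ.Sp, ∀ del : Fin 5 → Fin 5 → A,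
      (∀ b c, Φ.B.Re (del b c)) → ∀ H : Hs A, H.Ok Φ σ n g M a γ y0 q1 q4 R1 t1 s u del →
      ∀ c1 c2 c3 : ℝ → ℝ, Wl c1 r1 (3 * R0) → Wl c2 r1 q2 → Wl c3 q3 (3 * R0) →
      ∀ V V' : List (Fin 5), IsY V → V.length ≤ n → IsY V' → V'.length ≤ n - 1 →
        Φ.B.J (Φ.tm (fun t => eta g t1 s t ^ 2) * Φ.rad c2 * Φ.jq 1 (Φ.wd V u)) +
          Φ.B.J (Φ.tm (fun t => eta g t1 s t ^ 2) * Φ.rad c3 * Φ.jq 1 (Φ.wd V u)) +
          Φ.B.J (Φ.tm (fun t => eta g t1 s t ^ 2) * Φ.rad c1 * Φ.jq 1 (Φ.wd V' u)) +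
          Φ.B.J (Φ.tm (fun t => θ (t - s) ^ 2) * Φ.rad c1 * Φ.jq 1 (Φ.wd V u)) ≤
        C0 * Φ.B.J H.G + eH * Φ.B.J H.H + ε * Φ.B.J H.F +
          C1 * (Φ.B.J H.S + Φ.B.J H.L + Φ.B.J H.I + Φ.B.J H.O + Φ.B.J H.P)

theorem ramp : ∃ g θ c, Ramp g θ c := by
  have sG : ContDiff ℝ ∞ expNegInvGlue := expNegInvGlue.contDiff
  have sb : ContDiff ℝ ∞ fun y : ℝ => expNegInvGlue (1 - y) := sG.comp (by fun_prop)
  obtain ⟨φ, hφ⟩ : ∃ φ : ℝ → ℝ, φ = fun y => ∫ z in (0 : ℝ)..y, expNegInvGlue (1 - z) ^ 2 :=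
    ⟨_, rfl⟩
  have cb : Continuous fun y : ℝ => expNegInvGlue (1 - y) ^ 2 := sb.continuous.pow 2
  have dφ : ∀ y, HasDerivAt φ (expNegInvGlue (1 - y) ^ 2) y := fun y => by
    rw [hφ]; exact (cb.integral_hasStrictDerivAt 0 y).hasDerivAt
  have sφ : ContDiff ℝ ∞ φ := contDiff_infty_iff_deriv.2 ⟨fun y => (dφ y).differentiableAt, by
    rw [show deriv φ = _ from funext fun y => (dφ y).deriv]; exact sb.pow 2⟩
  have mφ : Monotone φ := monotone_of_deriv_nonneg (fun y => (dφ y).differentiableAt)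
    fun y => by rw [(dφ y).deriv]; positivity
  have φ0 : φ 0 = 0 := by simp [hφ]
  have pφ : ∀ y, 0 < y → 0 < φ y := fun y hy => by
    refine lt_of_lt_of_le ?_ (mφ (min_le_left y (1 / 2)))
    rw [hφ]
    exact intervalIntegral.intervalIntegral_pos_of_pos_on (cb.intervalIntegrable _ _)
      (fun z hz => pow_pos (expNegInvGlue.pos_of_pos (by linarith [hz.2, min_le_right y (1 / 2)])) 2)
      (lt_min hy (by norm_num))
  have φ1 : ∀ y, 1 ≤ y → φ y = φ 1 := fun y hy => by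
    rw [hφ]
    simp only
    rw [← intervalIntegral.integral_add_adjacent_intervals (b := 1) (cb.intervalIntegrable _ _)
      (cb.intervalIntegrable _ _), add_eq_left, intervalIntegral.integral_congr (g := fun _ => 0)]
    · simp
    · intro z hz
      rw [uIcc_of_le hy] at hz
      simp [expNegInvGlue.zero_of_nonpos (show 1 - z ≤ 0 by linarith [hz.1])]
  have pN : 0 < expNegInvGlue (φ 1) := expNegInvGlue.pos_of_pos (pφ 1 one_pos)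
  have sH : ContDiff ℝ ∞ fun z : ℝ => z⁻¹ * expNegInvGlue z := by
    simpa using expNegInvGlue.contDiff_polynomial_eval_inv_mul (n := ⊤) Polynomial.X
  have dG : ∀ z : ℝ, HasDerivAt expNegInvGlue (z⁻¹ ^ 2 * expNegInvGlue z) z := fun z => by
    simpa using expNegInvGlue.hasDerivAt_polynomial_eval_inv_mul 1 z
  have sg : ContDiff ℝ ∞ fun x : ℝ => expNegInvGlue (φ (-x)) / expNegInvGlue (φ 1) :=
    (sG.comp (sφ.comp contDiff_neg)).div_const _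
  have st : ContDiff ℝ ∞ fun x : ℝ => expNegInvGlue (1 - -x) *
      ((φ (-x))⁻¹ * expNegInvGlue (φ (-x))) / expNegInvGlue (φ 1) :=
    ((sb.comp contDiff_neg).mul (sH.comp (sφ.comp contDiff_neg))).div_const _
  obtain ⟨x0, h0, m0⟩ := (isCompact_Icc (a := (-3 / 4 : ℝ)) (b := -1 / 4)).exists_isMinOn
    ⟨-1 / 2, by norm_num⟩ (st.continuous.pow 2).continuousOn
  have p4 := div_pos (expNegInvGlue.pos_of_pos (pφ (1 / 4) (by norm_num))) pN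
  refine ⟨_, _, min _ _, lt_min (pow_pos p4 2) (pow_pos (a := expNegInvGlue (1 - -x0) *
      ((φ (-x0))⁻¹ * expNegInvGlue (φ (-x0))) / expNegInvGlue (φ 1)) ?_ 2), sg, st, fun x hx => ?_,
    fun x hx => ?_, fun x => ?_, fun x hx => ?_, fun x => ?_,
    fun x hx => (min_le_left _ _).trans ?_, fun x hx => (min_le_right _ _).trans (m0 hx)⟩
  · have := pφ (-x0) (by linarith [h0.2])
    have := expNegInvGlue.pos_of_pos this
    have := expNegInvGlue.pos_of_pos (show 0 < 1 - -x0 by linarith [h0.1])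
    positivity
  · rw [φ1 _ (by linarith), div_self pN.ne']
  · rw [expNegInvGlue.zero_of_nonpos ((mφ (by linarith : -x ≤ 0)).trans φ0.le), zero_div]
  · rw [abs_of_nonneg (div_nonneg (expNegInvGlue.nonneg _) pN.le), div_le_one pN]
    refine expNegInvGlue.monotone ?_
    rcases le_total (-x) 1 with k | k
    exacts [mφ k, (φ1 _ k).le]
  · rcases not_and_or.1 hx with k | k
    · rw [expNegInvGlue.zero_of_nonpos (by linarith [not_le.1 k]), zero_mul, zero_div]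
    · rw [expNegInvGlue.zero_of_nonpos (x := φ _)
        ((mφ (by linarith [not_le.1 k] : -x ≤ 0)).trans φ0.le), mul_zero, mul_zero, zero_div]
  · have := (((dG (φ (-x))).comp (-x) (dφ (-x))).comp x (hasDerivAt_neg x)).div_const
      (expNegInvGlue (φ 1))
    rw [show deriv (fun x : ℝ => expNegInvGlue (φ (-x)) / expNegInvGlue (φ 1)) x = _ from this.deriv]
    ring
  · exact pow_le_pow_left₀ p4.le (div_le_div_of_nonneg_right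
      (expNegInvGlue.monotone (mφ (by linarith))) pN.le) 2

end Vale.Agent.P354XT
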