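import Vale.Agent.P354XT.Dop

/-!
Bounds for the cut off functions, the weights and the basic integrals.
-/

open scoped ContDiff
open Set

namespace Vale.Agent.P354XT

open Vale.Agent.P354XG (Der D_mul D_add D_sub D_neg D_alg)
open Vale.Agent.P354XI
open Vale.Agent.P354XI.Ibp

variable {Z : Fx} {m k : ℕ} {E F G W : El Z} {q q' q'' : Fn Z}

theorem ob_tm {g : ℝ → ℝ} (hg : Bb g) (s : Cx Z → ℝ) (m : ℕ) :
    Ob m (fun X : Cx Z => X.Φ.tm fun t => g (t - s X)) fun _ _ => 1 := by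
  obtain ⟨e, he, k⟩ := rad_bd Z.M0 Z.a0 Z.y0 (5 * Z.p.R1 / 2) m _ Z.ok.sm
  obtain ⟨C, hC, k'⟩ := tm_bd e he m g hg
  exact ⟨C, by linarith, fun X x i => by
    rw [mul_one]; exact k' _ _ X.is _ x (by rw [X.hf]; exact k _ _ X.is _ _ X.hM X.ha x i)⟩

theorem ox_tm {e : Cx Z → ℝ → ℝ} (he : ∀ X, ContDiff ℝ ∞ (e X))
    (h : Ob m (fun X => X.Φ.tm (deriv (e X))) q) : Ox m (fun X => X.Φ.tm (e X)) q := by
  obtain ⟨c, hc, k⟩ := rad_bd Z.M0 Z.a0 Z.y0 (5 * Z.p.R1 / 2) m _ Z.ok.sm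
  obtain ⟨C, p, b⟩ := h
  exact ⟨2 ^ m * (c * C), by positivity, fun X x i j => (X.is.X_tm (he X)
    (by rw [X.hf]; exact k _ _ X.is _ _ X.hM X.ha x i) hc (b X x i) j).le (le_of_eq (by ring))⟩

theorem Ob.van (h : Ob m E fun _ _ => 1) (a b : Cx Z → ℝ)
    (e : ∀ (X : Cx Z) x, (X.Φ.pr x).1 ∉ Icc (a X) (b X) → X.Φ.B.ev x (E X) = 0) :
    Ob m E fun X x => (Icc (a X) (b X)).indicator 1 (X.Φ.pr x).1 :=
  let ⟨C, p, k⟩ := h
  ⟨C, p, fun X x i => by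
    by_cases c : (X.Φ.pr x).1 ∈ Icc (a X) (b X)
    · simp only [indicator_of_mem c]; exact k X x i
    · simp only [indicator_of_notMem c, mul_zero]
      exact X.is.van (U := {p | p.1 ∉ Icc (a X) (b X)})
        (isClosed_Icc.preimage continuous_fst).isOpen_compl (e X) c m⟩

theorem bb_up {a b : ℝ} (h : a < b) : Bb (up a b) :=
  bb_step (up_sm a b) (fun _ => up_zero h) (fun _ => up_one h)
    fun t => abs_le.2 ⟨by linarith [up_nonneg a b t], up_le a b t⟩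
theorem bb_dn {a b : ℝ} (h : a < b) : Bb (dn a b) :=
  bb_step (dn_sm a b) (fun _ => dn_one h) (fun _ => dn_zero h)
    fun t => abs_le.2 ⟨by linarith [dn_nonneg a b t], dn_le a b t⟩
theorem bb_g : Bb Z.g := bb_step Z.rp.sg Z.rp.one Z.rp.zero Z.rp.le
theorem bb_θ : Bb Z.θ := bb_cpt Z.rp.st (HasCompactSupport.intro isCompact_Icc Z.rp.out)
theorem bb_1 : Bb (up (3 / 2) 2) := bb_up (by norm_num)

namespace Cx
variable (X : Cx Z)

/-- The cut off functions. -/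
noncomputable def et : ℝ → ℝ := eta Z.g X.t1 X.s
noncomputable def th (t : ℝ) : ℝ := Z.θ (t - X.s)
noncomputable def ze (t : ℝ) : ℝ := up 1 (3 / 2) (t - X.t1) * dn 0 1 (t - X.s)
noncomputable def E1 : X.A :=
  (X.Φ.tm fun t => deriv (up (3 / 2) 2) (t - X.t1)) * X.Φ.tm fun t => Z.g (t - X.s)
noncomputable def E2 : X.A :=
  (X.Φ.tm fun t => up (3 / 2) 2 (t - X.t1)) * X.Φ.tm fun t => deriv Z.g (t - X.s)
noncomputable def zc (c : ℝ → ℝ) : X.A := X.Φ.tm X.ze * X.Φ.rad c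
noncomputable def sb (x : X.Φ.B.Pt) : ℝ := √(X.bud x)

theorem et_sm : ContDiff ℝ ∞ X.et := (sm_sh bb_1.1 _).mul (sm_sh Z.rp.sg _)
theorem th_sm : ContDiff ℝ ∞ X.th := sm_sh Z.rp.st _
theorem ze_sm : ContDiff ℝ ∞ X.ze := (sm_sh (up_sm _ _) _).mul (sm_sh (dn_sm _ _) _)
theorem et_out (t : ℝ) (h : t ∉ Icc (X.t1 + 3 / 2) X.s) : X.et t = 0 := by
  rcases not_and_or.1 h with k | k
  · rw [et, eta, up_zero (by norm_num) (by linarith), zero_mul]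
  · rw [et, eta, Z.rp.zero _ (by linarith), mul_zero]
theorem th_out (t : ℝ) (h : t ∉ Icc (X.s - 1) X.s) : X.th t = 0 :=
  Z.rp.out _ fun k => h ⟨by linarith [k.1], by linarith [k.2]⟩
theorem et_le (t : ℝ) : X.et t ^ 2 ≤ 1 := by
  rw [sq_le_one_iff_abs_le_one, et, eta, abs_mul, abs_of_nonneg (up_nonneg _ _ _)]
  exact mul_le_one₀ (up_le _ _ _) (abs_nonneg _) (Z.rp.le _)
theorem ze_pos (t : ℝ) : 0 ≤ X.ze t := mul_nonneg (up_nonneg _ _ _) (dn_nonneg _ _ _)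
theorem ze_le (t : ℝ) : X.ze t ≤ 1 := mul_le_one₀ (up_le _ _ _) (dn_nonneg _ _ _) (dn_le _ _ _)
theorem ze_one (t : ℝ) (h : t ∈ Icc (X.t1 + 3 / 2) X.s) : X.ze t = 1 := by
  rw [ze, up_one (by norm_num) (by linarith [h.1]), dn_one one_pos (by linarith [h.2]), one_mul]
theorem memK {e c : ℝ → ℝ} (he : ContDiff ℝ ∞ e) (hc : ContDiff ℝ ∞ c)
    (e0 : ∀ t, t ∉ Icc (X.t1 + 1) (X.s + 1) → e t = 0) {x y : ℝ} (hx : X.ra < x) (hy : y < X.rc)
    (c0 : ∀ r, r ∉ Icc x y → c r = 0) : X.Φ.tm e * X.Φ.rad c ∈ X.Φ.B.K :=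
  X.is.memK he hc X.box e0 fun r k => c0 r fun j => k ⟨hx.le.trans j.1, j.2.trans hy.le⟩
theorem cz : Cz X.Φ X.ze (X.t1 + 3 / 2) X.s X.ra X.rc :=
  ⟨X.ze_sm, X.ze_pos, X.ze_one, (prod_mono (Icc_subset_Icc (by linarith) (by linarith))
    Subset.rfl).trans X.box, fun _ _ _ hc hx hy c0 => X.memK X.ze_sm hc (fun t h => by
      rcases not_and_or.1 h with k | k
      · rw [ze, up_zero (by norm_num) (by linarith), zero_mul]
      · rw [ze, dn_zero one_pos (by linarith), mul_zero]) hx hy c0⟩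

theorem tm_et : X.Φ.tm X.et =
    (X.Φ.tm fun t => up (3 / 2) 2 (t - X.t1)) * X.Φ.tm fun t => Z.g (t - X.s) :=
  X.is.tm_mul (sm_sh bb_1.1 _) (sm_sh Z.rp.sg _)
theorem tm_der : X.Φ.tm (deriv X.et) = X.E1 + X.E2 := by
  rw [← X.is.T_tm X.et_sm, tm_et, D_mul, X.is.T_tm (sm_sh bb_1.1 _), X.is.T_tm (sm_sh Z.rp.sg _),
    der_sh, der_sh, E1, E2]
  ring
theorem ramp_eq : X.E2 * X.Φ.tm X.et + X.Φ.tm X.th * X.Φ.tm X.th = 0 := by
  have a := sm_sh bb_1.1 X.t1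
  have b := sm_sh (bb_g (Z := Z)).der.1 X.s
  rw [E2, ← X.is.tm_mul a b, ← X.is.tm_mul (a.mul b) X.et_sm, ← X.is.tm_mul X.th_sm X.th_sm,
    ← X.is.tm_add ((a.mul b).mul X.et_sm) (X.th_sm.mul X.th_sm), ← rl_zero, ← X.is.tm_cst]
  refine congrArg _ (funext fun t => ?_)
  have d := Z.rp.der (t - X.s)
  by_cases k : t ∈ Icc (X.s - 1) X.s
  · rw [et, eta, th, up_one (by norm_num) (by linarith [k.1, X.ts])]
    linear_combination d
  · rw [X.th_out t k, der_out Z.rp.one Z.rp.zero _ fun j => k ⟨by linarith [j.1], by linarith [j.2]⟩]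
    ring

variable {X} {x : X.Φ.B.Pt}
theorem Pt.sq (p : X.Pt x) : X.sb x * X.sb x = X.bud x := Real.mul_self_sqrt p.bud
theorem Pt.s1 (p : X.Pt x) : X.ir x * X.nb x ≤ 2 * X.sb x := by
  have : X.ir x * X.nb x / 2 ≤ X.sb x := Real.le_sqrt_of_sq_le (by
    have := mul_le_mul (by linarith [p.ia1, p.ir2] : X.ir x ≤ 2) p.ba p.b0 zero_le_two
    nlinarith [mul_le_mul_of_nonneg_left this (mul_nonneg p.ir0 p.b0), p.f2, p.bud])
  linarith
theorem Pt.s2 (p : X.Pt x) : X.ia x * X.e x ≤ 1 * X.sb x := by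
  rw [one_mul]
  exact Real.le_sqrt_of_sq_le (by
    nlinarith [mul_le_mul_of_nonneg_right p.ia1 (mul_nonneg p.ia0 (mul_self_nonneg (X.e x))), p.f5])
theorem Pt.s3 (p : X.Pt x) : X.ia x * X.h x * X.na x ≤ 1 * X.sb x := by
  rw [one_mul]
  exact Real.le_sqrt_of_sq_le (by
    nlinarith [mul_le_mul_of_nonneg_right p.ih
      (mul_nonneg p.ia0 (mul_nonneg p.h0 (mul_self_nonneg (X.na x)))), p.f3])
theorem Pt.s4 (p : X.Pt x) : X.ia x * X.nc x ≤ 1 * X.sb x := by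
  rw [one_mul]
  exact Real.le_sqrt_of_sq_le (by
    nlinarith [mul_le_mul_of_nonneg_right p.ia1 (mul_nonneg p.ia0 (mul_self_nonneg (X.nc x))), p.f6])

end Cx

theorem ob_u1 : Ob (Z.p.n + 1) (fun X : Cx Z => X.u) Cx.na := .of fun X x _ => X.is.bd_nq x _ _
theorem ob_u0 : Ob Z.p.n (fun X : Cx Z => X.u) Cx.nb := .of fun X x _ => X.is.bd_nq x _ _
theorem ob_um : Ob (Z.p.n - 1) (fun X : Cx Z => X.u) Cx.nc := .of fun X x _ => X.is.bd_nq x _ _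
theorem ob_del (b c : Fin 5) : Ob Z.p.n (fun X : Cx Z => X.del b c) Cx.h :=
  .of fun X x _ => (X.he x).1 b c
theorem ob_src : Ob Z.p.n (fun X : Cx Z => X.src) Cx.e := .of fun X x _ => (X.he x).2.1

theorem ob_E1 (m : ℕ) : Ob m (Cx.E1 (Z := Z)) Cx.i0 :=
  ((ob_tm bb_1.der Cx.t1 m).mul1 (ob_tm bb_g Cx.s m)).van (fun X => X.t1 + 3 / 2)
    (fun X => X.t1 + 2) fun X x h => by
      rw [map_mul, X.is.ev_tm (sm_sh bb_1.der.1 _), der_out (fun _ => up_zero (by norm_num))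
        (fun _ => up_one (by norm_num)) _ fun j => h ⟨by linarith [j.1], by linarith [j.2]⟩]
      simp
theorem ob_E2 (m : ℕ) : Ob m (Cx.E2 (Z := Z)) Cx.i1 :=
  ((ob_tm bb_1 Cx.t1 m).mul1 (ob_tm bb_g.der Cx.s m)).van (fun X => X.s - 1) (fun X => X.s)
    fun X x h => by
      rw [map_mul, X.is.ev_tm (sm_sh bb_g.der.1 _), der_out Z.rp.one Z.rp.zero _
        fun j => h ⟨by linarith [j.1], by linarith [j.2]⟩]
      simp
theorem ob_th (m : ℕ) : Ob m (fun X : Cx Z => X.Φ.tm X.th) Cx.i1 :=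
  (ob_tm bb_θ Cx.s m).van (fun X => X.s - 1) (fun X => X.s) fun X x h => by
    have := X.is.ev_tm X.th_sm x
    rw [X.th_out _ h] at this
    exact this

/-- Cut off functions in time. -/
structure Cut (e : Cx Z → ℝ → ℝ) : Prop where
  sm : ∀ X, ContDiff ℝ ∞ (e X)
  out : ∀ X t, t ∉ Icc (X.t1 + 3 / 2) X.s → e X t = 0
  ob : ∀ m, Ob m (fun X => X.Φ.tm (e X)) Cx.ia
  ox : ∀ m, Ox m (fun X => X.Φ.tm (e X)) Cx.ir

theorem cut_et : Cut (Cx.et (Z := Z)) :=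
  ⟨Cx.et_sm, Cx.et_out, fun m => Ob.van (by
    simp only [Cx.tm_et]; exact (ob_tm bb_1 Cx.t1 m).mul1 (ob_tm bb_g Cx.s m))
    (fun X => X.t1 + 3 / 2) (fun X => X.s) fun X x h => by
      rw [X.is.ev_tm X.et_sm, X.et_out _ h, Complex.ofReal_zero], fun m => ox_tm Cx.et_sm (by
    simp only [Cx.tm_der]
    exact ((ob_E1 m).le 1 zero_le_one fun _ _ p => by linarith [p.i0r]).add
      ((ob_E2 m).le 1 zero_le_one fun _ _ p => by linarith [p.i1r]))⟩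
theorem cut_th : Cut (Cx.th (Z := Z)) :=
  ⟨Cx.th_sm, fun X t h => X.th_out t fun k => h ⟨by linarith [k.1, X.ts], k.2⟩,
    fun m => (ob_th m).le 1 zero_le_one fun _ _ p => by linarith [p.i11],
    fun m => ((ob_th (m + 1)).le 1 zero_le_one fun _ _ p => by linarith [p.i1r]).ox⟩

variable {e : Cx Z → ℝ → ℝ} {D : (X : Cx Z) → X.A → X.A}

theorem Cut.one (c : Cut e) (m : ℕ) : Ob m (fun X => X.Φ.tm (e X)) fun _ _ => 1 :=
  (c.ob m).le 1 zero_le_one fun _ _ p => by linarith [p.ia1]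
theorem Cut.cm (c : Cut e) (h : Dop k D) (hm : m + k ≤ Z.p.n + 1) :
    Ob m (fun X => D X (X.Φ.tm (e X) * X.u) - X.Φ.tm (e X) * D X X.u) fun X x => X.ir x * X.nb x :=
  h.cm hm (c.ox _) ob_u0
theorem Cut.bd (c : Cut e) (h : Dop k D) (hm : m + k ≤ Z.p.n + 1) :
    Ob m (fun X => D X (X.Φ.tm (e X) * X.u)) Cx.na := h.bd hm ((c.one _).mul1 ob_u1)

/-- Weights. -/
structure Wk (W : El Z) : Prop where
  K : ∀ X, W X ∈ X.Φ.B.K
  re : ∀ X : Cx Z, X.Φ.B.Re (W X)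
  out : ∀ (X : Cx Z) x, ¬X.In x → X.Φ.B.ev x (W X) = 0

theorem Wk.mul (h : Wk W) (e : ∀ X : Cx Z, X.Φ.B.Re (E X)) : Wk fun X => W X * E X :=
  ⟨fun X => Ideal.mul_mem_right _ _ (h.K X), fun X => (h.re X).mul (e X), fun X x i => by
    rw [map_mul, h.out X x i, zero_mul]⟩
theorem Wk.X (h : Wk W) (j : Fin 5) : Wk fun X => X.Φ.X j (W X) :=
  ⟨fun X => (X.is.sk j).dv.K_D _ (h.K X), fun X => (X.is.sk j).isRe (h.re X), fun X =>
    X.is.loc {p | p.2 ∉ Icc Z.y0 (5 * Z.p.R1 / 2)}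
      (isClosed_Icc.preimage continuous_snd).isOpen_compl j _ (h.out X)⟩
theorem wk_zc {c : Cx Z → ℝ → ℝ} (s : ∀ X, ContDiff ℝ ∞ (c X))
    (o : ∀ X r, r ∉ Icc Z.y0 (5 * Z.p.R1 / 2) → c X r = 0) : Wk fun X => X.zc (c X) :=
  ⟨fun X => X.cz.K _ _ _ (s X) X.lo X.hi (o X), fun X => (X.is.re_tm X.ze_sm).mul (X.is.re_rad (s X)),
    fun X x i => by rw [Cx.zc, map_mul, X.is.ev_rad (s X), o X _ i]; simp⟩
theorem ob_zc (m : ℕ) {c : ℝ × ℝ × ℝ → ℝ} (hc : ContDiff ℝ ∞ c) :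
    Ob m (fun X : Cx Z => X.zc fun r => c (X.M, X.a, r)) fun _ _ => 1 := by
  refine Ob.mul1 ?_ (ob_rad m hc)
  have := (ob_tm (bb_up (a := 1) (b := 3 / 2) (by norm_num)) Cx.t1 m).mul1
    (ob_tm (Z := Z) (bb_dn one_pos) Cx.s m)
  simp only [← fun X : Cx Z => X.is.tm_mul (sm_sh (up_sm 1 (3 / 2)) X.t1) (sm_sh (dn_sm 0 1) X.s)]
    at this
  exact this

/-- Numbers with bounded modulus. -/
def Ab (a : Cx Z → ℝ) : Prop := Oa fun X => |a X|

namespace Ab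
variable {a b : Cx Z → ℝ}
theorem cg (h : Ab a) (e : ∀ X, b X = a X) : Ab b := by rwa [funext e]
theorem add (h : Ab a) (h' : Ab b) : Ab fun X => a X + b X :=
  (Oa.add h h').le fun _ => abs_add_le _ _
theorem neg (h : Ab a) : Ab fun X => -a X := Oa.le h fun _ => (abs_neg _).le
theorem sub (h : Ab a) (h' : Ab b) : Ab fun X => a X - b X :=
  (h.add h'.neg).cg fun _ => sub_eq_add_neg _ _
theorem lsum {α : Type} (l : List α) {a : α → Cx Z → ℝ} (h : ∀ t ∈ l, Ab (a t)) :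
    Ab fun X => (l.map fun t => a t X).sum := by
  induction l with
  | nil => exact Oa.zero.le fun _ => by simp
  | cons t l ih =>
    simp only [List.map_cons, List.sum_cons]
    exact (h t List.mem_cons_self).add (ih fun t k => h t (List.mem_cons_of_mem _ k))
theorem sum {ι : Type} (s : Finset ι) {a : ι → Cx Z → ℝ} (h : ∀ t ∈ s, Ab (a t)) :
    Ab fun X => ∑ t ∈ s, a t X := (Oa.sum s h).le fun _ => Finset.abs_sum_le_sum_abs _ _
end Ab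

theorem Oa.unif {ι : Type} (s : Finset ι) {a : ι → Cx Z → ℝ} (h : ∀ t ∈ s, Oa (a t)) :
    ∃ C, 0 ≤ C ∧ ∀ t ∈ s, ∀ X, a t X ≤ C * X.tot := by
  choose! C p k using h
  exact ⟨∑ t ∈ s, C t, Finset.sum_nonneg p, fun t j X => (k t j X).trans
    (mul_le_mul_of_nonneg_right (Finset.single_le_sum p j) X.tot_nonneg)⟩

theorem ob_bil (h : Wk W) (a : Ob 0 W q) (b : Ob 0 F q') (c : Ob 0 G q'') (K : ℝ) (hK : 0 ≤ K)
    (e : ∀ (X : Cx Z) x, X.Pt x → q X x * (q' X x * q'' X x) ≤ K * X.bud x) :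
    Ab fun X => X.Φ.B.bil (W X) (F X) (G X) :=
  let ⟨C, p, a⟩ := a; let ⟨C', p', b⟩ := b; let ⟨C'', p'', c⟩ := c
  ⟨C * (C' * C'') * K, by positivity, fun X => X.bil_le (h.K X) _ _ (by positivity) (fun x i => by
    refine (mul_le_mul (a X x i).md (mul_le_mul (b X x i).md (c X x i).md (md_nonneg _ _)
      (b X x i).nonneg) (mul_nonneg (md_nonneg _ _) (md_nonneg _ _)) (a X x i).nonneg).trans ?_
    have := mul_le_mul_of_nonneg_left (e X x (X.pt i)) (by positivity : 0 ≤ C * (C' * C''))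
    linarith) fun x i => by rw [md, h.out X x i, norm_zero]⟩

end Vale.Agent.P354XT
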