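import Vale.Agent.P354XT.Ob

/-!
The calculus of uniform bounds: fields, numbers and operators.
-/

open scoped ContDiff
open Set
open Complex (I)

namespace Vale.Agent.P354XT

open Vale.Agent.P354XG (Der D_mul D_add D_sub D_neg D_alg)
open Vale.Agent.P354XI
open Vale.Agent.P354XI.Ibp

variable {Z : Fx}

/-- Uniform bounds for the jets of a family, and of its first derivatives. -/
def Ob (m : ℕ) (E : El Z) (q : Fn Z) : Prop :=
  ∃ C, 0 ≤ C ∧ ∀ (X : Cx Z) x, X.In x → X.Φ.Bd x m (E X) (C * q X x)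
def Ox (m : ℕ) (E : El Z) (q : Fn Z) : Prop :=
  ∃ C, 0 ≤ C ∧ ∀ (X : Cx Z) x, X.In x → ∀ j, X.Φ.Bd x m (X.Φ.X j (E X)) (C * q X x)

/-- Numbers which are bounded by the budget. -/
def Oa (q : Cx Z → ℝ) : Prop := ∃ C, 0 ≤ C ∧ ∀ X : Cx Z, q X ≤ C * X.tot

variable {m N k : ℕ} {E F G : El Z} {q q' : Fn Z}

namespace Ob
theorem of (h : ∀ (X : Cx Z) x, X.In x → X.Φ.Bd x m (E X) (q X x)) : Ob m E q :=
  ⟨1, zero_le_one, fun X x i => by rw [one_mul]; exact h X x i⟩
theorem mono (h : Ob m E q) (hm : k ≤ m) : Ob k E q :=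
  let ⟨C, p, e⟩ := h; ⟨C, p, fun X x i => (e X x i).mono hm⟩
theorem le (h : Ob m E q) (K : ℝ) (hK : 0 ≤ K) (e : ∀ (X : Cx Z) x, X.Pt x → q X x ≤ K * q' X x) :
    Ob m E q' :=
  let ⟨C, p, a⟩ := h
  ⟨C * K, mul_nonneg p hK, fun X x i => (a X x i).le (by
    rw [mul_assoc]; exact mul_le_mul_of_nonneg_left (e X x (X.pt i)) p)⟩
theorem add (h : Ob m E q) (h' : Ob m F q) : Ob m (fun X => E X + F X) q :=
  let ⟨C, p, a⟩ := h; let ⟨C', p', a'⟩ := h'
  ⟨C + C', add_nonneg p p', fun X x i => by rw [add_mul]; exact (a X x i).add (a' X x i)⟩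
theorem neg (h : Ob m E q) : Ob m (fun X => -E X) q :=
  let ⟨C, p, a⟩ := h; ⟨C, p, fun X x i => (a X x i).neg⟩
theorem sub (h : Ob m E q) (h' : Ob m F q) : Ob m (fun X => E X - F X) q := by
  simp only [sub_eq_add_neg]; exact h.add h'.neg
theorem mul (h : Ob m E q) (h' : Ob m F q') :
    Ob m (fun X => E X * F X) fun X x => q X x * q' X x :=
  let ⟨C, p, a⟩ := h; let ⟨C', p', a'⟩ := h'
  ⟨2 ^ m * (C * C'), by positivity, fun X x i => ((a X x i).mul (a' X x i)).le (le_of_eq (by ring))⟩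
theorem mul1 (h : Ob m E fun _ _ => 1) (h' : Ob m F q) : Ob m (fun X => E X * F X) q := by
  simpa using h.mul h'
theorem sum {ι : Type} (s : Finset ι) {E : ι → El Z} (h : ∀ i ∈ s, Ob m (E i) q) :
    (∀ (X : Cx Z) x, X.Pt x → 0 ≤ q X x) → Ob m (fun X => ∑ i ∈ s, E i X) q := fun p => by
  classical
  induction s using Finset.induction_on with
  | empty => exact of fun X x i => by rw [Finset.sum_empty]; exact .zero (p X x (X.pt i))
  | insert i s hi ih =>
    simp only [Finset.sum_insert hi]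
    exact (h i (Finset.mem_insert_self _ _)).add (ih fun j k => h j (Finset.mem_insert_of_mem k))
theorem ox (h : Ob (m + 1) E q) : Ox m E q :=
  let ⟨C, p, a⟩ := h; ⟨C, p, fun X x i j => (a X x i).X j⟩
end Ob

theorem Ox.ob (h : Ox m E q) (j : Fin 5) : Ob m (fun X => X.Φ.X j (E X)) q :=
  let ⟨C, p, e⟩ := h; ⟨C, p, fun X x i => e X x i j⟩
theorem Ox.mono (h : Ox m E q) (hm : k ≤ m) : Ox k E q :=
  let ⟨C, p, e⟩ := h; ⟨C, p, fun X x i j => (e X x i j).mono hm⟩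

namespace Oa
variable {a b : Cx Z → ℝ}
theorem le (h : Oa b) (e : ∀ X, a X ≤ b X) : Oa a :=
  let ⟨C, p, k⟩ := h; ⟨C, p, fun X => (e X).trans (k X)⟩
theorem add (h : Oa a) (h' : Oa b) : Oa fun X => a X + b X :=
  let ⟨C, p, k⟩ := h; let ⟨C', p', k'⟩ := h'
  ⟨C + C', add_nonneg p p', fun X => by rw [add_mul]; exact add_le_add (k X) (k' X)⟩
theorem cmul (h : Oa a) {t : ℝ} (ht : 0 ≤ t) : Oa fun X => t * a X :=
  let ⟨C, p, k⟩ := h
  ⟨t * C, mul_nonneg ht p, fun X => by rw [mul_assoc]; exact mul_le_mul_of_nonneg_left (k X) ht⟩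
theorem zero : Oa fun _ : Cx Z => 0 := ⟨0, le_rfl, fun _ => by simp⟩
theorem lsum {α : Type} (l : List α) {a : α → Cx Z → ℝ} (h : ∀ t ∈ l, Oa (a t)) :
    Oa fun X => (l.map fun t => a t X).sum := by
  induction l with
  | nil => exact zero
  | cons t l ih =>
    simp only [List.map_cons, List.sum_cons]
    exact (h t List.mem_cons_self).add (ih fun t k => h t (List.mem_cons_of_mem _ k))
theorem sum {ι : Type} (s : Finset ι) {a : ι → Cx Z → ℝ} (h : ∀ t ∈ s, Oa (a t)) :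
    Oa fun X => ∑ t ∈ s, a t X := by
  simpa only [Finset.sum_map_toList] using lsum s.toList fun t k => h t (Finset.mem_toList.1 k)
end Oa

/-- Families of operators of order k. -/
structure Dop (k : ℕ) (D : (X : Cx Z) → X.A → X.A) : Prop where
  bd : ∀ {m N E q}, m + k ≤ N → Ob N E q → Ob m (fun X => D X (E X)) q
  cm : ∀ {m N E q φ q'}, m + k ≤ N + 1 → Ox N φ q' → Ob N E q →
    Ob m (fun X => D X (φ X * E X) - φ X * D X (E X)) fun X x => q' X x * q X x

variable {D D' : (X : Cx Z) → X.A → X.A}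

theorem Dop.mono (h : Dop k D) {k' : ℕ} (e : k ≤ k') : Dop k' D :=
  ⟨fun a => h.bd (by omega), fun a => h.cm (by omega)⟩
theorem Dop.add (h : Dop k D) (h' : Dop k D') : Dop k fun X u => D X u + D' X u :=
  ⟨fun a b => (h.bd a b).add (h'.bd a b), fun a b c => by
    simpa only [mul_add, add_sub_add_comm] using (h.cm a b c).add (h'.cm a b c)⟩
theorem Dop.sub (h : Dop k D) (h' : Dop k D') : Dop k fun X u => D X u - D' X u :=
  ⟨fun a b => (h.bd a b).sub (h'.bd a b), fun a b c => by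
    simpa only [mul_sub, sub_sub_sub_comm] using (h.cm a b c).sub (h'.cm a b c)⟩
theorem Dop.mul (h : Dop k D) (e : ∀ m, Ob m G fun _ _ => 1) : Dop k fun X u => G X * D X u :=
  ⟨fun a b => (e _).mul1 (h.bd a b), fun a b c => by
    simpa only [mul_sub, mul_left_comm] using (e _).mul1 (h.cm a b c)⟩
theorem dop_id : Dop 0 fun (_ : Cx Z) u => u :=
  ⟨fun a b => b.mono a, fun _ ⟨C, p, b⟩ ⟨C', p', c⟩ => ⟨C * C', mul_nonneg p p', fun X x i => by
    simp only [sub_self]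
    rw [mul_mul_mul_comm]
    exact .zero (mul_nonneg (b X x i 0).nonneg (c X x i).nonneg)⟩⟩
theorem Dop.X (h : Dop k D) (j : Fin 5) : Dop (k + 1) fun X u => X.Φ.X j (D X u) :=
  ⟨fun a b => (h.bd (by omega) b).ox.ob j, fun {m N E q φ q'} a b c => by
    have := ((h.cm (m := m + 1) (by omega) b c).ox.ob j).add
      (((b.ob j).mono (by omega)).mul (h.bd (m := m) (by omega) c))
    simp only [D_sub, D_mul] at this
    simpa only [mul_comm (D _ _), sub_add_eq_sub_sub, sub_add_cancel] using this⟩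
theorem Dop.wd (h : Dop k D) (J : List (Fin 5)) : Dop (k + J.length) fun X u => X.Φ.wd J (D X u) := by
  induction J with
  | nil => exact h
  | cons j J ih => exact ih.X j
theorem dop_wd (J : List (Fin 5)) : Dop J.length fun (X : Cx Z) u => X.Φ.wd J u :=
  (dop_id.wd J).mono (by omega)

theorem ob_rad (m : ℕ) {c : ℝ × ℝ × ℝ → ℝ} (hc : ContDiff ℝ ∞ c) :
    Ob m (fun X : Cx Z => X.Φ.rad fun r => c (X.M, X.a, r)) fun _ _ => 1 := by
  obtain ⟨C, k, e⟩ := rad_bd Z.M0 Z.a0 Z.y0 (5 * Z.p.R1 / 2) m c hc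
  exact ⟨C, by linarith, fun X x i => by rw [mul_one]; exact e _ _ X.is _ _ X.hM X.ha x i⟩

theorem ob_w (m : ℕ) : Ob m (fun X : Cx Z => X.Φ.w 2) fun _ _ => 1 :=
  .of fun X x _ => X.is.bd_w x m 2

theorem ob_one (m : ℕ) : Ob m (fun _ : Cx Z => 1) fun _ _ => 1 := .of fun X x _ => X.is.bd_one x m

theorem ob_rl (m : ℕ) {c : ℝ × ℝ × ℝ → ℝ} (hc : ContDiff ℝ ∞ c) :
    Ob m (fun X : Cx Z => rl X.A (c (X.M, X.a, Z.y0))) fun _ _ => 1 := by
  obtain ⟨C, k, e⟩ := ob_rad (Z := Z) m (c := fun p => c (p.1, p.2.1, Z.y0)) (by fun_prop)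
  exact ⟨C, k, fun X x i => by have := e X x i; simp only [X.is.rad_cst] at this; exact this⟩

theorem Dop.op (h : Dop k D) : ∀ e : Op, e.Sm → Dop (k + e.ord) fun X u => e.ph X.Φ X.M X.a (D X u)
  | .one, _ => h
  | .T e, s => (h.op e s).X 0
  | .R e, s => (h.op e s).X 1
  | .F e, s => (h.op e s).X 4
  | .mul _ e, s => (h.op e s.2).mul fun m => ob_rad m s.1
  | .add e e', s => ((h.op e s.1).mono (by simp [Op.ord])).add ((h.op e' s.2).mono (by simp [Op.ord]))

theorem dop_op (e : Op) (he : e.Sm) : Dop e.ord fun (X : Cx Z) u => e.ph X.Φ X.M X.a u :=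
  (dop_id.op e he).mono (by omega)

theorem dop_P : Dop 2 fun (X : Cx Z) u => X.Φ.P X.Φ.s X.Φ.s X.M X.a u := by
  have a : ∀ m, Ob m (fun X : Cx Z => algebraMap ℂ X.A (2 * sp Z.p.σ * X.a * I)) fun _ _ => 1 :=
    fun m => by
      obtain ⟨C, k, e⟩ := ob_rl (Z := Z) m (c := fun p => 2 * sp Z.p.σ * p.2.1) (by fun_prop)
      refine ⟨C, k, fun X x i => ?_⟩
      have := (e X x i).alg X.is I
      simp only [Complex.norm_I, one_mul, rl, ← map_mul] at this
      rw [mul_comm I] at this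
      simpa using this
  have := ((((dop_op (Z := Z) _ (opP_sm (sp Z.p.σ))).add (((dop_wd [2, 2]).add (dop_wd [3, 3])).add
    (dop_wd [4, 4]))).sub ((((dop_wd [0, 0]).mul ob_w).mul ob_w).mul
      fun m => ob_rl m (c := fun p => p.2.1 ^ 2) (by fun_prop))).sub
    ((((dop_wd [0]).mono (by simp : _ ≤ 2)).mul ob_w).mul a))
  rw [show (fun (X : Cx Z) u => X.Φ.P X.Φ.s X.Φ.s X.M X.a u) = _ from
    funext fun X => funext fun u => by rw [X.is.P_eq, Fin.sum_univ_three, X.hs]]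
  exact this

theorem dop_N : Dop 1 fun (X : Cx Z) u => X.Φ.Nn Z.p.f X.M X.a u :=
  (dop_op _ (opN_sm Z.ok.sm)).sub ((((dop_wd [0]).mul ob_w).mul ob_w).mul
    fun m => ob_rl m (c := fun p => 2 * p.2.1 ^ 2) (by fun_prop))

end Vale.Agent.P354XT
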