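import Vale.Agent.P354XT.Ops
import Vale.Agent.P354BF.Curve

/-!
The Fourier coefficients of the operators, and the Parseval identity for quadratic functionals.
-/

open scoped ContDiff InnerProductSpace
open Set Filter Topology
open Complex (I)

namespace Vale.Agent.P354XT

open Vale.Agent.P354XG (Der D_mul D_add D_sub D_neg D_alg)
open Vale.Agent.P354XI
open Vale.Agent.P354XI.Ibp
open Vale.Agent.P354BF

variable {A : Type} [CommRing A] [Algebra ℂ A] {Φ : Fld A} {ta tb ra rb : ℝ} {F F' U : A}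

namespace Fld.Cl

theorem X (h : Φ.Is) (a : Fin 5) (k : Φ.Cl ta tb F) : Φ.Cl ta tb (Φ.X a F) :=
  ⟨h.spX a F k.1, h.loc {p | p.1 ∉ Icc ta tb}
    (isClosed_Icc.preimage continuous_fst).isOpen_compl a F k.2⟩
theorem T (h : Φ.Is) (k : Φ.Cl ta tb F) : Φ.Cl ta tb (Φ.T F) := k.X h 0
theorem R (h : Φ.Is) (k : Φ.Cl ta tb F) : Φ.Cl ta tb (Φ.R F) := k.X h 1
theorem L (h : Φ.Is) (i : Fin 3) (k : Φ.Cl ta tb F) : Φ.Cl ta tb (Φ.L i F) := by
  rw [XL]; exact k.X h _
theorem wd (h : Φ.Is) (J : List (Fin 5)) (k : Φ.Cl ta tb F) : Φ.Cl ta tb (Φ.wd J F) := by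
  induction J with
  | nil => exact k
  | cons a J ih => exact ih.X h a
theorem add (k : Φ.Cl ta tb F) (k' : Φ.Cl ta tb F') : Φ.Cl ta tb (F + F') :=
  ⟨Φ.Sp.add_mem k.1 k'.1, fun x hx => by rw [map_add, k.2 x hx, k'.2 x hx, add_zero]⟩
theorem mul {a : A} (k : Φ.Cl ta tb F) (e : a * F ∈ Φ.Sp) : Φ.Cl ta tb (a * F) :=
  ⟨e, fun x hx => by rw [map_mul, k.2 x hx, mul_zero]⟩
theorem alg (z : ℂ) (k : Φ.Cl ta tb F) : Φ.Cl ta tb (algebraMap ℂ A z * F) :=
  k.mul (by rw [← Algebra.smul_def]; exact Φ.Sp.smul_mem z k.1)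
theorem w (h : Φ.Is) (k : Φ.Cl ta tb F) : Φ.Cl ta tb (Φ.w 2 * F) := k.mul (h.spw 2 F k.1)
theorem rad (h : Φ.Is) {c : ℝ → ℝ} (hc : ContDiff ℝ ∞ c) (k : Φ.Cl ta tb F) :
    Φ.Cl ta tb (Φ.rad c * F) := k.mul (h.spf _ (hc.comp contDiff_snd) F k.1)
theorem sub (k : Φ.Cl ta tb F) (k' : Φ.Cl ta tb F') : Φ.Cl ta tb (F - F') :=
  ⟨Φ.Sp.sub_mem k.1 k'.1, fun x hx => by rw [map_sub, k.2 x hx, k'.2 x hx, sub_zero]⟩
theorem LL (h : Φ.Is) (k : Φ.Cl ta tb F) : Φ.Cl ta tb (∑ j, Φ.L j (Φ.L j F)) := by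
  rw [Fin.sum_univ_three]
  exact (((k.L h 0).L h 0).add ((k.L h 1).L h 1)).add ((k.L h 2).L h 2)
theorem ph (h : Φ.Is) (M a : ℝ) (k : Φ.Cl ta tb F) : ∀ e : Op, e.Sm → Φ.Cl ta tb (e.ph Φ M a F)
  | .one, _ => k
  | .T e, s => (ph h M a k e s).T h
  | .R e, s => (ph h M a k e s).R h
  | .F e, s => (ph h M a k e s).L h 2
  | .mul _ e, s => (ph h M a k e s.2).rad h (sm3 s.1 M a)
  | .add e e', s => (ph h M a k e s.1).add (ph h M a k e' s.2)
theorem P (h : Φ.Is) (s k' M a : ℝ) (k : Φ.Cl ta tb F) : Φ.Cl ta tb (Φ.P s k' M a F) := by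
  rw [h.P_eq]
  exact (((k.ph h M a _ (opP_sm s)).add (k.LL h)).sub (((((k.T h).T h).w h).w h).alg _)).sub
    (((k.T h).w h).alg _)
theorem N (h : Φ.Is) {f : ℝ × ℝ × ℝ → ℝ} (hf : ContDiff ℝ ∞ f) (M a : ℝ) (k : Φ.Cl ta tb F) :
    Φ.Cl ta tb (Φ.Nn f M a F) :=
  (k.ph h M a _ (opN_sm hf)).sub ((((k.T h).w h).w h).alg _)

end Fld.Cl

variable {S : Type} [NormedAddCommGroup S] [InnerProductSpace ℂ S] {G : Ang S} {ι : Type}
  {om m : ι → ℝ} {κ : ℝ} {hat : ι → A → ℝ → S}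

omit [InnerProductSpace ℂ S] in
theorem ev_of {u v : ℝ → S} (e : EqOn u v (Ioo ra rb)) {r : ℝ} (hr : r ∈ Ioo ra rb) :
    u =ᶠ[𝓝 r] v := e.eventuallyEq_of_mem (isOpen_Ioo.mem_nhds hr)

theorem Op.cv_congr (M a om m : ℝ) {u v : ℝ → S} (k : EqOn u v (Ioo ra rb)) :
    ∀ e : Op, EqOn (e.cv M a om m u) (e.cv M a om m v) (Ioo ra rb)
  | .one => k
  | .T e => fun _ hr => congrArg _ (cv_congr M a om m k e hr)
  | .R e => fun _ hr => (ev_of (cv_congr M a om m k e) hr).deriv_eq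
  | .F e => fun _ hr => congrArg _ (cv_congr M a om m k e hr)
  | .mul _ e => fun _ hr => congrArg _ (cv_congr M a om m k e hr)
  | .add e e' => fun _ hr =>
    congrArg₂ (· + ·) (cv_congr M a om m k e hr) (cv_congr M a om m k e' hr)

theorem Wn_congr (om m : ℝ) (n : ℕ) {u v : ℝ → S} (k : EqOn u v (Ioo ra rb)) :
    EqOn (Wn G om m n u) (Wn G om m n v) (Ioo ra rb) := fun r hr => by
  simp only [Wn, (ev_of k hr).iteratedDeriv_eq]

namespace Fld.Hat
variable (H : Φ.Hat G ta tb ra rb om m κ hat) (h : Φ.Is)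
include H

theorem sub (i : ι) (k : Φ.Cl ta tb F) (k' : Φ.Cl ta tb F') {r : ℝ} (hr : r ∈ Ioo ra rb) :
    hat i (F - F') r = hat i F r - hat i F' r := by
  have := H.add i _ _ (k.sub k') k' r hr
  rw [sub_add_cancel] at this
  rw [this, add_sub_cancel_right]

include h

theorem ph (i : ι) (M a : ℝ) (k : Φ.Cl ta tb F) : ∀ e : Op, e.Sm →
    EqOn (hat i (e.ph Φ M a F)) (e.cv M a (om i) (m i) (hat i F)) (Ioo ra rb)
  | .one, _ => fun _ _ => rfl
  | .T e, s => fun r hr => (H.T i _ (k.ph h M a e s) r hr).trans (congrArg _ (ph i M a k e s hr))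
  | .R e, s => fun r hr =>
    (H.R i _ (k.ph h M a e s) r hr).trans (ev_of (ph i M a k e s) hr).deriv_eq
  | .F e, s => fun r hr => (H.F i _ (k.ph h M a e s) r hr).trans (congrArg _ (ph i M a k e s hr))
  | .mul _ e, s => fun r hr => (H.rad i _ _ (sm3 s.1 M a) (k.ph h M a e s.2) r hr).trans
      (congrArg _ (ph i M a k e s.2 hr))
  | .add e e', s => fun r hr => (H.add i _ _ (k.ph h M a e s.1) (k.ph h M a e' s.2) r hr).trans
      (congrArg₂ (· + ·) (ph i M a k e s.1 hr) (ph i M a k e' s.2 hr))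

theorem P (i : ι) (s k' M a : ℝ) (k : Φ.Cl ta tb F) :
    EqOn (hat i (Φ.P s k' M a F)) (G.P s k' M a (om i) (m i) (hat i F)) (Ioo ra rb) := fun r hr => by
  have a1 := k.ph h M a _ (opP_sm s)
  have t := k.T h
  rw [h.P_eq, rl, H.sub i ((a1.add (k.LL h)).sub ((((t.T h).w h).w h).alg _)) ((t.w h).alg _) hr,
    H.sub i (a1.add (k.LL h)) ((((t.T h).w h).w h).alg _) hr, H.add i _ _ a1 (k.LL h) r hr,
    H.ph h i M a k _ (opP_sm s) hr, H.cas i _ k r hr, H.smul i _ _ (((t.T h).w h).w h) r hr,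
    H.smul i _ _ (t.w h) r hr, H.w i _ ((t.T h).w h) r hr, H.w i _ (t.T h) r hr, H.w i _ t r hr,
    H.T i _ t r hr, H.T i _ k r hr]
  simp only [opP, Op.cv, Ang.P, Ang.lop_apply, Kf, map_smul]
  match_scalars <;> push_cast <;> ring_nf <;> simp only [Complex.I_sq] <;> ring

theorem N (i : ι) {f : ℝ × ℝ × ℝ → ℝ} (hf : ContDiff ℝ ∞ f) (M a : ℝ) (k : Φ.Cl ta tb F) :
    EqOn (hat i (Φ.Nn f M a F)) (Nc G (fun r => f (M, a, r)) M a (om i) (m i) (hat i F))
      (Ioo ra rb) := fun r hr => by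
  have t := k.T h
  rw [Nn, rl, H.sub i (k.ph h M a _ (opN_sm hf)) (((t.w h).w h).alg _) hr,
    H.ph h i M a k _ (opN_sm hf) hr, H.smul i _ _ ((t.w h).w h) r hr, H.w i _ (t.w h) r hr,
    H.w i _ t r hr, H.T i _ k r hr]
  simp only [opN, Op.cv, Nc, Kf, map_smul]
  match_scalars <;> push_cast <;> ring

theorem iter (i : ι) (k : Φ.Cl ta tb F) (j : ℕ) :
    EqOn (hat i (Φ.wd (List.replicate j 1) F)) (iteratedDeriv j (hat i F)) (Ioo ra rb) := by
  induction j with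
  | zero => exact fun _ _ => rfl
  | succ j ih =>
    intro r hr
    rw [iteratedDeriv_succ, ← (ev_of ih hr).deriv_eq]
    exact H.R i _ (k.wd h _) r hr

end Fld.Hat

/-- The sum over the words in 1, T and the axial field. -/
def Fld.sy (Φ : Fld A) (g : A → ℝ) : ℕ → A → ℝ
  | 0, F => g F
  | p + 1, F => sy Φ g p F + sy Φ g p (Φ.T F) + sy Φ g p (Φ.L 2 F)

theorem sy_nonneg {g : A → ℝ} (hg : ∀ F, 0 ≤ g F) (p : ℕ) (F : A) : 0 ≤ Φ.sy g p F := by
  induction p generalizing F with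
  | zero => exact hg F
  | succ p ih => exact add_nonneg (add_nonneg (ih _) (ih _)) (ih _)

theorem sy_ge {g : A → ℝ} (hg : ∀ F, 0 ≤ g F) (p : ℕ) (F : A) (W : List (Fin 5)) (hW : IsY W)
    (hl : W.length ≤ p) : g (Φ.wd W F) ≤ Φ.sy g p F := by
  induction p generalizing F W with
  | zero => rw [List.length_eq_zero_iff.1 (Nat.le_zero.1 hl)]; exact le_rfl
  | succ p ih =>
    have a := sy_nonneg (Φ := Φ) hg p F
    have b := sy_nonneg (Φ := Φ) hg p (Φ.T F)
    have c := sy_nonneg (Φ := Φ) hg p (Φ.L 2 F)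
    rw [Fld.sy]
    rcases W.eq_nil_or_concat with rfl | ⟨W, x, rfl⟩
    · linarith [ih F [] hW (Nat.zero_le _)]
    · rw [List.concat_eq_append] at hW hl ⊢
      rw [Fld.wd_append]
      have := ih (Φ.wd [x] F) W hW.left (by simpa using hl)
      rcases hW.right x (List.mem_singleton_self x) with rfl | rfl
      · exact this.trans (by change Φ.sy g p (Φ.T F) ≤ _; linarith)
      · exact this.trans (by change Φ.sy g p (Φ.L 2 F) ≤ _; linarith)

theorem sy_le {g : A → ℝ} {b : ℝ} (p : ℕ) (F : A)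
    (e : ∀ W, IsY W → W.length ≤ p → g (Φ.wd W F) ≤ b) : Φ.sy g p F ≤ 3 ^ p * b := by
  induction p generalizing F with
  | zero => simpa [Fld.sy, Fld.wd_nil] using e [] (fun _ k => nomatch k) le_rfl
  | succ p ih =>
    have s : ∀ x : Fin 5, x = 0 ∨ x = 4 → Φ.sy g p (Φ.wd [x] F) ≤ 3 ^ p * b := fun x hx =>
      ih _ fun W hW hl => by
        rw [← Fld.wd_append]
        exact e _ (hW.append fun y hy => by rwa [List.mem_singleton.1 hy]) (by simpa using hl)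
    have a := ih F fun W hW hl => e W hW (hl.trans p.le_succ)
    have b : Φ.sy g p (Φ.T F) ≤ _ := s 0 (.inl rfl)
    have c : Φ.sy g p (Φ.L 2 F) ≤ _ := s 4 (.inr rfl)
    rw [Fld.sy, pow_succ]
    linarith

theorem int_congr {x y : ℝ} (hx : ra < x) (hxy : x ≤ y) (hy : y < rb) {f g : ℝ → ℝ}
    (e : EqOn f g (Ioo ra rb)) : ∫ r in x..y, f r = ∫ r in x..y, g r :=
  intervalIntegral.integral_congr fun r hr => by
    rw [uIcc_of_le hxy] at hr
    exact e ⟨hx.trans_le hr.1, hr.2.trans_lt hy⟩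

theorem Fld.Hat.sy (H : Φ.Hat G ta tb ra rb om m κ hat) (h : Φ.Is) {x y : ℝ} (hx : ra < x)
    (hxy : x ≤ y) (hy : y < rb) {c : ℝ → ℝ} {E : S → ℝ} {g : A → ℝ}
    (hE : ∀ (z : ℂ) v, E (z • v) = ‖z‖ ^ 2 * E v)
    (b : ∀ F, Φ.Cl ta tb F → HasSum (fun i => ∫ r in x..y, c r * E (hat i F r)) (κ * g F))
    (p : ℕ) (k : Φ.Cl ta tb F) :
    HasSum (fun i => ∫ r in x..y, c r * (lam (om i) (m i) ^ p * E (hat i F r))) (κ * Φ.sy g p F) := by
  induction p generalizing F with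
  | zero => simpa [Fld.sy] using b F k
  | succ p ih =>
    rw [Fld.sy, mul_add, mul_add]
    refine (((ih k).add (ih (k.T h))).add (ih (k.L h 2))).congr_fun fun i => ?_
    rw [int_congr hx hxy hy (f := fun r => c r * (lam (om i) (m i) ^ p * E (hat i (Φ.T F) r)))
        (g := fun r => om i ^ 2 * (c r * (lam (om i) (m i) ^ p * E (hat i F r)))) fun r hr => by
          simp only [H.T i F k r hr, hE]; simp; ring,
      int_congr hx hxy hy (f := fun r => c r * (lam (om i) (m i) ^ p * E (hat i (Φ.L 2 F) r)))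
        (g := fun r => m i ^ 2 * (c r * (lam (om i) (m i) ^ p * E (hat i F r)))) fun r hr => by
          simp only [H.F i F k r hr, hE]; simp; ring,
      intervalIntegral.integral_const_mul, intervalIntegral.integral_const_mul,
      show (fun r => c r * (lam (om i) (m i) ^ (p + 1) * E (hat i F r))) = fun r =>
        lam (om i) (m i) * (c r * (lam (om i) (m i) ^ p * E (hat i F r))) from
          funext fun r => by ring, intervalIntegral.integral_const_mul]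
    rw [show ∀ t, lam (om i) (m i) * t = t + om i ^ 2 * t + m i ^ 2 * t from
      fun t => by rw [lam]; ring]

end Vale.Agent.P354XT
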