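import Vale.Agent.P354XT.Calc

/-!
Pointwise bounds for the jets of fields.
-/

open scoped ContDiff
open Set

namespace Vale.Agent.P354XT

open Vale.Agent.P354XG (Der D_mul D_add D_sub D_neg D_alg)
open Vale.Agent.P354XI
open Vale.Agent.P354XI.Ibp

variable {A : Type} [CommRing A] [Algebra ℂ A]

/-- The number of words. -/
def nw (m : ℕ) : ℝ := (words m).card

theorem nw_pos (m : ℕ) : 1 ≤ nw m := by
  have : 0 < (words m).card := Finset.card_pos.2 ⟨[], mem_words.2 (Nat.zero_le _)⟩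
  exact Nat.one_le_cast.2 this

namespace Fld

/-- All words of length at most m of u are bounded by c at x. -/
def Bd (Φ : Fld A) (x : Φ.B.Pt) (m : ℕ) (u : A) (c : ℝ) : Prop :=
  ∀ J : List (Fin 5), J.length ≤ m → Φ.B.md x (Φ.wd J u) ≤ c

/-- The norm of the jet. -/
noncomputable def nq (Φ : Fld A) (x : Φ.B.Pt) (m : ℕ) (u : A) : ℝ := √(Φ.B.val x (Φ.jq m u))

variable {Φ : Fld A} {x : Φ.B.Pt} {m : ℕ} {u v : A} {c e : ℝ}

theorem nq_nonneg : 0 ≤ Φ.nq x m u := Real.sqrt_nonneg _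
theorem Is.nq_sq (h : Φ.Is) : Φ.nq x m u ^ 2 = Φ.B.val x (Φ.jq m u) :=
  Real.sq_sqrt (h.lv_nonneg x m _)
theorem Is.bd_nq (h : Φ.Is) (x : Φ.B.Pt) (m : ℕ) (u : A) : Φ.Bd x m u (Φ.nq x m u) :=
  fun _ hJ => Real.le_sqrt_of_sq_le (h.le_lv x (fun J => Φ.wd J u) hJ)
theorem Is.nq_mono (h : Φ.Is) {m' : ℕ} (hm : m ≤ m') : Φ.nq x m u ≤ Φ.nq x m' u :=
  Real.sqrt_le_sqrt (h.lv_mono x hm _)
theorem Is.jq_nonneg (h : Φ.Is) : 0 ≤ Φ.B.val x (Φ.jq m u) := h.lv_nonneg x m _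
theorem Is.re_jq (h : Φ.Is) : Φ.B.Re (Φ.jq m u) := h.re_lv m _

namespace Bd

theorem md (h : Φ.Bd x m u c) : Φ.B.md x u ≤ c := h [] (Nat.zero_le _)
theorem nonneg (h : Φ.Bd x m u c) : 0 ≤ c := (md_nonneg x u).trans h.md
theorem mono (h : Φ.Bd x m u c) {m' : ℕ} (hm : m' ≤ m) : Φ.Bd x m' u c :=
  fun J hJ => h J (hJ.trans hm)
theorem le (h : Φ.Bd x m u c) (hc : c ≤ e) : Φ.Bd x m u e := fun J hJ => (h J hJ).trans hc
theorem jq (h : Φ.Bd x m u c) (hI : Φ.Is) : Φ.B.val x (Φ.jq m u) ≤ nw m * c ^ 2 := by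
  rw [Fld.jq, hI.val_lv, nw, ← nsmul_eq_mul]
  exact Finset.sum_le_card_nsmul _ _ _ fun J hJ =>
    pow_le_pow_left₀ (md_nonneg _ _) (h J (mem_words.1 hJ)) 2
theorem wd {J : List (Fin 5)} {k : ℕ} (h : Φ.Bd x k u c) (hJ : m + J.length ≤ k) :
    Φ.Bd x m (Φ.wd J u) c := fun J' hJ' => by
  rw [← wd_append]; exact h _ (by rw [List.length_append]; omega)
theorem X (h : Φ.Bd x (m + 1) u c) (a : Fin 5) : Φ.Bd x m (Φ.X a u) c :=
  h.wd (J := [a]) le_rfl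
theorem T (h : Φ.Bd x (m + 1) u c) : Φ.Bd x m (Φ.T u) c := h.X 0
theorem R (h : Φ.Bd x (m + 1) u c) : Φ.Bd x m (Φ.R u) c := h.X 1
theorem L (h : Φ.Bd x (m + 1) u c) (i : Fin 3) : Φ.Bd x m (Φ.L i u) c := by rw [XL]; exact h.X _
theorem of (h0 : Φ.B.md x u ≤ c) (h : ∀ a, Φ.Bd x m (Φ.X a u) c) : Φ.Bd x (m + 1) u c := by
  intro J hJ
  rcases J.eq_nil_or_concat with rfl | ⟨J, a, rfl⟩
  · exact h0
  · rw [List.concat_eq_append] at hJ ⊢
    rw [wd_append]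
    exact h a J (by simpa using hJ)
theorem of0 (h0 : Φ.B.md x u ≤ c) : Φ.Bd x 0 u c := fun J hJ => by
  rw [List.length_eq_zero_iff.1 (Nat.le_zero.1 hJ)]; exact h0
theorem zero (hc : 0 ≤ c) : Φ.Bd x m 0 c := fun J _ => by rw [wd_zero, md_zero]; exact hc
theorem add (h : Φ.Bd x m u c) (h' : Φ.Bd x m v e) : Φ.Bd x m (u + v) (c + e) := fun J hJ => by
  rw [wd_add]; exact (md_add _ _ _).trans (add_le_add (h J hJ) (h' J hJ))
theorem neg (h : Φ.Bd x m u c) : Φ.Bd x m (-u) c := fun J hJ => by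
  rw [wd_neg, md_neg]; exact h J hJ
theorem sub (h : Φ.Bd x m u c) (h' : Φ.Bd x m v e) : Φ.Bd x m (u - v) (c + e) := by
  rw [sub_eq_add_neg]; exact h.add h'.neg
theorem sum {ι : Type} (s : Finset ι) {g : ι → A} {b : ι → ℝ} (h : ∀ i ∈ s, Φ.Bd x m (g i) (b i)) :
    Φ.Bd x m (∑ i ∈ s, g i) (∑ i ∈ s, b i) := fun J hJ => by
  rw [wd_sum]; exact (md_sum _ _ _).trans (Finset.sum_le_sum fun i hi => h i hi J hJ)
theorem alg (hI : Φ.Is) (z : ℂ) (h : Φ.Bd x m u c) : Φ.Bd x m (algebraMap ℂ A z * u) (‖z‖ * c) :=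
  fun J hJ => by
    rw [wd_alg, md_mul, Ibp.md, hI.B.ev_alg]
    exact mul_le_mul_of_nonneg_left (h J hJ) (norm_nonneg z)
theorem rl (hI : Φ.Is) (t : ℝ) (h : Φ.Bd x m u c) : Φ.Bd x m (rl A t * u) (|t| * c) := by
  simpa [Ibp.rl] using h.alg hI t

theorem mul (h : Φ.Bd x m u c) (h' : Φ.Bd x m v e) : Φ.Bd x m (u * v) (2 ^ m * (c * e)) := by
  induction m generalizing u v with
  | zero =>
    refine of0 ?_
    rw [md_mul, pow_zero, one_mul]
    exact mul_le_mul h.md h'.md (md_nonneg _ _) h.nonneg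
  | succ m ih =>
    have p := mul_nonneg h.nonneg h'.nonneg
    refine of ?_ fun a => ?_
    · rw [md_mul]
      exact (mul_le_mul h.md h'.md (md_nonneg _ _) h.nonneg).trans
        (le_mul_of_one_le_left p (one_le_pow₀ one_le_two))
    · rw [D_mul]
      refine ((ih (h.mono m.le_succ) (h'.X a)).add ?_).le (le_of_eq (by rw [pow_succ, mul_comm _ 2,
        mul_assoc, two_mul]))
      rw [mul_comm v]
      exact ih (h.X a) (h'.mono m.le_succ)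

/-- The commutator of a word with a function. -/
theorem cm {φ : A} {N : ℕ} (hφ : ∀ a, Φ.Bd x N (Φ.X a φ) c) (h : Φ.Bd x N u e)
    (J : List (Fin 5)) : ∀ m, m + J.length ≤ N + 1 →
      Φ.Bd x m (Φ.wd J (φ * u) - φ * Φ.wd J u) (J.length * (2 ^ N * (c * e))) := by
  have p := mul_nonneg (hφ 0).nonneg h.nonneg
  induction J with
  | nil => intro m _; simpa [wd_nil] using zero le_rfl
  | cons a J ih =>
    intro m hm
    rw [List.length_cons] at hm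
    have e1 : Φ.wd (a :: J) (φ * u) - φ * Φ.wd (a :: J) u =
        Φ.X a (Φ.wd J (φ * u) - φ * Φ.wd J u) + Φ.X a φ * Φ.wd J u := by
      rw [wd_cons, wd_cons, D_sub, D_mul]; ring
    rw [e1]
    refine (((ih (m + 1) (by omega)).X a).add
      (((hφ a).mono (by omega : m ≤ N)).mul (h.wd (by omega)))).le ?_
    have : (2 : ℝ) ^ m ≤ 2 ^ N := pow_le_pow_right₀ one_le_two (by omega)
    rw [List.length_cons, Nat.cast_add, Nat.cast_one, add_mul, one_mul]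
    nlinarith

end Bd

namespace Is
variable (h : Φ.Is)
include h

theorem bd_rl (x : Φ.B.Pt) (m : ℕ) (t : ℝ) : Φ.Bd x m (rl A t) |t| := by
  cases m with
  | zero => exact Bd.of0 (h.B.md_rl x t).le
  | succ m => exact Bd.of (h.B.md_rl x t).le fun a => by rw [D_rl]; exact Bd.zero (abs_nonneg t)

theorem bd_one (x : Φ.B.Pt) (m : ℕ) : Φ.Bd x m 1 1 := by simpa [rl_one] using h.bd_rl x m 1

/-- Locality. -/
theorem van {U : Set (ℝ × ℝ)} (hU : IsOpen U) (e : ∀ y, Φ.pr y ∈ U → Φ.B.ev y u = 0)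
    (hx : Φ.pr x ∈ U) (m : ℕ) : Φ.Bd x m u 0 := fun J hJ => by
  have : ∀ y, Φ.pr y ∈ U → Φ.B.ev y (Φ.wd J u) = 0 := by
    clear hJ
    induction J with
    | nil => exact e
    | cons a J ih => exact h.loc U hU a _ ih
  rw [md, this x hx, norm_zero]

theorem van_tm {g : ℝ → ℝ} (hg : ContDiff ℝ ∞ g) {a b : ℝ} (e : ∀ t, t ∉ Icc a b → g t = 0)
    (hx : (Φ.pr x).1 ∉ Icc a b) (m : ℕ) : Φ.Bd x m (Φ.tm g) 0 :=
  h.van (U := {p | p.1 ∉ Icc a b}) (isClosed_Icc.preimage continuous_fst).isOpen_compl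
    (fun y hy => by rw [h.ev_tm hg, e _ hy, Complex.ofReal_zero]) hx m

theorem van_rad {g : ℝ → ℝ} (hg : ContDiff ℝ ∞ g) {a b : ℝ} (e : ∀ t, t ∉ Icc a b → g t = 0)
    (hx : (Φ.pr x).2 ∉ Icc a b) (m : ℕ) : Φ.Bd x m (Φ.rad g) 0 :=
  h.van (U := {p | p.2 ∉ Icc a b}) (isClosed_Icc.preimage continuous_snd).isOpen_compl
    (fun y hy => by rw [h.ev_rad hg, e _ hy, Complex.ofReal_zero]) hx m

theorem bd_w (x : Φ.B.Pt) (m : ℕ) (i : Fin 3) : Φ.Bd x m (Φ.w i) 1 := by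
  have b0 : ∀ i, Φ.B.md x (Φ.w i) ≤ 1 := fun i => by
    have e := congrArg (Φ.B.val x) h.one
    rw [val_sum, val_one] at e
    simp only [h.B.val_mul (h.wre _)] at e
    rw [h.B.md_re (h.wre i), abs_le_one_iff_mul_self_le_one, ← e]
    exact Finset.single_le_sum (f := fun i => Φ.B.val x (Φ.w i) * Φ.B.val x (Φ.w i))
      (fun _ _ => mul_self_nonneg _) (Finset.mem_univ i)
  induction m generalizing i with
  | zero => exact Bd.of0 (b0 i)
  | succ m ih =>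
    have l : ∀ j, Φ.Bd x m (Φ.L j (Φ.w i)) 1 := fun j => by
      have : i = j ∨ i = j + 1 ∨ i = j + 2 := by revert i j; decide
      rcases this with rfl | rfl | rfl
      · rw [h.Lw0]; exact Bd.zero zero_le_one
      · rw [h.Lw1]; exact (ih _).neg
      · rw [h.Lw2]; exact ih _
    exact Bd.of (b0 i) (fin5 (by rw [X0, h.Tw]; exact Bd.zero zero_le_one)
      (by rw [X1, h.Rw]; exact Bd.zero zero_le_one) (l 0) (l 1) (l 2))

theorem bd_rad {g : ℝ → ℝ} (hg : ContDiff ℝ ∞ g) (h0 : |g (Φ.pr x).2| ≤ c)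
    (h1 : Φ.Bd x m (Φ.rad (deriv g)) c) : Φ.Bd x (m + 1) (Φ.rad g) c :=
  Bd.of (by rwa [h.md_rad hg]) (fin5 (by rw [X0, h.T_rad hg]; exact Bd.zero h1.nonneg)
    (by rwa [X1, h.R_rad hg]) (by rw [X2, h.L_rad hg]; exact Bd.zero h1.nonneg)
    (by rw [X3, h.L_rad hg]; exact Bd.zero h1.nonneg)
    (by rw [X4, h.L_rad hg]; exact Bd.zero h1.nonneg))

/-- The derivatives of a function of the time. -/
theorem X_tm {g : ℝ → ℝ} (hg : ContDiff ℝ ∞ g) (hf : Φ.Bd x m (Φ.rad Φ.f) e) (he : 1 ≤ e)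
    (h1 : Φ.Bd x m (Φ.tm (deriv g)) c) (a : Fin 5) :
    Φ.Bd x m (Φ.X a (Φ.tm g)) (2 ^ m * (e * c)) := by
  have p := h1.nonneg
  have q : c ≤ 2 ^ m * (e * c) := (le_mul_of_one_le_left p he).trans
    (le_mul_of_one_le_left (by positivity) (one_le_pow₀ one_le_two))
  revert a
  exact fin5 (by rw [X0, h.T_tm hg]; exact h1.le q) (by rw [X1, h.R_tm hg]; exact (hf.mul h1).neg)
    (by rw [X2, h.L_tm hg]; exact Bd.zero (p.trans q))
    (by rw [X3, h.L_tm hg]; exact Bd.zero (p.trans q))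
    (by rw [X4, h.L_tm hg]; exact Bd.zero (p.trans q))

end Is
end Fld

/-- The derivative in the last variable. -/
noncomputable def d3 (c : ℝ × ℝ × ℝ → ℝ) (p : ℝ × ℝ × ℝ) : ℝ := fderiv ℝ c p (0, 0, 1)

theorem sm3 {c : ℝ × ℝ × ℝ → ℝ} (hc : ContDiff ℝ ∞ c) (M a : ℝ) :
    ContDiff ℝ ∞ fun r => c (M, a, r) :=
  hc.comp (contDiff_const.prodMk (contDiff_const.prodMk contDiff_id))

theorem d3_sm {c : ℝ × ℝ × ℝ → ℝ} (hc : ContDiff ℝ ∞ c) : ContDiff ℝ ∞ (d3 c) :=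
  (hc.fderiv_right (m := ∞) (by simp)).clm_apply contDiff_const

theorem d3_eq {c : ℝ × ℝ × ℝ → ℝ} (hc : ContDiff ℝ ∞ c) (M a : ℝ) :
    deriv (fun r => c (M, a, r)) = fun r => d3 c (M, a, r) := funext fun r =>
  ((hc.differentiable (by simp) (M, a, r)).hasFDerivAt.comp_hasDerivAt r
    ((hasDerivAt_const r M).prodMk ((hasDerivAt_const r a).prodMk (hasDerivAt_id r)))).deriv

/-- Uniform bounds for radial coefficients. -/
theorem rad_bd (M0 a0 y z : ℝ) (m : ℕ) : ∀ c : ℝ × ℝ × ℝ → ℝ, ContDiff ℝ ∞ c → ∃ C, 1 ≤ C ∧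
    ∀ (A : Type) [CommRing A] [Algebra ℂ A] (Φ : Fld A), Φ.Is → ∀ M a, |M - M0| ≤ 1 →
      |a - a0| ≤ 1 → ∀ x, (Φ.pr x).2 ∈ Icc y z → Φ.Bd x m (Φ.rad fun r => c (M, a, r)) C := by
  have b0 : ∀ c : ℝ × ℝ × ℝ → ℝ, ContDiff ℝ ∞ c → ∃ C, 1 ≤ C ∧ ∀ M a r, |M - M0| ≤ 1 →
      |a - a0| ≤ 1 → r ∈ Icc y z → |c (M, a, r)| ≤ C := fun c hc => by
    obtain ⟨C, hC⟩ := ((isCompact_Icc (a := M0 - 1) (b := M0 + 1)).prod
      ((isCompact_Icc (a := a0 - 1) (b := a0 + 1)).prod (isCompact_Icc (a := y) (b := z)))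
      ).exists_bound_of_continuousOn hc.continuous.continuousOn
    refine ⟨max 1 C, le_max_left _ _, fun M a r h1 h2 h3 => le_max_of_le_right (hC (M, a, r) ?_)⟩
    rw [abs_le] at h1 h2
    exact ⟨⟨by linarith, by linarith⟩, ⟨by linarith, by linarith⟩, h3⟩
  induction m with
  | zero =>
    intro c hc
    obtain ⟨C, h1, hC⟩ := b0 c hc
    exact ⟨C, h1, fun A _ _ Φ h M a k1 k2 x hx =>
      .of0 (by rw [h.md_rad (sm3 hc M a)]; exact hC M a _ k1 k2 hx)⟩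
  | succ m ih =>
    intro c hc
    obtain ⟨C, h1, hC⟩ := b0 c hc
    obtain ⟨C', -, hC'⟩ := ih _ (d3_sm hc)
    refine ⟨max C C', le_max_of_le_left h1, fun A _ _ Φ h M a k1 k2 x hx =>
      h.bd_rad (sm3 hc M a) (le_max_of_le_left (hC M a _ k1 k2 hx)) ?_⟩
    rw [d3_eq hc]
    exact (hC' A Φ h M a k1 k2 x hx).le (le_max_right _ _)

/-- Smooth functions with bounded derivatives. -/
def Bb (g : ℝ → ℝ) : Prop := ContDiff ℝ ∞ g ∧ ∀ j, ∃ c, ∀ t, |deriv^[j] g t| ≤ c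

theorem Bb.der {g : ℝ → ℝ} (h : Bb g) : Bb (deriv g) := ⟨Fld.sm_der h.1, fun j => h.2 (j + 1)⟩

theorem bb_cpt {g : ℝ → ℝ} (hg : ContDiff ℝ ∞ g) (hc : HasCompactSupport g) : Bb g :=
  ⟨hg, fun j => by
    induction j generalizing g with
    | zero => exact hg.continuous.bounded_above_of_compact_support hc
    | succ j ih => exact ih (Fld.sm_der hg) hc.deriv⟩

theorem der_out {g : ℝ → ℝ} {a b p q : ℝ} (h1 : ∀ t, t ≤ a → g t = p) (h2 : ∀ t, b ≤ t → g t = q)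
    (t : ℝ) (ht : t ∉ Icc a b) : deriv g t = 0 := by
  rcases not_and_or.1 ht with k | k
  · rw [Filter.EventuallyEq.deriv_eq (f := fun _ => p), deriv_const]
    filter_upwards [Iio_mem_nhds (not_le.1 k)] with s hs using h1 s (le_of_lt hs)
  · rw [Filter.EventuallyEq.deriv_eq (f := fun _ => q), deriv_const]
    filter_upwards [Ioi_mem_nhds (not_le.1 k)] with s hs using h2 s (le_of_lt hs)

theorem bb_step {g : ℝ → ℝ} (hg : ContDiff ℝ ∞ g) {a b p q c : ℝ} (h1 : ∀ t, t ≤ a → g t = p)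
    (h2 : ∀ t, b ≤ t → g t = q) (hc : ∀ t, |g t| ≤ c) : Bb g :=
  ⟨hg, fun j => by
    cases j with
    | zero => exact ⟨c, hc⟩
    | succ j =>
      exact (bb_cpt (Fld.sm_der hg)
        (HasCompactSupport.intro isCompact_Icc (der_out h1 h2))).2 j⟩

theorem sm_sh {g : ℝ → ℝ} (hg : ContDiff ℝ ∞ g) (s : ℝ) : ContDiff ℝ ∞ fun t => g (t - s) :=
  hg.comp (contDiff_id.sub contDiff_const)

theorem der_sh (g : ℝ → ℝ) (s : ℝ) : deriv (fun t => g (t - s)) = fun t => deriv g (t - s) :=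
  funext fun _ => deriv_comp_sub_const ..

/-- Uniform bounds for translates of a function of the time. -/
theorem tm_bd (e : ℝ) (he : 1 ≤ e) (m : ℕ) : ∀ g, Bb g → ∃ C, 1 ≤ C ∧
    ∀ (A : Type) [CommRing A] [Algebra ℂ A] (Φ : Fld A), Φ.Is → ∀ s x,
      Φ.Bd x m (Φ.rad Φ.f) e → Φ.Bd x m (Φ.tm fun t => g (t - s)) C := by
  induction m with
  | zero =>
    intro g hg
    obtain ⟨c, hc⟩ := hg.2 0
    exact ⟨max 1 c, le_max_left _ _, fun A _ _ Φ h s x _ =>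
      .of0 (by rw [h.md_tm (sm_sh hg.1 s)]; exact le_max_of_le_right (hc _))⟩
  | succ m ih =>
    intro g hg
    obtain ⟨c, hc⟩ := hg.2 0
    obtain ⟨C, h1, hC⟩ := ih _ hg.der
    refine ⟨max 1 (max c (2 ^ m * (e * C))), le_max_left _ _, fun A _ _ Φ h s x hf => .of ?_ fun a =>
      (h.X_tm (sm_sh hg.1 s) (hf.mono m.le_succ) he ?_ a).le
        (le_max_of_le_right (le_max_right _ _))⟩
    · rw [h.md_tm (sm_sh hg.1 s)]; exact le_max_of_le_right (le_max_of_le_left (hc _))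
    · rw [der_sh]; exact hC A Φ h s x (hf.mono m.le_succ)

end Vale.Agent.P354XT
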