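import Vale.Agent.P354XT.Pair

/-!
The quadratic densities of a field with a cut off in time.
-/

open scoped ContDiff
open Set

namespace Vale.Agent.P354XT

open Vale.Agent.P354XI
open Vale.Agent.P354XI.Ibp

variable {Z : Fx} {m k : ℕ} {E H : El Z} {e c : Cx Z → ℝ → ℝ} {D F F' : (X : Cx Z) → X.A → X.A}

/-- Densities which commute with the cut off up to the factor 2 and the budget. -/
structure Cq (e : Cx Z → ℝ → ℝ) (F : (X : Cx Z) → X.A → X.A) : Prop where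
  pos : ∀ (X : Cx Z) x v, 0 ≤ X.Φ.B.val x (F X v)
  bd : ∃ C, 0 ≤ C ∧ ∀ (X : Cx Z) x, X.In x →
    X.Φ.B.val x (F X (X.Φ.tm (e X) * X.u)) ≤
      2 * (e X (X.Φ.pr x).1 ^ 2 * X.Φ.B.val x (F X X.u)) + C * X.bud x ∧
    e X (X.Φ.pr x).1 ^ 2 * X.Φ.B.val x (F X X.u) ≤
      2 * X.Φ.B.val x (F X (X.Φ.tm (e X) * X.u)) + C * X.bud x

theorem Cut.sq (c : Cut e) (h : Dop (Z.p.n + 1) D) : Cq e fun X v => X.Φ.sq (D X v) := by
  obtain ⟨C, p, k⟩ := (c.cm (m := 0) h (by omega)).le 2 zero_le_two fun _ _ p => p.s1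
  refine ⟨fun X x v => by rw [X.is.val_sq]; positivity, 2 * C ^ 2, by positivity, fun X x i => ?_⟩
  have a := (k X x i).md
  have b := md_add (B := X.Φ.B) x (D X (X.Φ.tm (e X) * X.u) - X.Φ.tm (e X) * D X X.u)
    (X.Φ.tm (e X) * D X X.u)
  have d := md_sub (B := X.Φ.B) x (D X (X.Φ.tm (e X) * X.u))
    (D X (X.Φ.tm (e X) * X.u) - X.Φ.tm (e X) * D X X.u)
  rw [sub_add_cancel] at b
  rw [sub_sub_cancel] at d
  have g : e X (X.Φ.pr x).1 ^ 2 * X.Φ.B.md x (D X X.u) ^ 2 =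
      X.Φ.B.md x (X.Φ.tm (e X) * D X X.u) ^ 2 := by rw [md_mul, X.is.md_tm (c.sm X), mul_pow, sq_abs]
  have b' := pow_le_pow_left₀ (md_nonneg _ _) b 2
  have d' := pow_le_pow_left₀ (md_nonneg _ _) d 2
  have a' := pow_le_pow_left₀ (md_nonneg _ _) a 2
  rw [mul_pow, pow_two (X.sb x), (X.pt i).sq] at a'
  simp only [X.is.val_sq, g] at a' ⊢
  generalize X.Φ.B.md x (D X (X.Φ.tm (e X) * X.u) - X.Φ.tm (e X) * D X X.u) = u at *
  generalize X.Φ.B.md x (X.Φ.tm (e X) * D X X.u) = v at *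
  generalize X.Φ.B.md x (D X (X.Φ.tm (e X) * X.u)) = w at *
  constructor <;> nlinarith [sq_nonneg (u - v), sq_nonneg (u - w)]

theorem Cq.add (h : Cq e F) (h' : Cq e F') : Cq e fun X v => F X v + F' X v :=
  let ⟨C, p, a⟩ := h.bd; let ⟨C', p', a'⟩ := h'.bd
  ⟨fun X x v => by rw [val_add]; exact add_nonneg (h.pos X x v) (h'.pos X x v), C + C',
    add_nonneg p p', fun X x i => by
      simp only [val_add]
      constructor <;> linarith [(a X x i).1, (a X x i).2, (a' X x i).1, (a' X x i).2]⟩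
theorem Cq.sum {ι : Type} (s : Finset ι) {F : ι → (X : Cx Z) → X.A → X.A} (h : ∀ i ∈ s, Cq e (F i)) :
    Cq e fun X v => ∑ i ∈ s, F i X v := by
  classical
  induction s using Finset.induction_on with
  | empty => exact ⟨fun X x v => by simp [val_zero], 0, le_rfl, fun X x i => by simp [val_zero]⟩
  | insert i s hi ih =>
    simp only [Finset.sum_insert hi]
    exact (h i (Finset.mem_insert_self _ _)).add (ih fun j k => h j (Finset.mem_insert_of_mem k))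
theorem Cq.rl (h : Cq e F) {t : ℝ} (ht : 0 ≤ t) : Cq e fun X v => rl X.A t * F X v :=
  let ⟨C, p, a⟩ := h.bd
  ⟨fun X x v => by
    rw [X.is.B.val_mul (X.is.B.re_rl t), X.is.B.val_rl]; exact mul_nonneg ht (h.pos X x v), t * C,
    mul_nonneg ht p, fun X x i => by
      simp only [X.is.B.val_mul (X.is.B.re_rl t), X.is.B.val_rl]
      constructor <;> linarith [mul_le_mul_of_nonneg_left (a X x i).1 ht,
        mul_le_mul_of_nonneg_left (a X x i).2 ht]⟩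
theorem Cut.jq (c : Cut e) (h : Dop k D) (hm : m + k ≤ Z.p.n + 1) :
    Cq e fun X v => X.Φ.jq m (D X v) :=
  .sum (words m) fun J j => c.sq ((h.wd J).mono (by have := mem_words.1 j; omega))
theorem Cut.gd (c : Cut e) (σ : Bool) :
    Cq e fun X v => X.Φ.gd σ Z.p.n X.M X.a Z.p.γ Z.p.R1 v := by
  have r : 0 ≤ Z.p.R1 := by linarith [Z.ok.h7, Z.ok.h8]
  have := Z.ok.n4
  cases σ
  · refine (Cq.sum _ fun J j => c.sq (((dop_op _ l3_sm).wd J).mono ?_)).rl (Real.rpow_nonneg r _)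
    simp only [Finset.mem_filter, mem_words] at j
    rw [l3_ord]; omega
  · exact ((c.jq (dop_wd [1]) le_rfl).rl (Real.rpow_nonneg r _)).add
      ((c.jq dop_id le_rfl).rl (Real.rpow_nonneg r _))

/-- Radial weights. -/
def Wr (c : Cx Z → ℝ → ℝ) : Prop := ∀ X, Wl (c X) Z.y0 (5 * Z.p.R1 / 2)

theorem Wr.wk (w : Wr c) : Wk fun X => X.zc (c X) := wk_zc (fun X => (w X).sm) fun X => (w X).out
theorem Wr.wt (w : Wr c) (X : Cx Z) : X.Φ.B.Wt (X.Φ.tm X.ze * X.Φ.rad (c X)) :=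
  X.cz.wt X.is ⟨(w X).sm, X.lo, by linarith [Z.y0r, Z.ok.h1, Z.ok.h2, Z.ok.h3, Z.ok.h4, Z.ok.h5,
    Z.ok.h6, Z.ok.h7, Z.ok.h8], X.hi, (w X).out⟩ (w X).pos
theorem Wr.le (w : Wr c) (X : Cx Z) (t r : ℝ) {v : ℝ} (p : 0 ≤ v) : X.ze t * c X r * v ≤ v :=
  mul_le_of_le_one_left p (mul_le_one₀ (X.ze_le t) ((w X).pos r) ((w X).one r))

theorem cq_up (d : Cut e) (h : Cq e F) (w : Wr c) (hK : ∀ X, H X ∈ X.Φ.B.K)
    (hp : ∀ (X : Cx Z) x, 0 ≤ X.Φ.B.val x (H X))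
    (hg : ∀ (X : Cx Z) x, (X.Φ.pr x).1 ∈ Icc (X.t1 + 3 / 2) X.s → c X (X.Φ.pr x).2 ≠ 0 →
      e X (X.Φ.pr x).1 ^ 2 * X.Φ.B.val x (F X X.u) ≤ X.Φ.B.val x (H X)) :
    Oa fun X => X.Φ.B.J (X.Φ.tm X.ze * X.Φ.rad (c X) * F X (X.Φ.tm (e X) * X.u)) -
      2 * X.Φ.B.J (H X) := by
  obtain ⟨C, p, a⟩ := h.bd
  refine ⟨C, p, fun X => ?_⟩
  simp only [← J_two, ← J_sub]
  have v := fun x => X.is.val_w X.ze_sm (w X).sm x (F X (X.Φ.tm (e X) * X.u))
  refine X.J_le (sub_mem (Ideal.mul_mem_right _ _ (w.wt X).K) (Ideal.mul_mem_left _ _ (hK X))) p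
    (fun x i => ?_) fun x i => ?_ <;> rw [val_sub, v, X.is.B.val_mul re_two, val_two] <;>
    have b := hp X x
  · have := mul_nonneg p (X.pt i).bud
    by_cases j : c X (X.Φ.pr x).2 = 0
    · rw [j]; linarith
    · have := w.le X (X.Φ.pr x).1 (X.Φ.pr x).2 (h.pos X x (X.Φ.tm (e X) * X.u))
      have g := (a X x i).1
      by_cases t : (X.Φ.pr x).1 ∈ Icc (X.t1 + 3 / 2) X.s
      · linarith [hg X x t j]
      · rw [d.out X _ t] at g; linarith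
  · rw [(w X).out _ i]; linarith

theorem cq_lo (d : Cut e) (h : Cq e F) (w : Wr c) :
    Oa fun X => X.Φ.B.J (X.Φ.tm (fun t => e X t ^ 2) * X.Φ.rad (c X) * F X X.u) -
      2 * X.Φ.B.J (X.Φ.tm X.ze * X.Φ.rad (c X) * F X (X.Φ.tm (e X) * X.u)) := by
  obtain ⟨C, p, a⟩ := h.bd
  refine ⟨C, p, fun X => ?_⟩
  simp only [← J_two, ← J_sub]
  have v := fun x => X.is.val_w X.ze_sm (w X).sm x (F X (X.Φ.tm (e X) * X.u))
  have v' := fun x => X.is.val_w ((d.sm X).pow 2) (w X).sm x (F X X.u)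
  refine X.J_le (sub_mem (Ideal.mul_mem_right _ _ (X.memK ((d.sm X).pow 2) (w X).sm (fun t j => by
    rw [d.out X t fun k => j ⟨by linarith [k.1], by linarith [k.2]⟩]; simp) X.lo X.hi (w X).out))
    (Ideal.mul_mem_left _ _ (Ideal.mul_mem_right _ _ (w.wt X).K))) p
    (fun x i => ?_) fun x i => ?_ <;> rw [val_sub, v', X.is.B.val_mul re_two, val_two, v]
  · have b := mul_nonneg p (X.pt i).bud
    by_cases t : (X.Φ.pr x).1 ∈ Icc (X.t1 + 3 / 2) X.s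
    · rw [X.ze_one _ t]
      linarith [mul_le_mul_of_nonneg_left (a X x i).2 ((w X).pos (X.Φ.pr x).2),
        mul_le_mul_of_nonneg_right ((w X).one (X.Φ.pr x).2) b]
    · rw [d.out X _ t]
      linarith [mul_nonneg (mul_nonneg (X.ze_pos (X.Φ.pr x).1) ((w X).pos (X.Φ.pr x).2))
        (h.pos X x (X.Φ.tm (e X) * X.u))]
  · rw [(w X).out _ i]; linarith

theorem ob_jq (h : Ob m E Cx.sb) (w : Wr c) :
    Oa fun X => X.Φ.B.J (X.Φ.tm X.ze * X.Φ.rad (c X) * X.Φ.jq m (E X)) := by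
  obtain ⟨C, p, a⟩ := h
  have := nw_pos m
  refine ⟨nw m * C ^ 2, by positivity, fun X => X.J_le (Ideal.mul_mem_right _ _ (w.wt X).K)
    (by positivity) (fun x i => ?_) fun x i => ?_⟩ <;> rw [X.is.val_w X.ze_sm (w X).sm]
  · refine (w.le X _ _ X.is.jq_nonneg).trans (((a X x i).jq X.is).trans (le_of_eq ?_))
    rw [mul_pow, sq (X.sb x), (X.pt i).sq, mul_assoc]
  · rw [(w X).out _ i]; linarith

theorem Cut.src (d : Cut e) : Ob (Z.p.n - 1)
    (fun X => X.Φ.P X.Φ.s X.Φ.s X.M X.a (X.Φ.tm (e X) * X.u)) Cx.sb := by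
  have := Z.ok.n4
  have s : ∀ (X : Cx Z) x, X.Pt x → 0 ≤ X.sb x := fun _ _ _ => Real.sqrt_nonneg _
  have a := (((d.cm (m := Z.p.n - 1) dop_P (by omega)).le 2 zero_le_two fun _ _ p => p.s1).add
    (((d.ob _).mul (ob_src.mono (Nat.sub_le _ _))).le 1 zero_le_one fun _ _ p => p.s2)).sub
    (Ob.sum Finset.univ (fun b _ => Ob.sum Finset.univ (fun c _ =>
      (((d.ob _).mul ((ob_del b c).mono (Nat.sub_le _ _))).mul (ob_wd [b, c] (by simp; omega))).le 1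
        zero_le_one fun _ _ p => p.s3) s) s)
  rw [show (fun X : Cx Z => X.Φ.P X.Φ.s X.Φ.s X.M X.a (X.Φ.tm (e X) * X.u)) = _ from ?_]
  · exact a
  · funext X
    simp only [Cx.src, Fld.Q, mul_add, Finset.mul_sum, mul_assoc, Fld.wd_cons, Fld.wd_nil]
    ring

theorem Cut.cl (d : Cut e) (X : Cx Z) : X.Φ.Cl (X.t1 + 3 / 2) X.s (X.Φ.tm (e X) * X.u) :=
  ⟨X.is.spf _ ((d.sm X).comp contDiff_fst) _ X.sp, fun x i => by
    rw [map_mul, X.is.ev_tm (d.sm X), d.out X _ i]; simp⟩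

/-- Bumps. -/
noncomputable def bmp (a b c d r : ℝ) : ℝ := up a b r * dn c d r

theorem bmp_wl {a b c d : ℝ} (h1 : a < b) (h2 : c < d) : Wl (bmp a b c d) a d :=
  ⟨(up_sm _ _).mul (dn_sm _ _), fun _ => mul_nonneg (up_nonneg _ _ _) (dn_nonneg _ _ _),
    fun _ => mul_le_one₀ (up_le _ _ _) (dn_nonneg _ _ _) (dn_le _ _ _), fun r k => by
      rcases not_and_or.1 k with k | k
      · rw [bmp, up_zero h1 (not_le.1 k).le, zero_mul]
      · rw [bmp, dn_zero h2 (not_le.1 k).le, mul_zero]⟩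
theorem bmp_hi {ra rc a b c d : ℝ} (h0 : ra < a) (h1 : a < b) (h : b ≤ c) (h2 : c < d) (h3 : d < rc) :
    Hi ra rc (bmp a b c d) a d b c :=
  have w := bmp_wl h1 h2
  ⟨⟨w.sm, h0, by linarith, h3, w.out⟩, w.pos, h1.le, h, h2.le, fun r k => by
    rw [bmp, up_one h1 k.1, dn_one h2 k.2, one_mul]⟩
theorem Wl.mono {c : ℝ → ℝ} {x y x' y' : ℝ} (w : Wl c x y) (h1 : x' ≤ x) (h2 : y ≤ y') : Wl c x' y' :=
  ⟨w.sm, w.pos, w.one, fun r k => w.out r fun j => k ⟨h1.trans j.1, j.2.trans h2⟩⟩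
theorem Wl.mem {c : ℝ → ℝ} {x y r : ℝ} (w : Wl c x y) (h : c r ≠ 0) : r ∈ Icc x y :=
  by_contra fun k => h (w.out r k)
theorem Wl.lo {c : ℝ → ℝ} {x y ra rc : ℝ} (w : Wl c x y) (h1 : ra < x) (h : x ≤ y) (h2 : y < rc) :
    Lo ra rc c x y := ⟨⟨w.sm, h1, h, h2, w.out⟩, w.pos, w.one⟩

end Vale.Agent.P354XT
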