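import Vale.Agent.P354XT.Phy
import Vale.Agent.P354XT.CoreD

/-!
Uniform pointwise bounds over all configurations of the estimate for one field.
-/

open scoped ContDiff
open Set
open Complex (I)

namespace Vale.Agent.P354XT

open Vale.Agent.P354XG (Der D_mul D_add D_sub D_neg D_alg)
open Vale.Agent.P354XI
open Vale.Agent.P354XI.Ibp

/-- The fixed data. -/
structure Fx where
  p : Mp
  M0 : ℝ
  a0 : ℝ
  y0 : ℝ
  q1 : ℝ
  q4 : ℝ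
  g : ℝ → ℝ
  θ : ℝ → ℝ
  c : ℝ
  ok : p.Ok
  rp : Ramp g θ c
  y0r : y0 < p.r0
  hq1 : p.q1 < q1
  hq4 : q4 < p.q4
  hq : q1 ≤ q4

/-- The configurations. -/
structure Cx (Z : Fx) : Type 1 where
  A : Type
  [cr : CommRing A]
  [al : Algebra ℂ A]
  Φ : Fld A
  M : ℝ
  a : ℝ
  t1 : ℝ
  s : ℝ
  ra : ℝ
  rc : ℝ
  ε : ℝ
  u : A
  del : Fin 5 → Fin 5 → A
  H : Hs A
  c1 : ℝ → ℝ
  c2 : ℝ → ℝ
  c3 : ℝ → ℝ
  is : Φ.Is
  hM : |M - Z.M0| ≤ 1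
  ha : |a - Z.a0| ≤ 1
  hs : Φ.s = sp Z.p.σ
  hf : Φ.f = fun r => Z.p.f (M, a, r)
  ts : t1 + 3 ≤ s
  lo : ra < Z.y0
  hi : 5 * Z.p.R1 / 2 < rc
  box : Icc (t1 + 1) (s + 1) ×ˢ Icc ra rc ⊆ Φ.Om
  eps : 0 < ε
  sp : u ∈ Φ.Sp
  dre : ∀ b c, Φ.B.Re (del b c)
  ok : H.Ok Φ Z.p.σ Z.p.n Z.g M a Z.p.γ Z.y0 Z.q1 Z.q4 Z.p.R1 t1 s u del
  w1 : Wl c1 Z.p.r1 (3 * Z.p.R0)
  w2 : Wl c2 Z.p.r1 Z.p.q2
  w3 : Wl c3 Z.p.q3 (3 * Z.p.R0)
  par : Φ.Par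
  be : ∀ (S : Type) [NormedAddCommGroup S] [InnerProductSpace ℂ S] (G : P354BF.Ang S), G.Is →
    G.s = P354XT.sp Z.p.σ → Z.p.BE G M a

variable {Z : Fx}

instance (X : Cx Z) : CommRing X.A := X.cr
instance (X : Cx Z) : Algebra ℂ X.A := X.al

/-- Families of fields and of functions. -/
abbrev El (Z : Fx) : Type 1 := (X : Cx Z) → X.A
abbrev Fn (Z : Fx) : Type 1 := (X : Cx Z) → X.Φ.B.Pt → ℝ

namespace Cx
variable (X : Cx Z)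

/-- The radial range. -/
def In (x : X.Φ.B.Pt) : Prop := (X.Φ.pr x).2 ∈ Icc Z.y0 (5 * Z.p.R1 / 2)

theorem at' {x : X.Φ.B.Pt} (h : X.In x) : At X.Φ Z.M0 Z.a0 Z.y0 (5 * Z.p.R1 / 2) X.M X.a x :=
  ⟨X.is, X.hM, X.ha, h⟩

/-- Indicators of the support, the initial ramp and the final ramp; norms of the jets. -/
noncomputable def ia (x : X.Φ.B.Pt) : ℝ := (Icc (X.t1 + 3 / 2) X.s).indicator 1 (X.Φ.pr x).1
noncomputable def i0 (x : X.Φ.B.Pt) : ℝ := (Icc (X.t1 + 3 / 2) (X.t1 + 2)).indicator 1 (X.Φ.pr x).1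
noncomputable def i1 (x : X.Φ.B.Pt) : ℝ := (Icc (X.s - 1) X.s).indicator 1 (X.Φ.pr x).1
noncomputable def na (x : X.Φ.B.Pt) : ℝ := X.Φ.nq x (Z.p.n + 1) X.u
noncomputable def nb (x : X.Φ.B.Pt) : ℝ := X.Φ.nq x Z.p.n X.u
noncomputable def nc (x : X.Φ.B.Pt) : ℝ := X.Φ.nq x (Z.p.n - 1) X.u

/-- The source. -/
noncomputable def src : X.A := X.Φ.P X.Φ.s X.Φ.s X.M X.a X.u + X.Φ.Q X.del X.u

theorem ex_he (x : X.Φ.B.Pt) : ∃ he : ℝ × ℝ, (∀ b c, X.Φ.Bd x Z.p.n (X.del b c) he.1) ∧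
    X.Φ.Bd x Z.p.n X.src he.2 ∧ (X.In x → X.ia x * he.1 ≤ 1 ∧
      X.ia x * (he.1 * X.na x ^ 2 + he.2 * X.na x + he.2 ^ 2) ≤ X.Φ.B.val x X.H.P) := by
  by_cases k : (X.Φ.pr x).1 ∈ Icc (X.t1 + 3 / 2) X.s ∧ X.In x
  · obtain ⟨h, e, a, b, c, d⟩ := X.ok.P x k
    refine ⟨(h, e), b, c, fun _ => ?_⟩
    rw [ia, indicator_of_mem k.1, Pi.one_apply, one_mul, one_mul]
    exact ⟨a, d⟩
  · refine ⟨(∑ b, ∑ c, X.Φ.nq x Z.p.n (X.del b c), X.Φ.nq x Z.p.n X.src), fun b c =>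
      (X.is.bd_nq x _ _).le ?_, X.is.bd_nq x _ _, fun i => ?_⟩
    · exact (Finset.single_le_sum (f := fun c => X.Φ.nq x Z.p.n (X.del b c))
        (fun _ _ => Fld.nq_nonneg) (Finset.mem_univ c)).trans (Finset.single_le_sum
          (f := fun b => ∑ c, X.Φ.nq x Z.p.n (X.del b c))
          (fun _ _ => Finset.sum_nonneg fun _ _ => Fld.nq_nonneg) (Finset.mem_univ b))
    · rw [ia, indicator_of_notMem fun c => k ⟨c, i⟩, zero_mul, zero_mul]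
      exact ⟨zero_le_one, X.ok.Ppos x⟩

/-- The sizes of the perturbation and of the source. -/
noncomputable def h (x : X.Φ.B.Pt) : ℝ := (X.ex_he x).choose.1
noncomputable def e (x : X.Φ.B.Pt) : ℝ := (X.ex_he x).choose.2

theorem he (x : X.Φ.B.Pt) : (∀ b c, X.Φ.Bd x Z.p.n (X.del b c) (X.h x)) ∧
    X.Φ.Bd x Z.p.n X.src (X.e x) ∧ (X.In x → X.ia x * X.h x ≤ 1 ∧
      X.ia x * (X.h x * X.na x ^ 2 + X.e x * X.na x + X.e x ^ 2) ≤ X.Φ.B.val x X.H.P) :=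
  (X.ex_he x).choose_spec

/-- The budget at a point and the total budget. -/
noncomputable def ir (x : X.Φ.B.Pt) : ℝ := X.i0 x + X.i1 x
noncomputable def bud (x : X.Φ.B.Pt) : ℝ := X.i0 x * X.na x ^ 2 + X.i1 x * (X.na x * X.nb x) +
  X.ia x * (X.h x * X.na x ^ 2 + X.e x * X.na x + X.e x ^ 2) + X.ia x * X.nc x ^ 2
noncomputable def tot : ℝ := X.Φ.B.J X.H.I + X.ε * X.Φ.B.J X.H.F + X.ε⁻¹ * X.Φ.B.J X.H.O +
  X.Φ.B.J X.H.P + X.Φ.B.J X.H.L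

theorem ind01 (U : Set ℝ) (t : ℝ) : U.indicator (1 : ℝ → ℝ) t = 0 ∨ U.indicator (1 : ℝ → ℝ) t = 1 := by
  by_cases k : t ∈ U
  exacts [.inr (indicator_of_mem k _), .inl (indicator_of_notMem k _)]

/-- The facts at a point. -/
structure Pt (x : X.Φ.B.Pt) : Prop where
  a0 : 0 ≤ X.na x
  b0 : 0 ≤ X.nb x
  c0 : 0 ≤ X.nc x
  ba : X.nb x ≤ X.na x
  h0 : 0 ≤ X.h x
  e0 : 0 ≤ X.e x
  ia0 : 0 ≤ X.ia x
  ia1 : X.ia x ≤ 1
  i00 : 0 ≤ X.i0 x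
  i01 : X.i0 x ≤ X.ia x
  i10 : 0 ≤ X.i1 x
  i11 : X.i1 x ≤ X.ia x
  ir0 : 0 ≤ X.ir x
  ir2 : X.ir x ≤ 2 * X.ia x
  i0r : X.i0 x ≤ X.ir x
  i1r : X.i1 x ≤ X.ir x
  ih : X.ia x * X.h x ≤ 1
  f1 : X.i0 x * (X.na x * X.na x) ≤ X.bud x
  f2 : X.ir x * (X.na x * X.nb x) ≤ X.bud x
  f3 : X.ia x * (X.h x * (X.na x * X.na x)) ≤ X.bud x
  f4 : X.ia x * (X.e x * X.na x) ≤ X.bud x
  f5 : X.ia x * (X.e x * X.e x) ≤ X.bud x
  f6 : X.ia x * (X.nc x * X.nc x) ≤ X.bud x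
  bud : 0 ≤ X.bud x

theorem pt {x : X.Φ.B.Pt} (k : X.In x) : X.Pt x := by
  have s := X.he x
  have a0 : 0 ≤ X.na x := Fld.nq_nonneg
  have b0 : 0 ≤ X.nb x := Fld.nq_nonneg
  have ba : X.nb x ≤ X.na x := X.is.nq_mono (Nat.le_succ _)
  have h0 := (s.1 0 0).nonneg
  have e0 := s.2.1.nonneg
  have t := X.ts
  have ia0 : 0 ≤ X.ia x := indicator_nonneg (fun _ _ => zero_le_one) _
  have i00 : 0 ≤ X.i0 x := indicator_nonneg (fun _ _ => zero_le_one) _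
  have i10 : 0 ≤ X.i1 x := indicator_nonneg (fun _ _ => zero_le_one) _
  have i01 : X.i0 x ≤ X.ia x := indicator_le_indicator_of_subset
    (Icc_subset_Icc_right (by linarith)) (fun _ => zero_le_one) _
  have i11 : X.i1 x ≤ X.ia x := indicator_le_indicator_of_subset
    (Icc_subset_Icc_left (by linarith)) (fun _ => zero_le_one) _
  have g1 := mul_nonneg i00 (sq_nonneg (X.na x))
  have g2 := mul_nonneg i10 (mul_nonneg a0 b0)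
  have g3 := mul_nonneg ia0 (mul_nonneg h0 (sq_nonneg (X.na x)))
  have g4 := mul_nonneg ia0 (mul_nonneg e0 a0)
  have g5 := mul_nonneg ia0 (sq_nonneg (X.e x))
  have g6 := mul_nonneg ia0 (sq_nonneg (X.nc x))
  have g7 := mul_nonneg i00 (mul_nonneg a0 (sub_nonneg.2 ba))
  refine ⟨a0, b0, Fld.nq_nonneg, ba, h0, e0, ia0, (ind01 _ _).elim (fun e => e.trans_le zero_le_one)
    Eq.le, i00, i01, i10, i11, add_nonneg i00 i10, ?_, ?_, ?_, (s.2.2 k).1, ?_, ?_, ?_, ?_, ?_, ?_,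
    ?_⟩ <;> simp only [ir, bud] <;> linarith

theorem J_nonneg {H : X.A} (k : H ∈ X.Φ.B.K) (p : ∀ x, 0 ≤ X.Φ.B.val x H) : 0 ≤ X.Φ.B.J H :=
  X.is.B.mono H k p

theorem tot_nonneg : 0 ≤ X.tot := by
  have := X.J_nonneg X.ok.I.K X.ok.I.pos
  have := X.J_nonneg X.ok.F.K X.ok.F.pos
  have := X.J_nonneg X.ok.O.K X.ok.O.pos
  have := X.J_nonneg X.ok.L.K X.ok.L.pos
  have := X.J_nonneg X.ok.PK X.ok.Ppos
  have := X.eps
  rw [tot]; positivity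

theorem mj {H : X.A} {a b : ℝ} {q : X.Φ.B.Pt → ℝ}
    (m : Mj X.Φ H (Icc a b ×ˢ Icc Z.y0 (5 * Z.p.R1 / 2)) q) {x : X.Φ.B.Pt} (k : X.In x) :
    (Icc a b).indicator 1 (X.Φ.pr x).1 * q x ≤ X.Φ.B.val x H := by
  by_cases c : (X.Φ.pr x).1 ∈ Icc a b
  · rw [indicator_of_mem c, Pi.one_apply, one_mul]; exact m.ge x ⟨c, k⟩
  · rw [indicator_of_notMem c, zero_mul]; exact m.pos x

/-- Integration of the budget. -/
theorem J_le {F : X.A} (k : F ∈ X.Φ.B.K) {C : ℝ} (hC : 0 ≤ C)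
    (h1 : ∀ x, X.In x → X.Φ.B.val x F ≤ C * X.bud x) (h2 : ∀ x, ¬X.In x → X.Φ.B.val x F ≤ 0) :
    X.Φ.B.J F ≤ C * X.tot := by
  have o := X.ok
  have B := X.is.B
  have ep := X.eps
  rw [tot, ← J_rl, ← J_rl, ← J_add, ← J_add, ← J_add, ← J_add, ← J_rl]
  refine B.J_le k (Ideal.mul_mem_left _ _ (add_mem (add_mem (add_mem (add_mem o.I.K
    (Ideal.mul_mem_left _ _ o.F.K)) (Ideal.mul_mem_left _ _ o.O.K)) o.PK) o.L.K)) fun x => ?_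
  simp only [B.val_mul (B.re_rl _), B.val_rl, val_add]
  by_cases i : X.In x
  · refine (h1 x i).trans (mul_le_mul_of_nonneg_left ?_ hC)
    have a1 : X.i0 x * _ ≤ _ := X.mj o.I i
    have a2 : X.i1 x * _ ≤ _ := X.mj o.F i
    have a3 : X.i1 x * _ ≤ _ := X.mj o.O i
    have a4 : X.ia x * _ ≤ _ := X.mj o.L i
    rw [← X.is.nq_sq] at a1 a2 a3 a4
    have a5 := ((X.he x).2.2 i).2
    have y : X.na x * X.nb x ≤ X.ε * X.na x ^ 2 + X.ε⁻¹ * X.nb x ^ 2 := by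
      have : X.ε * X.na x ^ 2 + X.ε⁻¹ * X.nb x ^ 2 - 2 * (X.na x * X.nb x) =
          X.ε⁻¹ * (X.ε * X.na x - X.nb x) ^ 2 := by field_simp; ring
      have := mul_nonneg (inv_pos.2 ep).le (sq_nonneg (X.ε * X.na x - X.nb x))
      linarith [mul_nonneg (X.pt i).a0 (X.pt i).b0]
    have := mul_le_mul_of_nonneg_left y (X.pt i).i10
    have := mul_le_mul_of_nonneg_left a2 ep.le
    have := mul_le_mul_of_nonneg_left a3 (inv_pos.2 ep).le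
    simp only [bud, na, nb, nc] at *
    linarith
  · have := o.I.pos x
    have := o.F.pos x
    have := o.O.pos x
    have := o.L.pos x
    have := o.Ppos x
    exact (h2 x i).trans (by positivity)

theorem bil_le {W : X.A} (k : W ∈ X.Φ.B.K) (F G : X.A) {C : ℝ} (hC : 0 ≤ C)
    (h1 : ∀ x, X.In x → X.Φ.B.md x W * (X.Φ.B.md x F * X.Φ.B.md x G) ≤ C * X.bud x)
    (h2 : ∀ x, ¬X.In x → X.Φ.B.md x W ≤ 0) : |X.Φ.B.bil W F G| ≤ C * X.tot := by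
  have m := X.Φ.B.K.mul_mem_right (F * X.Φ.B.c G) k
  have z : ∀ x, ¬X.In x → |X.Φ.B.val x (W * (F * X.Φ.B.c G))| ≤ 0 := fun x i =>
    (X.is.B.abs_val_bil x W F G).trans
      (mul_nonpos_of_nonpos_of_nonneg (h2 x i) (mul_nonneg (md_nonneg _ _) (md_nonneg _ _)))
  refine abs_le.2 ⟨?_, X.J_le m hC (fun x i => (le_abs_self _).trans
    ((X.is.B.abs_val_bil x W F G).trans (h1 x i))) fun x i => (le_abs_self _).trans (z x i)⟩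
  rw [neg_le, bil, ← J_neg]
  exact X.J_le (neg_mem m) hC (fun x i => by
    rw [val_neg]; exact (neg_le_abs _).trans ((X.is.B.abs_val_bil x W F G).trans (h1 x i)))
    fun x i => by rw [val_neg]; exact (neg_le_abs _).trans (z x i)

end Cx

end Vale.Agent.P354XT
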