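import Mathlib

/-!
A symmetric form on words which changes the sign when a letter is moved, up to errors, is an
error on pairs of words of lengths n + 1 and n.
-/

namespace Vale.Agent.P354XT

variable {ι : Type}

/-- The rules. -/
structure Ax (n : ℕ) (B : List ι → List ι → ℝ) (E : ℝ) : Prop where
  sym : ∀ α β, B α β = B β α
  mv : ∀ j α β, α.length = n → β.length = n → |B (j :: α) β + B α (j :: β)| ≤ E
  pm : ∀ p q x y β, p.length + q.length + 1 = n → β.length = n →
    |B (p ++ x :: y :: q) β - B (p ++ y :: x :: q) β| ≤ E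

/-- Equality up to the sign z and errors. -/
def Rl (n : ℕ) (z : ℝ) (α β α' β' : List ι) : Prop :=
  ∃ k : ℕ, ∀ B E, Ax n B E → 0 ≤ E → |B α β - z * B α' β'| ≤ k * E

variable {n : ℕ}

theorem Rl.refl (α β : List ι) : Rl n 1 α β α β := ⟨0, fun _ _ _ _ => by simp⟩

theorem Rl.trans {z z' : ℝ} {α β α' β' α'' β'' : List ι} (h : Rl n z α β α' β')
    (h' : Rl n z' α' β' α'' β'') (hz : |z| = 1) : Rl n (z * z') α β α'' β'' := by
  obtain ⟨k, a⟩ := h
  obtain ⟨k', a'⟩ := h'
  refine ⟨k + k', fun B E e p => ?_⟩
  rw [show B α β - z * z' * B α'' β'' = (B α β - z * B α' β') + z * (B α' β' - z' * B α'' β'') by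
    ring]
  refine (abs_add_le _ _).trans ?_
  rw [abs_mul, hz, one_mul, Nat.cast_add, add_mul]
  exact add_le_add (a B E e p) (a' B E e p)

theorem Rl.tr {α β α' β' α'' β'' : List ι} (h : Rl n 1 α β α' β') (h' : Rl n 1 α' β' α'' β'') :
    Rl n 1 α β α'' β'' := by simpa using h.trans h' abs_one

theorem Rl.perm {α α' β : List ι} (h : α.Perm α') (hb : β.length = n) :
    ∀ p : List ι, p.length + α.length = n + 1 → Rl n 1 (p ++ α) β (p ++ α') β := by
  induction h with
  | nil => exact fun p _ => .refl _ _
  | cons x _ ih =>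
    intro p hp
    have := ih (p ++ [x]) (by simp at hp ⊢; omega)
    simpa using this
  | swap x y l =>
    exact fun p hp => ⟨1, fun B E e _ => by
      simpa using e.pm p l y x β (by simp at hp; omega) hb⟩
  | trans h1 _ ih1 ih2 => exact fun p hp => (ih1 p hp).tr (ih2 p (by rw [← h1.length_eq]; exact hp))

theorem Rl.pl {α α' β : List ι} (h : α.Perm α') (ha : α.length = n + 1) (hb : β.length = n) :
    Rl n 1 α β α' β := by simpa using Rl.perm h hb [] (by simpa using ha)

theorem Rl.flip (j : ι) {α β : List ι} (ha : α.length = n) (hb : β.length = n) :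
    Rl n (-1) (j :: α) β (j :: β) α :=
  ⟨1, fun B E e _ => by rw [e.sym (j :: β)]; simpa using e.mv j α β ha hb⟩

theorem Rl.pr (j : ι) {α β β' : List ι} (h : β.Perm β') (ha : α.length = n) (hb : β.length = n) :
    Rl n 1 (j :: α) β (j :: α) β' := by
  have := ((Rl.flip j ha hb).trans (Rl.pl (h.cons j) (by simp [hb]) ha) (by simp)).trans
    (Rl.flip j (h.length_eq ▸ hb) ha) (by simp)
  simpa using this

theorem Rl.exch (j x y : ι) {α β : List ι} (ha : α.length + 1 = n) (hb : β.length + 1 = n) :
    Rl n 1 (j :: x :: α) (y :: β) (j :: y :: α) (x :: β) := by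
  have a := Rl.pl (n := n) (β := y :: β) (List.Perm.swap x j α) (by simp [← ha]) (by simp [← hb])
  have b := Rl.flip (n := n) x (α := j :: α) (β := y :: β) (by simp [← ha]) (by simp [← hb])
  have c := Rl.pl (n := n) (β := j :: α) (List.Perm.swap y x β) (by simp [← hb]) (by simp [← ha])
  have d := Rl.flip (n := n) y (α := x :: β) (β := j :: α) (by simp [← hb]) (by simp [← ha])
  have e := Rl.pl (n := n) (β := x :: β) (List.Perm.swap j y α) (by simp [← ha]) (by simp [← hb])
  have := ((((a.trans b (by simp)).trans c (by simp)).trans d (by simp)).trans e (by simp))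
  simpa using this

theorem Rl.all (j : ι) : ∀ (α β p q : List ι), α.length = β.length → α.length + p.length = n →
    β.length + q.length = n → Rl n 1 (j :: (α ++ p)) (β ++ q) (j :: (β ++ p)) (α ++ q)
  | [], [], _, _, _, _, _ => .refl _ _
  | [], _ :: _, _, _, h, _, _ => by simp at h
  | _ :: _, [], _, _, h, _, _ => by simp at h
  | x :: α, y :: β, p, q, h, ha, hb => by
    simp only [List.length_cons] at h ha hb
    have a := Rl.exch (n := n) j x y (α := α ++ p) (β := β ++ q) (by simp; omega) (by simp; omega)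
    have b := Rl.pl (n := n) (β := x :: (β ++ q))
      ((List.perm_middle (a := y) (l₁ := α) (l₂ := p)).symm.cons j) (by simp; omega)
      (by simp; omega)
    have c := Rl.pr (n := n) j (α := α ++ y :: p)
      (List.perm_middle (a := x) (l₁ := β) (l₂ := q)).symm (by simp; omega) (by simp; omega)
    have d := Rl.all j α β (y :: p) (x :: q) (by omega) (by simp; omega) (by simp; omega)
    have e := Rl.pl (n := n) (β := α ++ x :: q)
      ((List.perm_middle (a := y) (l₁ := β) (l₂ := p)).cons j) (by simp; omega) (by simp; omega)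
    have f := Rl.pr (n := n) j (α := y :: (β ++ p))
      (List.perm_middle (a := x) (l₁ := α) (l₂ := q)) (by simp; omega) (by simp; omega)
    exact ((((a.tr b).tr c).tr d).tr e).tr f

/-- The lemma of odd order. -/
theorem odd_le {α β : List ι} (ha : α.length = n + 1) (hb : β.length = n) :
    ∃ k : ℕ, ∀ B E, Ax n B E → 0 ≤ E → |B α β| ≤ k * E := by
  obtain ⟨j, α, rfl⟩ := List.exists_cons_of_length_eq_add_one ha
  simp only [List.length_cons, add_left_inj] at ha
  have a := Rl.all (n := n) j α β [] [] (by omega) (by simpa) (by simpa)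
  simp only [List.append_nil] at a
  obtain ⟨k, e⟩ := a.trans (Rl.flip j hb ha) abs_one
  refine ⟨k, fun B E h p => ?_⟩
  have := e B E h p
  rw [show B (j :: α) β - 1 * -1 * B (j :: α) β = 2 * B (j :: α) β by ring, abs_mul, abs_two] at this
  linarith [abs_nonneg (B (j :: α) β)]

end Vale.Agent.P354XT
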