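import Vale.Agent.P354XT.Bas
import Vale.Agent.P354XT.Odd

/-!
The pairing with the multiplier: the perturbation, the source and the ramps.
-/

open scoped ContDiff
open Set

namespace Vale.Agent.P354XT

open Vale.Agent.P354XG (Der D_mul D_add D_sub D_neg D_alg D_one)
open Vale.Agent.P354XI
open Vale.Agent.P354XI.Ibp

variable {Z : Fx} {m k : ℕ} {E F G W : El Z} {q q' q'' : Fn Z}

/-- Weights of the size of the perturbation. -/
structure Adm (W : El Z) : Prop where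
  wk : Wk W
  ob : Ob 1 W fun X x => X.ia x * X.h x

theorem Adm.mul (h : Adm W) (r : ∀ X : Cx Z, X.Φ.B.Re (E X)) (e : Ob 1 E fun _ _ => 1) :
    Adm fun X => W X * E X := ⟨h.wk.mul r, by simpa only [mul_comm (W _)] using e.mul1 h.ob⟩

theorem pert0 (h : Wk W) (o : Ob 0 W fun X x => X.ia x * X.h x) (a : Ob 0 F Cx.na)
    (b : Ob 0 G Cx.na) : Ab fun X => X.Φ.B.bil (W X) (F X) (G X) :=
  ob_bil h o a b 1 zero_le_one fun _ _ p => by linarith [p.f3]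

theorem ob_wd (J : List (Fin 5)) (hJ : m + J.length ≤ Z.p.n + 1) :
    Ob m (fun X : Cx Z => X.Φ.wd J X.u) Cx.na := (dop_wd J).bd hJ ob_u1

theorem pertG (h : Adm W) (a : List (Fin 5)) (ha : a.length ≤ Z.p.n + 2) (b : Ob 1 G Cx.na) :
    Ab fun X => X.Φ.B.bil (W X) (X.Φ.wd a X.u) (G X) := by
  have o := h.ob.mono zero_le_one
  cases a with
  | nil => exact pert0 h.wk o (ob_wd [] (by simp)) (b.mono zero_le_one)
  | cons j a =>
    have c := ob_wd (Z := Z) (m := 0) a (by simp at ha; omega)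
    exact ((pert0 h.wk o c (b.ox.ob j)).neg.sub (pert0 (h.wk.X j) (h.ob.ox.ob j) c
      (b.mono zero_le_one))).cg fun X => (X.is.sk j).move (h.wk.K X) _ _

theorem pert2 (h : Adm W) {a b : List (Fin 5)} (ha : a.length = Z.p.n + 1 + 1)
    (hb : b.length = Z.p.n + 1) : Ab fun X => X.Φ.B.bil (W X) (X.Φ.wd a X.u) (X.Φ.wd b X.u) := by
  obtain ⟨k, hk⟩ := odd_le ha hb
  have w : ∀ J ∈ words (Z.p.n + 1), Ob 0 (fun X : Cx Z => X.Φ.wd J X.u) Cx.na := fun J j =>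
    ob_wd J (by simpa using mem_words.1 j)
  obtain ⟨C1, p1, e1⟩ := Oa.unif (Finset.univ ×ˢ words (Z.p.n + 1) ×ˢ words (Z.p.n + 1))
    (a := fun t X => |X.Φ.B.bil (X.Φ.X t.1 (W X)) (X.Φ.wd t.2.1 X.u) (X.Φ.wd t.2.2 X.u)|)
    fun t j => by
      simp only [Finset.mem_product] at j
      exact pert0 (h.wk.X t.1) (h.ob.ox.ob t.1) (w _ j.2.1) (w _ j.2.2)
  obtain ⟨C2, p2, e2⟩ := Oa.unif (words (Z.p.n + 1) ×ˢ words (Z.p.n + 1))
    (a := fun t X => |X.Φ.B.bil (W X) (X.Φ.wd t.1 X.u) (X.Φ.wd t.2 X.u)|) fun t j => by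
      simp only [Finset.mem_product] at j
      exact pert0 h.wk (h.ob.mono zero_le_one) (w _ j.1) (w _ j.2)
  refine ⟨k * (C1 + C2), by positivity, fun X => ?_⟩
  have t := X.tot_nonneg
  rw [mul_assoc]
  refine hk (fun α β => X.Φ.B.bil (W X) (X.Φ.wd α X.u) (X.Φ.wd β X.u)) _
    ⟨fun α β => X.is.B.bil_comm (h.wk.K X) (h.wk.re X) _ _, fun j α β hα hβ => ?_,
      fun p q x y β hp hβ => ?_⟩ (by positivity)
  · have := e1 (j, α, β) (by simp [mem_words, hα, hβ]) X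
    rw [Fld.wd_cons, Fld.wd_cons, (X.is.sk j).move (h.wk.K X), sub_add_eq_add_sub, neg_add_cancel,
      zero_sub, abs_neg]
    nlinarith [mul_nonneg p2 t]
  · obtain ⟨z, c, hz, e⟩ := X.is.swap p q x y
    have := e2 (p ++ c :: q, β) (by simp [mem_words, hβ]; omega) X
    rw [← bil_sub_l, e, bil_mul_l, mul_comm (W X), bil_rl_w, abs_mul]
    nlinarith [mul_nonneg p1 t, mul_le_mul_of_nonneg_right hz
      (abs_nonneg (X.Φ.B.bil (W X) (X.Φ.wd (p ++ c :: q) X.u) (X.Φ.wd β X.u)))]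

theorem pertw (h : Adm W) {a b : List (Fin 5)} (ha : a.length ≤ Z.p.n + 2)
    (hb : b.length ≤ Z.p.n + 1) : Ab fun X => X.Φ.B.bil (W X) (X.Φ.wd b X.u) (X.Φ.wd a X.u) := by
  refine Ab.cg ?_ fun X => X.is.B.bil_comm (h.wk.K X) (h.wk.re X) _ _
  rcases hb.eq_or_lt with e | e
  · rcases ha.eq_or_lt with e' | e'
    · exact pert2 h e' e
    · exact pert0 h.wk (h.ob.mono zero_le_one) (ob_wd a (by omega)) (ob_wd b (by omega))
  · exact pertG h a ha (ob_wd b (by omega))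

theorem ab_nf (α : Op) (s : α.Sm) (h : ∀ t ∈ α.nf, Ab fun X => X.Φ.B.bil
    (W X * X.Φ.rad fun r => t.1 (X.M, X.a, r)) (X.Φ.wd t.2 (F X)) (G X)) :
    Ab fun X => X.Φ.B.bil (W X) (α.ph X.Φ X.M X.a (F X)) (G X) :=
  (Ab.lsum α.nf h).cg fun X => by
    rw [α.ph_nf X.is _ _ _ s]
    induction α.nf with
    | nil => exact bil_zero_l _ _
    | cons t l ih => rw [List.map_cons, List.sum_cons, bil_add_l, ih, bil_mul_l]; rfl

theorem Adm.nf (h : Adm W) {α : Op} (s : α.Sm) {t : (ℝ × ℝ × ℝ → ℝ) × List (Fin 5)} (j : t ∈ α.nf) :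
    Adm fun X => W X * X.Φ.rad fun r => t.1 (X.M, X.a, r) :=
  h.mul (fun X => X.is.re_rad (sm3 (α.nf_ok s t j).1 _ _)) (ob_rad 1 (α.nf_ok s t j).1)

variable {α β : Op}

theorem pertB (h : Adm W) {a : List (Fin 5)} (ha : a.length ≤ Z.p.n + 2) (s : β.Sm)
    (o : β.ord ≤ Z.p.n + 1) : Ab fun X => X.Φ.B.bil (W X) (X.Φ.wd a X.u)
      (β.ph X.Φ X.M X.a (X.Φ.tm X.et * X.u)) := by
  have h' := h.mul (fun X => X.is.re_tm X.et_sm) (cut_et.one 1)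
  refine ((pertG h a ha (((dop_op β s).cm (m := 1) (by omega) (cut_et.ox _) ob_u1).le 2 zero_le_two
    fun _ _ p => mul_le_mul_of_nonneg_right (by linarith [p.ir2, p.ia1]) p.a0)).add
    (ab_nf β s fun t j => pertw (h'.nf s j) ha ((β.nf_ok s t j).2.trans o))).cg fun X => ?_
  rw [X.is.B.bil_comm (h'.wk.K X) (h'.wk.re X), ← bil_re_r (X.is.re_tm X.et_sm), ← bil_add_r,
    sub_add_cancel]

/-- An operator as an additive map. -/
def Op.hom {A : Type} [CommRing A] [Algebra ℂ A] (Φ : Fld A) (M a : ℝ) (e : Op) : A →+ A :=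
  AddMonoidHom.mk' (e.ph Φ M a) fun u v => e.ph_add Φ M a u v

theorem pertQ (h : Wk W) (o : Ob 1 W fun _ _ => 1) (sa : α.Sm) (oa : α.ord ≤ Z.p.n) (sb : β.Sm)
    (ob : β.ord ≤ Z.p.n + 1) : Ab fun X => X.Φ.B.bil (W X)
      (α.ph X.Φ X.M X.a (X.Φ.tm X.et * X.Φ.Q X.del X.u)) (β.ph X.Φ X.M X.a (X.Φ.tm X.et * X.u)) := by
  have n4 := Z.ok.n4
  refine (Ab.sum Finset.univ fun b _ => Ab.sum Finset.univ fun c _ => (?_ : Ab fun X => X.Φ.B.bil
    (W X) (α.ph X.Φ X.M X.a (X.Φ.tm X.et * X.del b c * X.Φ.wd [b, c] X.u))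
      (β.ph X.Φ X.M X.a (X.Φ.tm X.et * X.u)))).cg fun X => ?_
  · have d := (cut_et.ob (Z.p.n - 1 + 1)).mul ((ob_del (Z := Z) b c).mono (by omega))
    have h' : Adm fun X => W X * (X.Φ.tm X.et * X.del b c) :=
      ⟨h.mul fun X => (X.is.re_tm X.et_sm).mul (X.dre b c), o.mul1 (d.mono (by omega))⟩
    refine ((ob_bil h (o.mono zero_le_one) ((dop_op α sa).cm (m := 0) (by omega) d.ox
      (ob_wd [b, c] (by simp; omega))) (cut_et.bd (dop_op β sb) (by omega)) 1 zero_le_one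
      fun _ _ p => by linarith [p.f3]).add (ab_nf (F := fun X => X.Φ.wd [b, c] X.u) α sa
        fun t j => (pertB (h'.nf sa j) (a := t.2 ++ [b, c])
          (by have := (α.nf_ok sa t j).2; simp; omega) sb ob).cg
            fun X => by rw [Fld.wd_append])).cg fun X => ?_
    rw [← bil_mul_l, ← bil_add_l, sub_add_cancel]
  · change X.Φ.B.bil _ (α.hom X.Φ X.M X.a _) _ = _
    simp only [Fld.Q, Finset.mul_sum, map_sum, bil_sum_l, mul_assoc]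
    rfl

theorem ob_Z : Ob Z.p.n (fun X : Cx Z => X.Φ.P X.Φ.s X.Φ.s X.M X.a (X.Φ.tm X.et) -
    rl X.A (X.Φ.s ^ 2 - X.Φ.s) * X.Φ.tm X.et) Cx.ir := by
  have := dop_P.cm (m := Z.p.n) (by omega) (cut_et.ox (Z := Z) (Z.p.n + 1)) (ob_one _)
  simp only [mul_one, show ∀ X : Cx Z, X.Φ.P X.Φ.s X.Φ.s X.M X.a 1 = rl X.A (X.Φ.s ^ 2 - X.Φ.s) from
    fun X => by simp [Fld.P, Fld.Kh]] at this
  simpa only [mul_comm (Fld.tm _ _)] using this

theorem Cx.PU (X : Cx Z) : X.Φ.P X.Φ.s X.Φ.s X.M X.a (X.Φ.tm X.et * X.u) = X.Φ.tm X.et * X.src -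
    X.Φ.tm X.et * X.Φ.Q X.del X.u + X.E1 * X.Φ.Nn Z.p.f X.M X.a X.u +
    X.E2 * X.Φ.Nn Z.p.f X.M X.a X.u + (X.Φ.P X.Φ.s X.Φ.s X.M X.a (X.Φ.tm X.et) -
      rl X.A (X.Φ.s ^ 2 - X.Φ.s) * X.Φ.tm X.et) * X.u := by
  rw [X.is.P_tm X.hf _ _ X.et_sm, X.tm_der, Cx.src]; ring

/-- One term of the multiplier. -/
theorem pair1 (h : Wk W) (o : Ob 1 W fun _ _ => 1) (sa : α.Sm) (oa : α.ord ≤ Z.p.n) (sb : β.Sm)
    (ob : β.ord ≤ Z.p.n + 1) : Ab fun X => X.Φ.B.bil (W X)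
      (α.ph X.Φ X.M X.a (X.Φ.P X.Φ.s X.Φ.s X.M X.a (X.Φ.tm X.et * X.u)))
      (β.ph X.Φ X.M X.a (X.Φ.tm X.et * X.u)) + X.Φ.B.bil (W X)
      (α.ph X.Φ X.M X.a (X.Φ.Nn Z.p.f X.M X.a (X.Φ.tm X.th * X.u)))
      (β.ph X.Φ X.M X.a (X.Φ.tm X.th * X.u)) := by
  have n4 := Z.ok.n4
  have o0 := o.mono zero_le_one
  have da := dop_op (Z := Z) α sa
  have db := dop_op (Z := Z) β sb
  have dn := dop_N.op (Z := Z) α sa
  have bU := cut_et.bd (m := 0) db (by omega)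
  have bV := cut_th.bd (m := 0) db (by omega)
  have aN := dn.bd (m := 0) (by omega) ob_u1
  have t1 := ob_bil h o0 (da.bd (by omega) ((cut_et.ob _).mul ob_src)) bU 1 zero_le_one
    fun _ _ p => by linarith [p.f4]
  have t2 := pertQ h o sa oa sb ob
  have t3 := ob_bil h o0 (da.bd (by omega) ((ob_E1 Z.p.n).mul (dop_N.bd le_rfl ob_u1))) bU 1
    zero_le_one fun _ _ p => by linarith [p.f1]
  have t5 := ob_bil h o0 (da.bd (by omega) (ob_Z.mul ob_u0)) bU 1 zero_le_one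
    fun _ _ p => by linarith [p.f2]
  have s1 := ob_bil h o0 (da.cm (by omega) ((ob_E2 (Z.p.n - 1 + 1)).le (q' := Cx.ir) 1 zero_le_one
    fun _ _ p => by linarith [p.i1r]).ox (dop_N.bd (by omega) ob_u0)) bU 1 zero_le_one
    fun _ _ p => by linarith [p.f2]
  have s2 := ob_bil h o0 (((ob_tm bb_1 Cx.t1 0).mul1 (ob_tm (bb_g (Z := Z)).der Cx.s 0)).mul1 aN)
    (cut_et.cm db (by omega)) 1 zero_le_one fun _ _ p => by linarith [p.f2]
  have s3 := ob_bil h o0 (cut_th.cm dn (by omega)) bV 1 zero_le_one fun _ _ p => by linarith [p.f2]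
  have s4 := ob_bil h o0 ((cut_th.one 0).mul1 aN) (cut_th.cm db (by omega)) 1 zero_le_one
    fun _ _ p => by linarith [p.f2]
  refine (((((((t1.sub t2).add t3).add t5).add s1).add s2).add s3).add s4).cg fun X => ?_
  have z := congrArg (fun w => X.Φ.B.bil (W X * w) (α.ph X.Φ X.M X.a (X.Φ.Nn Z.p.f X.M X.a X.u))
    (β.ph X.Φ X.M X.a X.u)) X.ramp_eq
  have e := congrArg (α.hom X.Φ X.M X.a) X.PU
  simp only [mul_add, mul_zero, bil_add_w, bil_zero_w, ← mul_assoc] at z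
  rw [← bil_re_r (X.is.re_tm X.et_sm), ← bil_re_r (X.is.re_tm X.th_sm), ← bil_mul_l, ← bil_mul_l] at z
  simp only [map_add, map_sub] at e
  simp only [Op.hom, AddMonoidHom.mk'_apply] at e
  simp only [e, bil_add_l, bil_sub_l, bil_sub_r, Cx.E2] at z ⊢
  linarith

theorem pairs : Ab fun X : Cx Z => X.Φ.PP (X.Φ.tm X.ze) Z.p.l X.M X.a
      (X.Φ.P X.Φ.s X.Φ.s X.M X.a (X.Φ.tm X.et * X.u)) (X.Φ.tm X.et * X.u) +
    X.Φ.PP (X.Φ.tm X.ze) Z.p.l X.M X.a (X.Φ.Nn Z.p.f X.M X.a (X.Φ.tm X.th * X.u))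
      (X.Φ.tm X.th * X.u) :=
  (Ab.lsum Z.p.l fun τ j => have t := Z.ok.l τ j
    pair1 (wk_zc (fun X => sm3 t.sw X.M X.a) fun X r k => t.out _ _ r fun i =>
      k ⟨Z.y0r.le.trans i.1, by linarith [i.2, Z.ok.h7, Z.ok.h8]⟩) (ob_zc 1 t.sw)
      t.sa t.oa t.sb t.ob).cg fun X => by rw [Fld.PP, Fld.PP, ← List.sum_map_add]; rfl

end Vale.Agent.P354XT
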