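import Vale.Agent.P354XT.Hat

/-!
The Parseval identity for the functionals of the estimates at one frequency.
-/

open scoped ContDiff InnerProductSpace
open Set Filter Topology
open Complex (I)

namespace Vale.Agent.P354XT

open Vale.Agent.P354XG (Der D_mul D_add D_sub D_neg D_alg)
open Vale.Agent.P354XI
open Vale.Agent.P354XI.Ibp
open Vale.Agent.P354BF

variable {A : Type} [CommRing A] [Algebra ℂ A] {Φ : Fld A} {ta tb ra rb : ℝ} {F F' U W : A}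

/-- A cut off in time which is 1 on [ta, tb]. -/
structure Cz (Φ : Fld A) (ζ : ℝ → ℝ) (ta tb ra rb : ℝ) : Prop where
  sm : ContDiff ℝ ∞ ζ
  pos : ∀ t, 0 ≤ ζ t
  one : ∀ t ∈ Icc ta tb, ζ t = 1
  box : Icc ta tb ×ˢ Icc ra rb ⊆ Φ.Om
  K : ∀ c x y, ContDiff ℝ ∞ c → ra < x → y < rb → (∀ r, r ∉ Icc x y → c r = 0) →
    Φ.tm ζ * Φ.rad c ∈ Φ.B.K

/-- Radial weights inside (ra, rb). -/
structure Cw (ra rb : ℝ) (c : ℝ → ℝ) (x y : ℝ) : Prop where
  sm : ContDiff ℝ ∞ c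
  lo : ra < x
  le : x ≤ y
  hi : y < rb
  out : ∀ r, r ∉ Icc x y → c r = 0

theorem Cz.wt (h : Φ.Is) {ζ c : ℝ → ℝ} {x y : ℝ} (Z : Cz Φ ζ ta tb ra rb) (C : Cw ra rb c x y)
    (p : ∀ r, 0 ≤ c r) : Φ.B.Wt (Φ.tm ζ * Φ.rad c) :=
  ⟨Z.K c x y C.sm C.lo C.hi C.out, (h.re_tm Z.sm).mul (h.re_rad C.sm), fun z => by
    rw [h.B.val_mul (h.re_tm Z.sm), h.val_tm Z.sm, h.val_rad C.sm]; exact mul_nonneg (Z.pos _) (p _)⟩

namespace Fld
/-- The physical functionals. -/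
def g1 (Φ : Fld A) (W F : A) : ℝ := ∑ i, Φ.B.nsq W (Φ.L i F)
def g2 (Φ : Fld A) (W F : A) : ℝ := Φ.B.nsq W (∑ j, Φ.L j (Φ.L j F))
def WP (Φ : Fld A) (W : A) (p : ℕ) (U : A) : ℝ :=
  ∑ j ∈ Finset.range 4, Φ.sy (Φ.B.nsq W) (p - j) (Φ.wd (List.replicate j 1) U) +
    ∑ j ∈ Finset.range 3, Φ.sy (Φ.g1 W) (p - 1 - j) (Φ.wd (List.replicate j 1) U) +
    ∑ j ∈ Finset.range 2, Φ.sy (Φ.g2 W) (p - 2 - j) (Φ.wd (List.replicate j 1) U)
def DP (Φ : Fld A) (W : A) (p : ℕ) (U : A) : ℝ :=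
  Φ.sy (Φ.B.nsq W) p (Φ.R U) + Φ.sy (Φ.B.nsq W) (p + 1) U + Φ.sy (Φ.g1 W) p U
noncomputable def GP (Φ : Fld A) (W : A) (σ : Bool) (n : ℕ) (M a γ R1 : ℝ) (U : A) : ℝ :=
  cond σ (R1 ^ (γ - 3) * Φ.WP W n (Φ.R U) + R1 ^ (γ - 7) * Φ.WP W (n + 1) U)
    (R1 ^ (-3 : ℝ) * Φ.sy (Φ.B.nsq W) (n - 2) (Op.l3.ph Φ M a U))
def PP (Φ : Fld A) (z : A) (l : List Tm) (M a : ℝ) (H U : A) : ℝ :=
  (l.map fun τ => Φ.B.bil (z * Φ.rad fun r => τ.w (M, a, r)) (τ.al.ph Φ M a H)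
    (τ.be.ph Φ M a U)).sum

namespace Is
variable (h : Φ.Is) (hW : Φ.B.Wt W)
include h hW

theorem nsq_jq {p : ℕ} {C : ℝ} (e : ∀ x, Φ.B.md x F ≤ C * Φ.nq x p U) :
    Φ.B.nsq W F ≤ C ^ 2 * Φ.B.J (W * Φ.jq p U) := by
  rw [← J_rl]
  refine h.B.J_le (Φ.B.K.mul_mem_right _ hW.K)
    (Φ.B.K.mul_mem_left _ (Φ.B.K.mul_mem_right _ hW.K)) fun x => ?_
  rw [h.B.val_nsq hW.re, h.B.val_mul (h.B.re_rl _), h.B.val_rl, h.B.val_mul hW.re, ← h.nq_sq,
    mul_left_comm, ← mul_pow]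
  exact mul_le_mul_of_nonneg_left (pow_le_pow_left₀ (md_nonneg _ _) (e x) 2) (hW.pos x)

theorem nsq_wd {p : ℕ} (J : List (Fin 5)) (hJ : J.length ≤ p) :
    Φ.B.nsq W (Φ.wd J U) ≤ Φ.B.J (W * Φ.jq p U) := by
  simpa using h.nsq_jq hW (C := 1) fun x => by rw [one_mul]; exact h.bd_nq x p U J hJ

theorem Jq_nonneg (p : ℕ) (U : A) : 0 ≤ Φ.B.J (W * Φ.jq p U) :=
  (h.B.nsq_nonneg hW _).trans (h.nsq_wd hW [] p.zero_le)

theorem WP_le {p : ℕ} (hp : 3 ≤ p) (U : A) : Φ.WP W p U ≤ 31 * 3 ^ p * Φ.B.J (W * Φ.jq p U) := by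
  have q := h.Jq_nonneg hW p U
  have k : ∀ (g : A → ℝ) (n i : ℕ) (c : ℝ), 0 ≤ c → (∀ j < n, ∀ V : List (Fin 5),
      V.length ≤ p - i - j → g (Φ.wd V (Φ.wd (List.replicate j 1) U)) ≤ c * Φ.B.J (W * Φ.jq p U)) →
      ∑ j ∈ Finset.range n, Φ.sy g (p - i - j) (Φ.wd (List.replicate j 1) U) ≤
        n * (3 ^ p * (c * Φ.B.J (W * Φ.jq p U))) := fun g n i c hc e => by
    refine (Finset.sum_le_card_nsmul _ _ (3 ^ p * (c * Φ.B.J (W * Φ.jq p U))) fun j hj => ?_).trans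
      (by rw [Finset.card_range, nsmul_eq_mul])
    exact (sy_le _ _ fun V _ hV => e j (Finset.mem_range.1 hj) V hV).trans
      (mul_le_mul_of_nonneg_right (pow_le_pow_right₀ (by norm_num) (by omega)) (by positivity))
  have a := k (Φ.B.nsq W) 4 0 1 zero_le_one fun j hj V hV => by
    rw [← wd_append, one_mul]; exact h.nsq_wd hW _ (by simp; omega)
  have b := k (Φ.g1 W) 3 1 3 (by norm_num) fun j hj V hV => by
    have : ∀ i, Φ.B.nsq W (Φ.L i (Φ.wd V (Φ.wd (List.replicate j 1) U))) ≤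
        Φ.B.J (W * Φ.jq p U) := fun i => by
      rw [XL, ← wd_append, ← wd_cons]; exact h.nsq_wd hW _ (by simp; omega)
    rw [g1, Fin.sum_univ_three]
    linarith [this 0, this 1, this 2]
  have c := k (Φ.g2 W) 2 2 (3 ^ 2) (by norm_num) fun j hj V hV => h.nsq_jq hW fun x => by
    have : ∀ i, Φ.B.md x (Φ.L i (Φ.L i (Φ.wd V (Φ.wd (List.replicate j 1) U)))) ≤
        Φ.nq x p U := fun i => by
      rw [XL, ← wd_append, ← wd_cons, ← wd_cons]; exact h.bd_nq x p U _ (by simp; omega)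
    refine (md_sum _ _ _).trans ?_
    rw [Fin.sum_univ_three]
    linarith [this 0, this 1, this 2]
  simp only [Nat.sub_zero] at a
  rw [WP]
  push_cast at a b c
  linarith

omit hW in
theorem Y_R {V : List (Fin 5)} (hV : IsY V) (U : A) : Φ.R (Φ.wd V U) = Φ.wd V (Φ.R U) := by
  induction V with
  | nil => rfl
  | cons a V ih =>
    rw [wd_cons, wd_cons, ← ih hV.tail]
    rcases hV a List.mem_cons_self with rfl | rfl
    · exact (h.TR _).symm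
    · exact h.RL 2 _

theorem DP_ge {p : ℕ} {V : List (Fin 5)} (hV : IsY V) (hl : V.length ≤ p) (U : A) :
    Φ.B.J (W * Φ.jq 1 (Φ.wd V U)) ≤ nw 1 * Φ.DP W p U := by
  have n0 := h.B.nsq_nonneg hW
  have n1 : ∀ F, 0 ≤ Φ.g1 W F := fun F => Finset.sum_nonneg fun _ _ => n0 _
  have a := sy_nonneg (Φ := Φ) n0 p (Φ.R U)
  have b := sy_nonneg (Φ := Φ) n0 (p + 1) U
  have c := sy_nonneg (Φ := Φ) n1 p U
  have l : ∀ i, Φ.B.nsq W (Φ.L i (Φ.wd V U)) ≤ Φ.DP W p U := fun i => by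
    have := (Finset.single_le_sum (f := fun i => Φ.B.nsq W (Φ.L i (Φ.wd V U))) (fun _ _ => n0 _)
      (Finset.mem_univ i)).trans (sy_ge n1 p U V hV hl)
    rw [DP]; linarith
  rw [jq, lv, Finset.mul_sum, J_sum, nw, ← nsmul_eq_mul]
  refine Finset.sum_le_card_nsmul _ _ _ fun J hJ => ?_
  change Φ.B.nsq W (Φ.wd J (Φ.wd V U)) ≤ _
  match J, mem_words.1 hJ with
  | [], _ =>
    have := sy_ge (Φ := Φ) n0 (p + 1) U V hV (hl.trans p.le_succ)
    rw [DP, wd_nil]; linarith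
  | [x], _ =>
    revert x
    refine fin5 (fun _ _ => ?_) (fun _ _ => ?_) (fun _ _ => l 0) (fun _ _ => l 1) fun _ _ => l 2
    · have := sy_ge (Φ := Φ) n0 (p + 1) U (0 :: V) (fun y hy => (List.mem_cons.1 hy).elim .inl (hV y))
        (Nat.succ_le_succ hl)
      change Φ.B.nsq W (Φ.wd (0 :: V) U) ≤ _
      rw [DP]; linarith
    · have := sy_ge (Φ := Φ) n0 p (Φ.R U) V hV hl
      change Φ.B.nsq W (Φ.R (Φ.wd V U)) ≤ _
      rw [h.Y_R hV, DP]; linarith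

theorem GP_le (σ : Bool) {n : ℕ} (hn : 3 ≤ n) (M a γ : ℝ) {R1 : ℝ} (hR : 0 ≤ R1) (U : A) :
    Φ.GP W σ n M a γ R1 U ≤ 31 * 3 ^ (n + 1) * Φ.B.J (W * Φ.gd σ n M a γ R1 U) := by
  classical
  have p3 : (3 : ℝ) ^ n ≤ 3 ^ (n + 1) := pow_le_pow_right₀ (by norm_num) n.le_succ
  cases σ
  · simp only [GP, gd, cond]
    have n0 := h.B.nsq_nonneg hW
    have e : Φ.B.J (W * ∑ V ∈ (words (n - 2)).filter IsY, Φ.sq (Φ.wd V (Op.l3.ph Φ M a U))) =
        ∑ V ∈ (words (n - 2)).filter IsY, Φ.B.nsq W (Φ.wd V (Op.l3.ph Φ M a U)) := by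
      rw [Finset.mul_sum, J_sum]; rfl
    have q := Finset.sum_nonneg (s := (words (n - 2)).filter IsY)
      fun V _ => n0 (Φ.wd V (Op.l3.ph Φ M a U))
    have := sy_le (Φ := Φ) (g := Φ.B.nsq W) (n - 2) (Op.l3.ph Φ M a U) fun V hV hl =>
      Finset.single_le_sum (f := fun V => Φ.B.nsq W (Φ.wd V (Op.l3.ph Φ M a U))) (fun _ _ => n0 _)
        (Finset.mem_filter.2 ⟨mem_words.2 hl, hV⟩)
    rw [mul_left_comm W, J_rl, e, mul_left_comm]
    refine mul_le_mul_of_nonneg_left (this.trans (mul_le_mul_of_nonneg_right ?_ q)) (by positivity)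
    have : (3 : ℝ) ^ (n - 2) ≤ 3 ^ (n + 1) := pow_le_pow_right₀ (by norm_num) (by omega)
    nlinarith [pow_pos (show (0 : ℝ) < 3 by norm_num) (n + 1)]
  · simp only [GP, gd, cond]
    rw [mul_add W, J_add, mul_left_comm W, mul_left_comm W, J_rl, J_rl, mul_add, mul_left_comm,
      mul_left_comm _ (R1 ^ (γ - 7))]
    refine add_le_add (mul_le_mul_of_nonneg_left ((h.WP_le hW hn _).trans ?_) (by positivity))
      (mul_le_mul_of_nonneg_left (h.WP_le hW (by omega) _) (by positivity))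
    exact mul_le_mul_of_nonneg_right (by linarith) (h.Jq_nonneg hW _ _)

end Is
end Fld

variable {S : Type} [NormedAddCommGroup S] [InnerProductSpace ℂ S] {G : Ang S} {ι : Type}
  {om m : ι → ℝ} {κ : ℝ} {hat : ι → A → ℝ → S} {ζ c : ℝ → ℝ} {x y : ℝ} {v : ℝ → S}

theorem cont0 (s : G.Sm v) : Continuous fun r => ‖v r‖ ^ 2 := s.cont.norm.pow 2
theorem cont1 (s : G.Sm v) : Continuous fun r => ∑ i, ‖G.L i (v r)‖ ^ 2 :=
  continuous_finsetSum _ fun i _ => cont0 (s.L i)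
theorem cont2 (s : G.Sm v) : Continuous fun r => ‖G.cas (v r)‖ ^ 2 := by
  simp only [G.cas_apply]
  exact (continuous_finsetSum _ fun i _ => ((s.L i).L i).cont).neg.norm.pow 2
theorem cont_Wn (hG : G.Is) (s : G.Sm v) (om m : ℝ) (p : ℕ) : Continuous (Wn G om m p v) :=
  ((continuous_finsetSum _ fun j _ => continuous_const.mul (cont0 (hG.sm_iter s j))).add
    (continuous_finsetSum _ fun j _ => continuous_const.mul (cont1 (hG.sm_iter s j)))).add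
    (continuous_finsetSum _ fun j _ => continuous_const.mul (cont2 (hG.sm_iter s j)))
theorem cont_d1 (hG : G.Is) (s : G.Sm v) (om m : ℝ) : Continuous (d1 G om m v) :=
  ((cont0 (hG.sm_deriv s)).add (continuous_const.mul (cont0 s))).add (cont1 s)
theorem lam_pos (om m : ℝ) : 0 < lam om m := by rw [lam]; positivity
theorem Wn_nonneg (om m : ℝ) (p : ℕ) (v : ℝ → S) (r : ℝ) : 0 ≤ Wn G om m p v r := by
  have := lam_pos om m
  rw [Wn]; positivity
theorem d1_nonneg (om m : ℝ) (v : ℝ → S) (r : ℝ) : 0 ≤ d1 G om m v r := by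
  have := lam_pos om m
  rw [d1]; positivity

theorem cmul {f g : ℝ → ℝ} (hf : Continuous f) (hg : Continuous g) :
    Continuous fun r => f r * g r := hf.mul hg
theorem cadd {f g : ℝ → ℝ} (hf : Continuous f) (hg : Continuous g) :
    Continuous fun r => f r + g r := hf.add hg
theorem ccm (t : ℝ) {g : ℝ → ℝ} (hg : Continuous g) : Continuous fun r => t * g r :=
  continuous_const.mul hg

theorem hs_add {f g : ι → ℝ → ℝ} {s t : ℝ} (hf : ∀ i, Continuous (f i)) (hg : ∀ i, Continuous (g i))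
    (a : HasSum (fun i => ∫ r in x..y, f i r) s) (b : HasSum (fun i => ∫ r in x..y, g i r) t) :
    HasSum (fun i => ∫ r in x..y, (f i r + g i r)) (s + t) :=
  (a.add b).congr_fun fun i =>
    intervalIntegral.integral_add ((hf i).intervalIntegrable _ _) ((hg i).intervalIntegrable _ _)
theorem hs_mul {f : ι → ℝ → ℝ} {s : ℝ} (t : ℝ) (a : HasSum (fun i => ∫ r in x..y, f i r) s) :
    HasSum (fun i => ∫ r in x..y, t * f i r) (t * s) :=
  (a.mul_left t).congr_fun fun _ => intervalIntegral.integral_const_mul _ _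
theorem Cw.hs (C : Cw ra rb c x y) {f g : ι → ℝ → ℝ} {s : ℝ}
    (a : HasSum (fun i => ∫ r in x..y, f i r) s) (e : ∀ i, ∀ r ∈ Ioo ra rb, g i r = f i r) :
    HasSum (fun i => ∫ r in x..y, g i r) s :=
  a.congr_fun fun i => int_congr C.lo C.le C.hi (e i)

namespace Fld.Hat
variable (H : Φ.Hat G ta tb ra rb om m κ hat) (h : Φ.Is) (hG : G.Is) (Z : Cz Φ ζ ta tb ra rb)
  (C : Cw ra rb c x y)
include H h Z C

theorem par' (k : Φ.Cl ta tb F) (k' : Φ.Cl ta tb F') :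
    HasSum (fun i => ∫ r in x..y, c r * (⟪hat i F r, hat i F' r⟫_ℂ).re)
      (κ * Φ.B.bil (Φ.tm ζ * Φ.rad c) F F') := by
  have e : Φ.B.bil (Φ.rad c) F F' = Φ.B.bil (Φ.tm ζ * Φ.rad c) F F' := by
    refine h.B.J_congr (h.cs _ (isCompact_Icc.prod isCompact_Icc)
      ((prod_mono_right (Icc_subset_Icc C.lo.le C.hi.le)).trans Z.box) _ fun z hz => ?_)
      (Φ.B.K.mul_mem_right _ (Z.K c x y C.sm C.lo C.hi C.out)) fun z => ?_
    · rw [map_mul, map_mul, h.ev_rad C.sm]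
      rcases not_and_or.1 hz with e | e
      · rw [k.2 z e]; simp
      · rw [C.out _ e]; simp
    · rw [mul_assoc, h.B.val_mul (h.re_tm Z.sm), h.val_tm Z.sm]
      by_cases e : (Φ.pr z).1 ∈ Icc ta tb
      · rw [Z.one _ e, one_mul]
      · simp [val, k.2 z e]
  rw [← e]
  exact H.par c x y F F' C.sm C.lo C.le C.hi C.out k k'

theorem b0 (F : A) (k : Φ.Cl ta tb F) : HasSum (fun i => ∫ r in x..y, c r * ‖hat i F r‖ ^ 2)
    (κ * Φ.B.nsq (Φ.tm ζ * Φ.rad c) F) := by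
  simpa only [P354BF.ip_self, Complex.ofReal_re, nsq] using H.par' h Z C k k

theorem b2 (F : A) (k : Φ.Cl ta tb F) :
    HasSum (fun i => ∫ r in x..y, c r * ‖G.cas (hat i F r)‖ ^ 2)
      (κ * Φ.g2 (Φ.tm ζ * Φ.rad c) F) :=
  (H.b0 h Z C _ (k.LL h)).congr_fun fun i => int_congr C.lo C.le C.hi fun r hr => by
    simp only [H.cas i F k r hr, norm_neg]

include hG

theorem b1 (F : A) (k : Φ.Cl ta tb F) :
    HasSum (fun i => ∫ r in x..y, c r * ∑ j, ‖G.L j (hat i F r)‖ ^ 2)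
      (κ * Φ.g1 (Φ.tm ζ * Φ.rad c) F) := by
  have e : Φ.g1 (Φ.tm ζ * Φ.rad c) F =
      -Φ.B.bil (Φ.tm ζ * Φ.rad c) F (∑ j, Φ.L j (Φ.L j F)) := by
    rw [bil_sum_r, g1, ← Finset.sum_neg_distrib]
    refine Finset.sum_congr rfl fun j _ => ?_
    rw [nsq, (h.skL j).move (Z.K c x y C.sm C.lo C.hi C.out), D_mul, h.L_tm Z.sm, h.L_rad C.sm,
      mul_zero, mul_zero, add_zero, bil_zero_w, sub_zero]
  rw [e, mul_neg]
  refine (H.par' h Z C k (k.LL h)).neg.congr_fun fun i => ?_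
  rw [← intervalIntegral.integral_neg]
  exact int_congr C.lo C.le C.hi fun r hr => by
    simp only [H.cas i F k r hr, inner_neg_right, hG.cas_form, Complex.neg_re, Complex.ofReal_re,
      mul_neg, neg_neg]

theorem hs_sum {E : S → ℝ} {g : A → ℝ} (hE : ∀ (z : ℂ) v, E (z • v) = ‖z‖ ^ 2 * E v)
    (hc : ∀ v, G.Sm v → Continuous fun r => E (v r))
    (b : ∀ F, Φ.Cl ta tb F → HasSum (fun i => ∫ r in x..y, c r * E (hat i F r)) (κ * g F))
    (n : ℕ) (q : ℕ → ℕ) (k : Φ.Cl ta tb U) :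
    HasSum (fun i => ∫ r in x..y, c r * ∑ j ∈ Finset.range n,
      lam (om i) (m i) ^ q j * E (iteratedDeriv j (hat i U) r))
      (κ * ∑ j ∈ Finset.range n, Φ.sy g (q j) (Φ.wd (List.replicate j 1) U)) := by
  rw [Finset.mul_sum]
  refine (hasSum_sum fun j _ => H.sy h C.lo C.le C.hi hE b (q j) (k.wd h _)).congr_fun fun i => ?_
  simp only [Finset.mul_sum]
  rw [intervalIntegral.integral_finsetSum fun j _ => (cmul C.sm.continuous (ccm _
    (hc _ (hG.sm_iter (H.md i U k).1 j)))).intervalIntegrable _ _]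
  exact Finset.sum_congr rfl fun j _ => int_congr C.lo C.le C.hi fun r hr => by
    simp only [H.iter h i k j hr]

omit H h Z C hG in
theorem hE0 (z : ℂ) (v : S) : ‖z • v‖ ^ 2 = ‖z‖ ^ 2 * ‖v‖ ^ 2 := by rw [norm_smul, mul_pow]
omit H h Z C hG in
theorem hE1 (z : ℂ) (v : S) : ∑ j, ‖G.L j (z • v)‖ ^ 2 = ‖z‖ ^ 2 * ∑ j, ‖G.L j v‖ ^ 2 := by
  simp only [map_smul, hE0, Finset.mul_sum]
omit H h Z C hG in
theorem hE2 (z : ℂ) (v : S) : ‖G.cas (z • v)‖ ^ 2 = ‖z‖ ^ 2 * ‖G.cas v‖ ^ 2 := by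
  rw [map_smul, hE0]

theorem hs_Wn (p : ℕ) (k : Φ.Cl ta tb U) :
    HasSum (fun i => ∫ r in x..y, c r * Wn G (om i) (m i) p (hat i U) r)
      (κ * Φ.WP (Φ.tm ζ * Φ.rad c) p U) := by
  rw [WP, mul_add, mul_add]
  have s := fun i j => hG.sm_iter (H.md i U k).1 j
  have c0 := C.sm.continuous
  have a1 := fun i => cmul c0 (continuous_finsetSum (Finset.range 4) fun j _ =>
    ccm (lam (om i) (m i) ^ (p - j)) (cont0 (s i j)))
  have a2 := fun i => cmul c0 (continuous_finsetSum (Finset.range 3) fun j _ =>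
    ccm (lam (om i) (m i) ^ (p - 1 - j)) (cont1 (s i j)))
  have a3 := fun i => cmul c0 (continuous_finsetSum (Finset.range 2) fun j _ =>
    ccm (lam (om i) (m i) ^ (p - 2 - j)) (cont2 (s i j)))
  exact C.hs (hs_add (fun i => cadd (a1 i) (a2 i)) a3 (hs_add a1 a2
    (H.hs_sum h hG Z C (E := fun v => ‖v‖ ^ 2) hE0
      (fun _ => cont0) (H.b0 h Z C) 4 (fun j => p - j) k)
    (H.hs_sum h hG Z C (E := fun v => ∑ j, ‖G.L j v‖ ^ 2) hE1
      (fun _ => cont1) (H.b1 h hG Z C) 3 (fun j => p - 1 - j) k))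
    (H.hs_sum h hG Z C (E := fun v => ‖G.cas v‖ ^ 2) hE2
      (fun _ => cont2) (H.b2 h Z C) 2 (fun j => p - 2 - j) k))
    fun i r _ => by simp only [Wn, mul_add]

theorem hs_d1 (p : ℕ) (k : Φ.Cl ta tb U) :
    HasSum (fun i => ∫ r in x..y, c r * (lam (om i) (m i) ^ p * d1 G (om i) (m i) (hat i U) r))
      (κ * Φ.DP (Φ.tm ζ * Φ.rad c) p U) := by
  rw [DP, mul_add, mul_add]
  have c0 := C.sm.continuous
  have a1 := fun i => cmul c0 (ccm (lam (om i) (m i) ^ p) (cont0 (H.md i _ (k.R h)).1))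
  have a2 := fun i => cmul c0 (ccm (lam (om i) (m i) ^ (p + 1)) (cont0 (H.md i U k).1))
  have a3 := fun i => cmul c0 (ccm (lam (om i) (m i) ^ p) (cont1 (H.md i U k).1))
  exact C.hs (hs_add (fun i => cadd (a1 i) (a2 i)) a3 (hs_add a1 a2
    (H.sy h C.lo C.le C.hi (E := fun v => ‖v‖ ^ 2) hE0 (H.b0 h Z C) p (k.R h))
    (H.sy h C.lo C.le C.hi (E := fun v => ‖v‖ ^ 2) hE0 (H.b0 h Z C) (p + 1) k))
    (H.sy h C.lo C.le C.hi (E := fun v => ∑ j, ‖G.L j v‖ ^ 2) hE1 (H.b1 h hG Z C) p k))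
    fun i r hr => by simp only [d1, H.R i U k r hr]; ring

theorem hs_gc (σ : Bool) (n : ℕ) (M a γ R1 : ℝ) (k : Φ.Cl ta tb U) :
    HasSum (fun i => ∫ r in x..y, c r * gc G σ n M a γ R1 (om i) (m i) (hat i U) r)
      (κ * Φ.GP (Φ.tm ζ * Φ.rad c) σ n M a γ R1 U) := by
  cases σ
  · simp only [GP, gc, cond]
    rw [mul_left_comm]
    exact C.hs (hs_mul _ (H.sy h C.lo C.le C.hi (E := fun v => ‖v‖ ^ 2) hE0 (H.b0 h Z C)
      (n - 2) (k.ph h M a _ l3_sm)))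
      fun i r hr => by simp only [H.ph h i M a k _ l3_sm hr]; ring
  · simp only [GP, gc, cond]
    rw [mul_add, mul_left_comm, mul_left_comm κ]
    have c0 := C.sm.continuous
    exact C.hs (hs_add (fun i => ccm _ (cmul c0 (cont_Wn hG (H.md i _ (k.R h)).1 _ _ _)))
      (fun i => ccm _ (cmul c0 (cont_Wn hG (H.md i _ k).1 _ _ _)))
      (hs_mul _ (H.hs_Wn h hG Z C n (k.R h))) (hs_mul _ (H.hs_Wn h hG Z C (n + 1) k)))
      fun i r hr => by
        rw [Wn_congr (G := G) (om i) (m i) n (fun r hr => H.R i U k r hr) hr]; ring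

end Fld.Hat

theorem Fld.Hat.hs_pair (H : Φ.Hat G ta tb ra rb om m κ hat) (h : Φ.Is) (Z : Cz Φ ζ ta tb ra rb)
    (hx : ra < x) (hxy : x ≤ y) (hy : y < rb) {n : ℕ} (M a : ℝ) (l : List Tm)
    (hl : ∀ τ ∈ l, τ.Ok n x y) (k : Φ.Cl ta tb F) (k' : Φ.Cl ta tb U) {V : ι → ℝ → S}
    (e : ∀ i, EqOn (hat i F) (V i) (Ioo ra rb)) :
    HasSum (fun i => pair l M a (om i) (m i) x y (V i) (hat i U)) (κ * Φ.PP (Φ.tm ζ) l M a F U) := by
  induction l with
  | nil => simpa [pair, Fld.PP] using hasSum_zero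
  | cons τ l ih =>
    have t := hl τ List.mem_cons_self
    simp only [pair, Fld.PP, List.map_cons, List.sum_cons, mul_add]
    refine HasSum.add ?_ (ih fun τ k => hl τ (List.mem_cons_of_mem _ k))
    refine (H.par' h Z ⟨sm3 t.sw M a, hx, hxy, hy, t.out M a⟩ (k.ph h M a _ t.sa)
      (k'.ph h M a _ t.sb)).congr_fun fun i => int_congr hx hxy hy fun r hr => ?_
    simp only [H.ph h i M a k _ t.sa hr, H.ph h i M a k' _ t.sb hr,
      Op.cv_congr M a (om i) (m i) (e i) τ.al hr]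

end Vale.Agent.P354XT
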