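import Vale.Agent.P354XT.Par

/-!
The estimates at one frequency, summed over all frequencies.
-/

open scoped ContDiff InnerProductSpace
open Set Filter Topology
open Complex (I)

namespace Vale.Agent.P354XT

open Vale.Agent.P354XI
open Vale.Agent.P354XI.Ibp
open Vale.Agent.P354BF

/-- The parameters of the estimates. -/
structure Mp where
  σ : Bool
  n : ℕ
  l : List Tm
  f : ℝ × ℝ × ℝ → ℝ
  γ : ℝ
  r0 : ℝ
  r1 : ℝ
  q1 : ℝ
  q2 : ℝ
  q3 : ℝ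
  q4 : ℝ
  R0 : ℝ
  R1 : ℝ
  eH : ℝ
  C0 : ℝ
  C1 : ℝ

/-- The order of the radii. -/
structure Mp.Ok (p : Mp) : Prop where
  n4 : 4 ≤ p.n
  sm : ContDiff ℝ ∞ p.f
  l : ∀ τ ∈ p.l, τ.Ok p.n p.r0 (2 * p.R1)
  h0 : 0 < p.r0
  h1 : p.r0 < p.r1
  h2 : p.r1 < p.q1
  h3 : p.q1 < p.q2
  h4 : p.q2 ≤ p.q3
  h5 : p.q3 < p.q4
  h6 : p.q4 < p.R0
  h7 : 4 * p.R0 ≤ p.R1
  h8 : 2 ≤ p.R0
  eH : 0 < p.eH

variable {S : Type} [NormedAddCommGroup S] [InnerProductSpace ℂ S]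

/-- The two estimates at one frequency. -/
def Mp.BE (p : Mp) (G : Ang S) (M a : ℝ) : Prop :=
  ∀ (om m : ℝ) (v : ℝ → S), G.Md m v →
    ((∫ r in p.r1..p.q2, lam om m ^ p.n * d1 G om m v r) +
      (∫ r in p.q3..(3 * p.R0), lam om m ^ p.n * d1 G om m v r) +
      (∫ r in p.r1..(3 * p.R0), lam om m ^ (p.n - 1) * d1 G om m v r) ≤
      -pair p.l M a om m p.r0 (2 * p.R1) (G.P G.s G.s M a om m v) v +
      p.C0 * (∫ r in p.R1..(2 * p.R1), gc G p.σ p.n M a p.γ p.R1 om m v r) +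
      p.eH * (∫ r in p.r0..p.r1, Wn G om m (p.n + 1) v r) +
      p.C1 * ((∫ r in p.r0..p.q1, Wn G om m p.n v r) +
        (∫ r in p.q4..(2 * p.R1), Wn G om m p.n v r) + ∫ r in p.r0..(2 * p.R1),
          (Wn G om m (p.n - 1) v r + Wn G om m (p.n - 1) (G.P G.s G.s M a om m v) r))) ∧
    (∫ r in p.r1..(3 * p.R0), lam om m ^ p.n * d1 G om m v r) ≤
      -pair p.l M a om m p.r0 (2 * p.R1) (Nc G (fun r => p.f (M, a, r)) M a om m v) v +
      p.C1 * ∫ r in p.r0..(2 * p.R1),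
        (Wn G om m p.n v r + Wn G om m (p.n - 1) (G.P G.s G.s M a om m v) r)

/-- Weights below the indicator of [x, y], and above the indicator of [a, b]. -/
structure Lo (ra rb : ℝ) (c : ℝ → ℝ) (x y : ℝ) : Prop extends Cw ra rb c x y where
  pos : ∀ r, 0 ≤ c r
  one : ∀ r, c r ≤ 1
structure Hi (ra rb : ℝ) (c : ℝ → ℝ) (x y a b : ℝ) : Prop extends Cw ra rb c x y where
  pos : ∀ r, 0 ≤ c r
  xa : x ≤ a
  ab : a ≤ b
  yb : b ≤ y
  one : ∀ r ∈ Icc a b, 1 ≤ c r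

variable {ra rb x y a b : ℝ} {c φ : ℝ → ℝ}

theorem Lo.int (C : Lo ra rb c x y) (hφ : Continuous φ) (p : ∀ r, 0 ≤ φ r) :
    ∫ r in x..y, c r * φ r ≤ ∫ r in x..y, φ r :=
  intervalIntegral.integral_mono_on C.le ((cmul C.sm.continuous hφ).intervalIntegrable _ _)
    (hφ.intervalIntegrable _ _) fun r _ => mul_le_of_le_one_left (p r) (C.one r)

theorem Hi.int (C : Hi ra rb c x y a b) (hφ : Continuous φ) (p : ∀ r, 0 ≤ φ r) (t : ℝ) :
    t * ∫ r in a..b, φ r ≤ |t| * ∫ r in x..y, c r * φ r := by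
  have i := cmul C.sm.continuous hφ
  have a0 : 0 ≤ ∫ r in a..b, φ r := intervalIntegral.integral_nonneg C.ab fun r _ => p r
  refine (mul_le_mul_of_nonneg_right (le_abs_self t) a0).trans
    (mul_le_mul_of_nonneg_left (le_trans ?_ (intervalIntegral.integral_mono_interval C.xa C.ab C.yb
      (Eventually.of_forall fun r => mul_nonneg (C.pos r) (p r)) (i.intervalIntegrable _ _)))
      (abs_nonneg t))
  exact intervalIntegral.integral_mono_on C.ab (hφ.intervalIntegrable _ _)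
    (i.intervalIntegrable _ _) fun r hr => le_mul_of_one_le_left (p r) (C.one r hr)

variable {G : Ang S} {v : ℝ → S}

theorem Op.cv_sm (hG : G.Is) (M a om m : ℝ) (s : G.Sm v) : ∀ e : Op, e.Sm → G.Sm (e.cv M a om m v)
  | .one, _ => s
  | .T e, k => (cv_sm hG M a om m s e k).cmul _
  | .R e, k => hG.sm_deriv (cv_sm hG M a om m s e k)
  | .F e, k => (cv_sm hG M a om m s e k).cmul _
  | .mul _ e, k => (cv_sm hG M a om m s e k.2).smul
      (Complex.ofRealCLM.contDiff.comp (sm3 k.1 M a))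
  | .add e e', k => (cv_sm hG M a om m s e k.1).add (cv_sm hG M a om m s e' k.2)

theorem cont_gc (hG : G.Is) (s : G.Sm v) (σ : Bool) (n : ℕ) (M a γ R1 om m : ℝ) :
    Continuous (gc G σ n M a γ R1 om m v) := by
  cases σ
  · exact ccm _ (ccm _ (cont0 (Op.cv_sm hG M a om m s _ l3_sm)))
  · exact cadd (ccm _ (cont_Wn hG (hG.sm_deriv s) _ _ _)) (ccm _ (cont_Wn hG s _ _ _))

theorem gc_nonneg (σ : Bool) (n : ℕ) (M a γ : ℝ) {R1 : ℝ} (hR : 0 ≤ R1) (om m r : ℝ) :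
    0 ≤ gc G σ n M a γ R1 om m v r := by
  have := lam_pos om m
  have := Wn_nonneg (G := G) om m n (deriv v) r
  have := Wn_nonneg (G := G) om m (n + 1) v r
  cases σ <;> simp only [gc, cond] <;> positivity

variable {A : Type} [CommRing A] [Algebra ℂ A] {Φ : Fld A} {ta tb M : ℝ} {U : A} {ι : Type}
  {om m : ι → ℝ} {κ : ℝ} {hat : ι → A → ℝ → S} {ζ : ℝ → ℝ} {p : Mp}

theorem phE (H : Φ.Hat G ta tb ra rb om m κ hat) (h : Φ.Is) (hG : G.Is) (hs : G.s = Φ.s)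
    (Z : Cz Φ ζ ta tb ra rb) (o : p.Ok) (e : p.BE G M a) {c1 cA : ℝ → ℝ} {xA yA : ℝ}
    (k1 : Lo ra rb c1 p.r1 (3 * p.R0)) (kA : Hi ra rb cA xA yA p.r0 (2 * p.R1))
    (k : Φ.Cl ta tb U) :
    Φ.DP (Φ.tm ζ * Φ.rad c1) p.n U ≤ -Φ.PP (Φ.tm ζ) p.l M a (Φ.Nn p.f M a U) U +
      |p.C1| * (Φ.WP (Φ.tm ζ * Φ.rad cA) p.n U +
        Φ.WP (Φ.tm ζ * Φ.rad cA) (p.n - 1) (Φ.P Φ.s Φ.s M a U)) := by
  have kP := k.P h Φ.s Φ.s M a
  have := hasSum_le (fun i => ?_) (H.hs_d1 h hG Z k1.toCw p.n k)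
    ((H.hs_pair h Z (kA.lo.trans_le kA.xa) kA.ab (kA.yb.trans_lt kA.hi) M a p.l o.l (k.N h o.sm M a)
      k fun i => H.N h i o.sm M a k).neg.add
      (((H.hs_Wn h hG Z kA.toCw p.n k).add (H.hs_Wn h hG Z kA.toCw (p.n - 1) kP)).mul_left |p.C1|))
  · refine le_of_mul_le_mul_left (this.trans (le_of_eq ?_)) H.pos
    ring
  · have s := (H.md i U k).1
    have sP := hG.sm_P s G.s G.s M a (om i) (m i)
    have a1 := k1.int (ccm (lam (om i) (m i) ^ p.n) (cont_d1 hG s (om i) (m i))) fun r =>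
      mul_nonneg (pow_pos (lam_pos _ _) _).le (d1_nonneg _ _ _ r)
    have w1 := cont_Wn hG s (om i) (m i) p.n
    have w2 := cont_Wn hG sP (om i) (m i) (p.n - 1)
    have a2 := kA.int (cadd w1 w2)
      (fun r => add_nonneg (Wn_nonneg _ _ _ _ r) (Wn_nonneg _ _ _ _ r)) p.C1
    simp only [mul_add] at a2
    rw [intervalIntegral.integral_add ((cmul kA.sm.continuous w1).intervalIntegrable _ _)
      ((cmul kA.sm.continuous w2).intervalIntegrable _ _)] at a2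
    rw [int_congr kA.lo kA.le kA.hi (f := fun r => cA r * Wn G (om i) (m i) (p.n - 1)
      (hat i (Φ.P Φ.s Φ.s M a U)) r) (g := fun r => cA r * Wn G (om i) (m i) (p.n - 1)
        (G.P G.s G.s M a (om i) (m i) (hat i U)) r) fun r hr => by
          simp only [hs, Wn_congr (G := G) (om i) (m i) (p.n - 1) (H.P h i Φ.s Φ.s M a k) hr]]
    linarith [(e (om i) (m i) _ (H.md i U k)).2]

theorem phB (H : Φ.Hat G ta tb ra rb om m κ hat) (h : Φ.Is) (hG : G.Is) (hs : G.s = Φ.s)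
    (Z : Cz Φ ζ ta tb ra rb) (o : p.Ok) (e : p.BE G M a) {c1 c2 c3 cG cH cS cT cA : ℝ → ℝ}
    {xG yG xH yH xS yS xT yT xA yA : ℝ} (k1 : Lo ra rb c1 p.r1 (3 * p.R0))
    (k2 : Lo ra rb c2 p.r1 p.q2) (k3 : Lo ra rb c3 p.q3 (3 * p.R0))
    (kG : Hi ra rb cG xG yG p.R1 (2 * p.R1)) (kH : Hi ra rb cH xH yH p.r0 p.r1)
    (kS : Hi ra rb cS xS yS p.r0 p.q1) (kT : Hi ra rb cT xT yT p.q4 (2 * p.R1))
    (kA : Hi ra rb cA xA yA p.r0 (2 * p.R1)) (k : Φ.Cl ta tb U) :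
    Φ.DP (Φ.tm ζ * Φ.rad c2) p.n U + Φ.DP (Φ.tm ζ * Φ.rad c3) p.n U +
      Φ.DP (Φ.tm ζ * Φ.rad c1) (p.n - 1) U ≤
      -Φ.PP (Φ.tm ζ) p.l M a (Φ.P Φ.s Φ.s M a U) U +
      |p.C0| * Φ.GP (Φ.tm ζ * Φ.rad cG) p.σ p.n M a p.γ p.R1 U +
      |p.eH| * Φ.WP (Φ.tm ζ * Φ.rad cH) (p.n + 1) U +
      |p.C1| * (Φ.WP (Φ.tm ζ * Φ.rad cS) p.n U + Φ.WP (Φ.tm ζ * Φ.rad cT) p.n U +
        (Φ.WP (Φ.tm ζ * Φ.rad cA) (p.n - 1) U +
          Φ.WP (Φ.tm ζ * Φ.rad cA) (p.n - 1) (Φ.P Φ.s Φ.s M a U))) := by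
  have kP := k.P h Φ.s Φ.s M a
  have := hasSum_le (fun i => ?_) (((H.hs_d1 h hG Z k2.toCw p.n k).add
    (H.hs_d1 h hG Z k3.toCw p.n k)).add (H.hs_d1 h hG Z k1.toCw (p.n - 1) k))
    ((((H.hs_pair h Z (kA.lo.trans_le kA.xa) kA.ab (kA.yb.trans_lt kA.hi) M a p.l o.l kP k
      (V := fun i => G.P G.s G.s M a (om i) (m i) (hat i U))
      fun i => by rw [hs]; exact H.P h i Φ.s Φ.s M a k).neg.add
      ((H.hs_gc h hG Z kG.toCw p.σ p.n M a p.γ p.R1 k).mul_left |p.C0|)).add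
      ((H.hs_Wn h hG Z kH.toCw (p.n + 1) k).mul_left |p.eH|)).add
      ((((H.hs_Wn h hG Z kS.toCw p.n k).add (H.hs_Wn h hG Z kT.toCw p.n k)).add
        ((H.hs_Wn h hG Z kA.toCw (p.n - 1) k).add
          (H.hs_Wn h hG Z kA.toCw (p.n - 1) kP))).mul_left |p.C1|))
  · refine le_of_mul_le_mul_left (le_of_eq_of_le ?_ (this.trans (le_of_eq ?_))) H.pos <;> ring
  · have s := (H.md i U k).1
    have sP := hG.sm_P s G.s G.s M a (om i) (m i)
    have d := fun q => ccm (lam (om i) (m i) ^ q) (cont_d1 hG s (om i) (m i))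
    have dp := fun (q : ℕ) r => mul_nonneg (pow_pos (lam_pos (om i) (m i)) q).le
      (d1_nonneg (G := G) (om i) (m i) (hat i U) r)
    have w1 := cont_Wn hG s (om i) (m i)
    have w2 := cont_Wn hG sP (om i) (m i) (p.n - 1)
    have wp := fun q => Wn_nonneg (G := G) (om i) (m i) q (hat i U)
    have a2 := kA.int (cadd (w1 (p.n - 1)) w2)
      (fun r => add_nonneg (Wn_nonneg _ _ _ _ r) (Wn_nonneg _ _ _ _ r)) p.C1
    simp only [mul_add] at a2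
    rw [intervalIntegral.integral_add ((cmul kA.sm.continuous (w1 _)).intervalIntegrable _ _)
      ((cmul kA.sm.continuous w2).intervalIntegrable _ _)] at a2
    rw [int_congr kA.lo kA.le kA.hi (f := fun r => cA r * Wn G (om i) (m i) (p.n - 1)
      (hat i (Φ.P Φ.s Φ.s M a U)) r) (g := fun r => cA r * Wn G (om i) (m i) (p.n - 1)
        (G.P G.s G.s M a (om i) (m i) (hat i U)) r) fun r hr => by
          simp only [hs, Wn_congr (G := G) (om i) (m i) (p.n - 1) (H.P h i Φ.s Φ.s M a k) hr]]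
    have hR : 0 ≤ p.R1 := by linarith [o.h7, o.h8]
    linarith [(e (om i) (m i) _ (H.md i U k)).1, k1.int (d (p.n - 1)) (dp _),
      k2.int (d p.n) (dp _), k3.int (d p.n) (dp _),
      kG.int (cont_gc hG s p.σ p.n M a p.γ p.R1 (om i) (m i))
        (gc_nonneg p.σ p.n M a p.γ hR (om i) (m i)) p.C0,
      kH.int (w1 (p.n + 1)) (wp _) p.eH, kS.int (w1 p.n) (wp _) p.C1, kT.int (w1 p.n) (wp _) p.C1]

end Vale.Agent.P354XT
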